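import Crest.Agent.R27.Rec.Base

/-!
Row 27, block REC: sextic reciprocity over a number field containing `ω`.  Prefix: `maa_`, `mab_`, `mac_`.
-/

set_option autoImplicit false

namespace Crest.Agent.R27.Rec

open Crest.Agent.R17 Crest.NumberTheoryR.EisensteinField Function Matrix
open scoped Classical NumberField

variable {F : Type} [Field F] [NumberField F] [Algebra K3 F]

variable (F) in
/-- the index set of a basis of `F` over `K3` -/
abbrev kk : Type := Fin (Module.finrank K3 F)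

variable (F) in
/-- a basis of `F` over `K3` -/
noncomputable def bs : Module.Basis (kk F) K3 F := Module.finBasis K3 F

/-- the matrix of multiplication by `y` -/
noncomputable def Mm (y : F) : Matrix (kk F) (kk F) K3 := Algebra.leftMulMatrix (bs F) y

/-- the matrix of `(u, v)` on `F × F` -/
noncomputable def Dg (u v : F) : Matrix (kk F ⊕ kk F) (kk F ⊕ kk F) K3 := fromBlocks (Mm u) 0 0 (Mm v)

/-- the lattice `𝓞 F × 𝓞 F` -/
noncomputable def jF : (𝓞 F × 𝓞 F) →ₗ[O] (kk F ⊕ kk F → K3) where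
  toFun p := Sum.elim ((bs F).repr (p.1 : F)) ((bs F).repr (p.2 : F))
  map_add' p q := by
    funext i
    rcases i with i | i <;> simp
  map_smul' c p := by
    have h : ∀ x : 𝓞 F, ((c • x : 𝓞 F) : F) = algebraMap O K3 c • (x : F) := fun x => by
      rw [algebraMap_smul]
      exact (IsScalarTower.toAlgHom O (𝓞 F) F).toLinearMap.map_smul c x
    funext i
    rcases i with i | i
    · change (bs F).repr ((c • p.1 : 𝓞 F) : F) i = c • (bs F).repr (p.1 : F) i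
      rw [h, map_smul, Finsupp.smul_apply, algebraMap_smul]
    · change (bs F).repr ((c • p.2 : 𝓞 F) : F) i = c • (bs F).repr (p.2 : F) i
      rw [h, map_smul, Finsupp.smul_apply, algebraMap_smul]

/-! ### Part a -/

theorem Dg_mul (u v u' v' : F) : Dg u v * Dg u' v' = Dg (u * u') (v * v') := by
  simp [Dg, Mm, fromBlocks_multiply, map_mul]

theorem Dg_one : Dg (1 : F) 1 = 1 := by
  simp [Dg, Mm, map_one]

theorem det_Dg {a : F} (ha : a ≠ 0) : (Dg a a⁻¹).det = 1 := by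
  rw [Dg, det_fromBlocks_zero₂₁, ← det_mul, Mm, Mm, ← map_mul, mul_inv_cancel₀ ha, map_one, det_one]

theorem jF_inj : Injective (jF (F := F)) := by
  intro p q h
  refine Prod.ext (Subtype.ext ((bs F).repr.injective (Finsupp.ext fun i => ?_)))
    (Subtype.ext ((bs F).repr.injective (Finsupp.ext fun i => ?_)))
  · exact congrFun h (Sum.inl i)
  · exact congrFun h (Sum.inr i)

omit [Algebra K3 F] in
theorem maa_den (x : F) : ∃ (m : ℕ) (r : 𝓞 F), m ≠ 0 ∧ m • x = (r : F) :=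
  ((IsFractionRing.isAlgebraic_iff ℤ ℚ F).2 (Algebra.IsAlgebraic.isAlgebraic x)).exists_nsmul_eq (𝓞 F)

theorem jF_full (v : kk F ⊕ kk F → K3) : ∃ n : ℕ, n ≠ 0 ∧ ∃ p, jF p = n • v := by
  obtain ⟨m, r, hm, hr⟩ := maa_den ((bs F).equivFun.symm fun i => v (Sum.inl i))
  obtain ⟨n, s, hn, hs⟩ := maa_den ((bs F).equivFun.symm fun i => v (Sum.inr i))
  refine ⟨m * n, mul_ne_zero hm hn, (n • r, m • s), funext fun i => ?_⟩
  have e : ∀ (w : kk F → K3) (j : kk F), (bs F).repr ((bs F).equivFun.symm w) j = w j := fun w j => by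
    rw [← Module.Basis.equivFun_apply, LinearEquiv.apply_symm_apply]
  rcases i with i | i
  · change (bs F).repr (n • (r : F)) i = (m * n) • v (Sum.inl i)
    rw [← hr, map_nsmul, map_nsmul, Finsupp.smul_apply, Finsupp.smul_apply, e, smul_smul, mul_comm]
  · change (bs F).repr (m • (s : F)) i = (m * n) • v (Sum.inr i)
    rw [← hs, map_nsmul, map_nsmul, Finsupp.smul_apply, Finsupp.smul_apply, e, smul_smul]

/-- `Algebra.leftMulMatrix_mulVec_repr` -/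
theorem jF_mul (u v : 𝓞 F) (p : 𝓞 F × 𝓞 F) : jF (u * p.1, v * p.2) = Dg (u : F) (v : F) *ᵥ jF p := by
  change Sum.elim ((bs F).repr ((u : F) * p.1)) ((bs F).repr ((v : F) * p.2)) =
    Dg (u : F) (v : F) *ᵥ Sum.elim ((bs F).repr (p.1 : F)) ((bs F).repr (p.2 : F))
  rw [Dg, fromBlocks_mulVec, zero_mulVec, zero_mulVec, add_zero, zero_add, Sum.elim_comp_inl,
    Sum.elim_comp_inr, Mm, Mm, Algebra.leftMulMatrix_mulVec_repr, Algebra.leftMulMatrix_mulVec_repr]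

variable (F) in
/-- bounded denominators: `𝓞 F` is spanned over `ℤ` by a finite set; `exists_aa`, `aa_anti`-like monotonicity in `d` -/
theorem exists_den : ∃ d : ℕ, ∀ (y : 𝓞 F) (p q : kk F), 6 ^ d * Mm (y : F) p q ∈ aa 0 := by
  obtain ⟨s, hs⟩ := Module.Finite.fg_top (R := ℤ) (M := 𝓞 F)
  choose d hd using fun w : 𝓞 F × kk F × kk F => exists_aa (Mm (w.1 : F) w.2.1 w.2.2)
  refine ⟨(s ×ˢ Finset.univ).sup d, fun y p q => ?_⟩
  have hy : y ∈ Submodule.span ℤ (s : Set (𝓞 F)) := hs ▸ Submodule.mem_top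
  induction hy using Submodule.span_induction with
  | mem y hy =>
    obtain ⟨k, hk⟩ := Nat.exists_eq_add_of_le'
      (Finset.le_sup (f := d) (Finset.mk_mem_product hy (Finset.mem_univ (p, q))))
    rw [hk, pow_add, mul_assoc]
    exact aa_anti (Nat.zero_le _) (aa_pow_mul.2 (hd (y, p, q)))
  | zero => simp [Mm, zero_mem]
  | add y z _ _ hy hz =>
    have e : ((y + z : 𝓞 F) : F) = y + z := rfl
    rw [e, Mm, map_add, Matrix.add_apply, mul_add]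
    exact add_mem hy hz
  | smul c y _ hy =>
    have e : ((c • y : 𝓞 F) : F) = c • (y : F) := rfl
    rw [e, Mm, map_zsmul, Matrix.smul_apply, mul_smul_comm]
    exact zsmul_mem hy c

/-! ### Part b -/

/-- multiplication by `(u, v)` -/
noncomputable def mab_d (u v : 𝓞 F) : (𝓞 F × 𝓞 F) →ₗ[O] (𝓞 F × 𝓞 F) :=
  (LinearMap.mulLeft O u).prodMap (LinearMap.mulLeft O v)

omit [NumberField F] in
theorem mab_d_apply (u v : 𝓞 F) (p : 𝓞 F × 𝓞 F) : mab_d u v p = (u * p.1, v * p.2) := rfl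

/-- reduction of the first slot -/
noncomputable def mab_q1 (I : Ideal (𝓞 F)) : (𝓞 F × 𝓞 F) →ₗ[O] (𝓞 F ⧸ I) :=
  (Ideal.Quotient.mkₐ O I).toLinearMap ∘ₗ LinearMap.fst O _ _

/-- reduction of the second slot -/
noncomputable def mab_q2 (I : Ideal (𝓞 F)) : (𝓞 F × 𝓞 F) →ₗ[O] (𝓞 F ⧸ I) :=
  (Ideal.Quotient.mkₐ O I).toLinearMap ∘ₗ LinearMap.snd O _ _

omit [NumberField F] in
theorem mab_q1_apply (I : Ideal (𝓞 F)) (p : 𝓞 F × 𝓞 F) : mab_q1 I p = Ideal.Quotient.mk I p.1 := rfl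

omit [NumberField F] in
theorem mab_q2_apply (I : Ideal (𝓞 F)) (p : 𝓞 F × 𝓞 F) : mab_q2 I p = Ideal.Quotient.mk I p.2 := rfl

omit [NumberField F] in
theorem mab_q1_surj (I : Ideal (𝓞 F)) : Surjective (mab_q1 I) := by
  intro c
  obtain ⟨x, rfl⟩ := Ideal.Quotient.mk_surjective c
  exact ⟨(x, 0), rfl⟩

omit [NumberField F] in
theorem mab_q2_surj (I : Ideal (𝓞 F)) : Surjective (mab_q2 I) := by
  intro c
  obtain ⟨x, rfl⟩ := Ideal.Quotient.mk_surjective c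
  exact ⟨(0, x), rfl⟩

theorem mab_mem {A : Type*} [CommRing A] {b : A} {J J₆ : Ideal A} {m : ℕ} (hJ : Ideal.span {b} = J * J₆)
    (h6 : Cp J 6) (hm : (6 : A) ^ m ∈ J₆) (x : A) : x ∈ J ↔ ∃ (k : ℕ) (w : A), b * w = 6 ^ k * x := by
  constructor
  · intro hx
    have : x * 6 ^ m ∈ Ideal.span {b} := hJ ▸ Ideal.mul_mem_mul hx hm
    obtain ⟨w, hw⟩ := Ideal.mem_span_singleton.1 this
    exact ⟨m, w, by rw [← hw, mul_comm]⟩
  · rintro ⟨k, w, hw⟩
    have hb : b ∈ J := by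
      have := Ideal.mem_span_singleton_self b
      rw [hJ] at this
      exact (Ideal.mul_le_inf this).1
    obtain ⟨v, hv⟩ := cp_iff.1 (h6.pow k)
    have h1 : x = v * (b * w) - (6 ^ k * v - 1) * x := by rw [hw]; ring
    rw [h1]
    exact J.sub_mem (J.mul_mem_left _ (J.mul_mem_right _ hb)) (J.mul_mem_right _ hv)

theorem mab_ker1 {b : 𝓞 F} {J J₆ : Ideal (𝓞 F)} {m : ℕ} (hJ : Ideal.span {b} = J * J₆) (h6 : Cp J 6)
    (hm : (6 : 𝓞 F) ^ m ∈ J₆) (p : 𝓞 F × 𝓞 F) :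
    mab_q1 J p = 0 ↔ ∃ (k : ℕ) (w : 𝓞 F × 𝓞 F), mab_d b 1 w = (6 ^ k : ℕ) • p := by
  rw [mab_q1_apply, Ideal.Quotient.eq_zero_iff_mem, mab_mem hJ h6 hm]
  constructor
  · rintro ⟨k, w, hw⟩
    exact ⟨k, (w, 6 ^ k * p.2), Prod.ext (by simpa [mab_d_apply] using hw) (by simp [mab_d_apply])⟩
  · rintro ⟨k, w, hw⟩
    exact ⟨k, w.1, by simpa [mab_d_apply] using congrArg Prod.fst hw⟩

theorem mab_ker2 {b : 𝓞 F} {J J₆ : Ideal (𝓞 F)} {m : ℕ} (hJ : Ideal.span {b} = J * J₆) (h6 : Cp J 6)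
    (hm : (6 : 𝓞 F) ^ m ∈ J₆) (p : 𝓞 F × 𝓞 F) :
    mab_q2 J p = 0 ↔ ∃ (k : ℕ) (w : 𝓞 F × 𝓞 F), mab_d 1 b w = (6 ^ k : ℕ) • p := by
  rw [mab_q2_apply, Ideal.Quotient.eq_zero_iff_mem, mab_mem hJ h6 hm]
  constructor
  · rintro ⟨k, w, hw⟩
    exact ⟨k, (6 ^ k * p.1, w), Prod.ext (by simp [mab_d_apply]) (by simpa [mab_d_apply] using hw)⟩
  · rintro ⟨k, w, hw⟩
    exact ⟨k, w.2, by simpa [mab_d_apply] using congrArg Prod.snd hw⟩

theorem Dg_comm (u v u' v' : F) : Commute (Dg u v) (Dg u' v') := by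
  change _ = _
  rw [Dg_mul, Dg_mul, mul_comm u, mul_comm v]

theorem m_lift_Dg {u v : F} (hu : u ≠ 0) (hv : v ≠ 0) : (ce _).m ((ce _).lift (Dg u v)) = Dg u v :=
  CE.m_lift (M' := Dg u⁻¹ v⁻¹) (by rw [Dg_mul, mul_inv_cancel₀ hu, mul_inv_cancel₀ hv, Dg_one])

/-- the commutator is the quotient of the two residue symbols -/
theorem ez_cv {a b : 𝓞 F} {I I₆ J J₆ : Ideal (𝓞 F)} {l m : ℕ} (ha : a ≠ 0) (hI : Ideal.span {a} = I * I₆)
    (hI6 : Cp I 6) (hl : (6 : 𝓞 F) ^ l ∈ I₆) (hJ : Ideal.span {b} = J * J₆) (hJ6 : Cp J 6)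
    (hm : (6 : 𝓞 F) ^ m ∈ J₆) (hIb : Cp I b) (hJa : Cp J a) {x y : EE (kk F ⊕ kk F)}
    (hx : (ce _).m x = Dg (a : F) (a : F)⁻¹) (hy : (ce _).m y = Dg (b : F) 1) :
    ez (cv x y) * sI a J = sI b I := by
  have ha' : (a : F) ≠ 0 := by exact_mod_cast ha
  have := finite_ideal hI6
  have := finite_ideal hJ6
  have hx₁ := m_lift_Dg ha' one_ne_zero
  have hx₂ := m_lift_Dg one_ne_zero ha'
  have o1 : ((1 : 𝓞 F) : F) = 1 := rfl
  have hone : ∀ I : Ideal (𝓞 F), Cp I 1 := fun I => cp_iff.2 ⟨1, by simp⟩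
  have k1 := comm_P _ y (by rw [hx₁, hy]; exact Dg_comm _ _ _ _) jF_inj jF_full (mab_d a 1) (mab_d b 1)
    (fun p => by rw [hx₁, mab_d_apply, jF_mul, o1]) (fun p => by rw [hy, mab_d_apply, jF_mul, o1])
    (fr_ideal hI6) (fr_ideal hJ6) (mab_q1 I) (mab_q1 J) (mab_q1_surj _) (mab_q1_surj _)
    (mab_ker1 hI hI6 hl) (mab_ker1 hJ hJ6 hm) (mq_bij hJa) (mq_bij hIb) (fun _ => rfl) (fun _ => rfl)
  have k2 := comm_P _ y (by rw [hx₂, hy]; exact Dg_comm _ _ _ _) jF_inj jF_full (mab_d 1 a) (mab_d b 1)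
    (fun p => by rw [hx₂, mab_d_apply, jF_mul, o1]) (fun p => by rw [hy, mab_d_apply, jF_mul, o1])
    (fr_ideal hI6) (fr_ideal hJ6) (mab_q2 I) (mab_q1 J) (mab_q2_surj _) (mab_q1_surj _)
    (mab_ker2 hI hI6 hl) (mab_ker1 hJ hJ6 hm) (mq_bij (hone J)) (mq_bij (hone I)) (fun _ => rfl) (fun _ => rfl)
  have z1 : ∀ I : Ideal (𝓞 F), sym (mq I 1) = 0 := fun I => sym_of_eq_id fun x => by
    obtain ⟨x, rfl⟩ := Ideal.Quotient.mk_surjective x
    rw [mq_mk, one_mul]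
  have e1 := cv_eq k1
  have e2 := cv_eq k2
  rw [z1, z1] at e2
  have e3 : cv ((ce _).lift (Dg (a : F) 1)) y = cv x y + cv ((ce _).lift (Dg 1 (a : F))) y := by
    rw [← cv_mul_left (by rw [hx, hy]; exact Dg_comm _ _ _ _) (by rw [hx₂, hy]; exact Dg_comm _ _ _ _)]
    exact cv_congr (by rw [CE.m_mul, hx, hx₁, hx₂, Dg_mul, mul_one, inv_mul_cancel₀ ha']) rfl
  have e4 : cv x y = sym (mq I b) - sym (mq J a) := by linear_combination e1 - e2 - e3
  rw [e4, ← ez_sym hJ6 hJa, ez_sub_mul, ez_sym hI6 hIb]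

/-- `x₁`, `x₂` lifts of `Dg a 1`, `Dg 1 a`; `cv x₁ y = cv x y + cv x₂ y` (`cv_congr`, `cv_mul_left`); `comm_P` with `jF`
for `(x₁, y)` and `(x₂, y)`: `qa = mk ∘ fst` resp. `mk ∘ snd` into `𝓞 F ⧸ span {a}`, `qb = mk ∘ fst` into `𝓞 F ⧸ J`;
the sign terms cancel; `sym_of_eq_id`, `ez_sym`. -/
theorem eq_of_commute {a b : 𝓞 F} {J J₆ : Ideal (𝓞 F)} {m : ℕ} (ha : IsCoprime a 6) (hb : b ≠ 0)
    (hab : IsCoprime a b) (hJ : Ideal.span {b} = J * J₆) (h6 : Cp J 6) (hm : (6 : 𝓞 F) ^ m ∈ J₆)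
    {x y : EE (kk F ⊕ kk F)} (hx : (ce _).m x = Dg (a : F) (a : F)⁻¹) (hy : (ce _).m y = Dg (b : F) 1)
    (h : Commute x y) : sE b a = sI a J := by
  have h6a : Cp (Ideal.span {a}) 6 := cp_span.2 ha
  have ha0 : a ≠ 0 := fun h0 => h6a.ne_bot (by rw [h0, Ideal.span_singleton_eq_bot])
  have hJa : Cp J a := (cp_mul_left.1 (hJ ▸ cp_span.2 hab.symm : Cp (J * J₆) a)).1
  have := ez_cv (I₆ := ⊤) (l := 0) ha0 (Ideal.mul_top _).symm h6a Submodule.mem_top hJ h6 hm (cp_span.2 hab) hJa hx hy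
  rw [cv_of_commute h, ez_zero, one_mul] at this
  exact this.symm

/-! ### Part c -/

theorem mac1_ent {d : ℕ} (hd : ∀ (y : 𝓞 F) (p q : kk F), 6 ^ d * Mm (y : F) p q ∈ aa 0) {n i j : ℕ}
    (hn : n % 6 = 1) {z : F} {y : 𝓞 F} (h : (n : F) * (6 ^ i * z) = 6 ^ j * (y : F)) (p q : kk F) :
    6 ^ (d + i) * Mm z p q ∈ aa j := by
  have h1 : ((n * 6 ^ i : ℕ) : K3) • z = ((6 ^ j : ℕ) : K3) • (y : F) := by
    rw [Nat.cast_smul_eq_nsmul, Nat.cast_smul_eq_nsmul, nsmul_eq_mul, nsmul_eq_mul]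
    push_cast
    rw [← h, mul_assoc]
  have h2 : ((n * 6 ^ i : ℕ) : K3) * Mm z p q = ((6 ^ j : ℕ) : K3) * Mm (y : F) p q := by
    have := congrArg (fun w => Algebra.leftMulMatrix (bs F) w p q) h1
    simpa only [Mm, map_smul, Matrix.smul_apply, smul_eq_mul] using this
  have hn0 : (n : K3) ≠ 0 := Nat.cast_ne_zero.2 (by omega)
  have h3 : 6 ^ (d + i) * Mm z p q = (n : K3)⁻¹ * (6 ^ j * (6 ^ d * Mm (y : F) p q)) := by
    push_cast at h2
    rw [eq_inv_mul_iff_mul_eq₀ hn0, pow_add]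
    linear_combination (6 : K3) ^ d * h2
  rw [h3]
  simpa using aa_mul (aa_inv_nat hn) ((aa_pow_mul (d := j)).2 (hd y p q))

theorem mac1_Dg {𝔞 : NonUnitalSubring K3} {c : K3} {u v : F} (hu : ∀ p q, c * Mm u p q ∈ 𝔞)
    (hv : ∀ p q, c * Mm v p q ∈ 𝔞) (p q : kk F ⊕ kk F) : c * Dg u v p q ∈ 𝔞 := by
  rcases p with p | p <;> rcases q with q | q
  · exact hu p q
  · change c * 0 ∈ 𝔞
    rw [mul_zero]; exact 𝔞.zero_mem
  · change c * 0 ∈ 𝔞
    rw [mul_zero]; exact 𝔞.zero_mem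
  · exact hv p q

theorem mac1_sub (u v : F) : Dg u v - 1 = Dg (u - 1) (v - 1) := by
  ext p q
  rcases p with p | p <;> rcases q with q | q <;> simp [Dg, Mm, Matrix.one_apply]

/-- `CE.main` with `𝔞 = aa 3`, `𝔞₁ = aa e`, `𝔟 = aa (e + e)`, `e = 2 d + m + 4`, `k = 2 e + d`.
`N(J) 6 ^ m ∈ (b)` and `N(a) ∈ (a)` (`Ideal.absNorm_mem`, `absNorm_mod_six`, `aa_inv_nat`) give the entries of
`Mm b⁻¹` and `Mm (a⁻¹ - 1)`. -/
theorem commute_level (m : ℕ) : ∃ k : ℕ, 1 ≤ k ∧ ∀ (a b : 𝓞 F) (J J₆ : Ideal (𝓞 F)), (6 : 𝓞 F) ^ k ∣ a - 1 →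
    b ≠ 0 → Ideal.span {b} = J * J₆ → Cp J 6 → (6 : 𝓞 F) ^ m ∈ J₆ → ∀ x y : EE (kk F ⊕ kk F),
      (ce _).m x = Dg (a : F) (a : F)⁻¹ → (ce _).m y = Dg (b : F) 1 → Commute x y := by
  obtain ⟨d, hd⟩ := exists_den F
  refine ⟨d + ((2 * d + m + 4) + (2 * d + m + 4)), by omega, ?_⟩
  intro a b J J₆ ha hb hJ h6 hm x y hx hy
  set e := 2 * d + m + 4 with he
  have : Nonempty (kk F) := ⟨⟨0, Module.finrank_pos⟩⟩
  obtain ⟨c, hc⟩ := ha
  have ha6 : Cp (Ideal.span {a}) 6 := by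
    refine cp_span.2 ⟨1, -(6 ^ (d + (e + e) - 1) * c), ?_⟩
    have : d + (e + e) = (d + (e + e) - 1) + 1 := by omega
    rw [this, pow_succ] at hc
    linear_combination hc
  have ha0 : a ≠ 0 := fun h => ha6.ne_bot (by rw [h, Ideal.span_singleton_zero])
  have ha0' : (a : F) ≠ 0 := fun h => ha0 (Subtype.ext h)
  have hb0' : (b : F) ≠ 0 := fun h => hb (Subtype.ext h)
  have hc' : (a : F) - 1 = 6 ^ (d + (e + e)) * (c : F) := by
    have := congrArg (algebraMap (𝓞 F) F) hc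
    simpa only [map_sub, map_one, map_mul, map_pow, map_ofNat] using this
  obtain ⟨a', ha'⟩ := Ideal.mem_span_singleton.1 (Ideal.absNorm_mem (Ideal.span {a}))
  have ha'' : ((Ideal.absNorm (Ideal.span {a}) : ℕ) : F) = (a : F) * (a' : F) := by
    have := congrArg (algebraMap (𝓞 F) F) ha'
    simpa only [map_mul, map_natCast] using this
  obtain ⟨b', hb'⟩ := Ideal.mem_span_singleton.1
    (hJ ▸ Ideal.mul_mem_mul (Ideal.absNorm_mem J) hm : _ ∈ Ideal.span {b})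
  have hb'' : ((Ideal.absNorm J : ℕ) : F) * 6 ^ m = (b : F) * (b' : F) := by
    have := congrArg (algebraMap (𝓞 F) F) hb'
    simpa only [map_mul, map_natCast, map_pow, map_ofNat] using this
  have hy' : (ce _).m y⁻¹ = Dg (b : F)⁻¹ 1 := by
    have h1 : Dg (b : F) 1 * Dg (b : F)⁻¹ 1 = 1 := by
      rw [Dg_mul, mul_inv_cancel₀ hb0', mul_one, Dg_one]
    calc (ce _).m y⁻¹ = (ce _).m y⁻¹ * ((ce _).m y * Dg (b : F)⁻¹ 1) := by rw [hy, h1, mul_one]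
      _ = _ := by rw [← mul_assoc, CE.m_inv_mul, one_mul]
  refine CE.main (𝔞 := aa 3) (𝔞₁ := aa e) (𝔟 := aa (e + e)) (aa_Qi (by norm_num)) (aa_Qi (by omega))
    (c1_ce _) (aa_anti (by omega)) (aa_anti (by omega)) (aa_prod e) (hx ▸ det_Dg ha0') ?_ ?_ ?_
  · intro p q
    rw [hx, mac1_sub, ← aa_pow_mul (d := d)]
    refine mac1_Dg (mac1_ent hd (n := 1) (i := 0) (y := c) rfl ?_)
      (mac1_ent hd (i := 0) (y := -(a' * c)) (absNorm_mod_six ha6) ?_) p q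
    · rw [hc']; simp
    · have : ((-(a' * c) : 𝓞 F) : F) = -((a' : F) * (c : F)) := by
        simp only [map_neg, map_mul]
      rw [this, ha'', pow_zero, one_mul, mul_neg, mul_left_comm, ← hc']
      field_simp
      ring
  · intro t ht k i j l
    have h1 : 6 ^ d * Dg (b : F) 1 k i ∈ aa 0 :=
      mac1_Dg (hd b) (fun p q => by simpa using hd 1 p q) k i
    have h2 : 6 ^ (d + m) * Dg (b : F)⁻¹ 1 j l ∈ aa 0 := by
      refine mac1_Dg (mac1_ent hd (y := b') (absNorm_mod_six h6) ?_)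
        (mac1_ent hd (n := 1) (y := 6 ^ m) rfl ?_) j l
      · rw [← mul_assoc, hb'', pow_zero, one_mul]
        field_simp
      · simp only [map_pow, map_ofNat]; simp
    have h3 := aa_mul (aa_mul h1 ht) h2
    rw [hy, hy', ← aa_pow_mul (d := 2 * d + m + 1)]
    have e1 : 2 * d + m + 1 + 3 = 0 + e + 0 := by omega
    rw [e1]
    convert h3 using 1
    have h60 : (6 : K3) ≠ 0 := by norm_num
    field_simp
    ring
  · rw [hx, hy, Commute, SemiconjBy, Dg_mul, Dg_mul, mul_comm (a : F), mul_comm (a : F)⁻¹]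

theorem mac2_monoid {M : Type*} [CommMonoidWithZero M] [UniqueFactorizationMonoid M] (Q : M → Prop)
    (h1 : Q 1) (hmul : ∀ a b, Q a → Q b → Q (a * b)) {N : ℕ} (hN : N ≠ 0)
    (hQ : ∀ P, Prime P → Q (P ^ N)) {S : M} (hS : S ≠ 0) (m : ℕ) (J : M) :
    J ∣ S ^ m → ∃ J' G, Q G ∧ J = J' * G ∧ J' ∣ S ^ N := by
  induction J using (wellFounded_dvdNotUnit (α := M)).induction with
  | _ J ih =>
  intro hJ
  have hJ0 : J ≠ 0 := ne_zero_of_dvd_ne_zero (pow_ne_zero m hS) hJ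
  by_cases h : ∃ P, Prime P ∧ P ^ N ∣ J
  · obtain ⟨P, hP, J₁, rfl⟩ := h
    obtain ⟨J', G, hG, e, hd⟩ := ih J₁ ⟨right_ne_zero_of_mul hJ0, P ^ N,
      fun hu => hP.not_unit ((isUnit_pow_iff hN).1 hu), mul_comm _ _⟩ ((dvd_mul_left _ _).trans hJ)
    exact ⟨J', P ^ N * G, hmul _ _ (hQ P hP) hG, by rw [e, mul_left_comm], hd⟩
  · refine ⟨J, 1, h1, (mul_one J).symm, (UniqueFactorizationMonoid.dvd_iff_emultiplicity_le hJ0).2
      fun P hP => ?_⟩
    by_cases hd : P ∣ J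
    · exact (emultiplicity_lt_iff_not_dvd.2 fun hc => h ⟨P, hP, hc⟩).le.trans
        (le_emultiplicity_of_pow_dvd (pow_dvd_pow_of_dvd (hP.dvd_of_dvd_pow (hd.trans hJ)) N))
    · rw [emultiplicity_eq_zero.2 hd]
      exact zero_le

variable (F) in
/-- Remove sixth powers, `e₀ = 6 h`, `h` the class number.  Induction on the norm: if `P ^ (6 h) ∣ J₆` for a prime `P`,
split off `(P ^ h) ^ 6` (`P ^ h` is principal); otherwise `J₆ ∣ (6) ^ (6 h)` by comparing multiplicities. -/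
theorem exists_reduce : ∃ e₀ : ℕ, ∀ (J₆ : Ideal (𝓞 F)) (m : ℕ), (6 : 𝓞 F) ^ m ∈ J₆ →
    ∃ (J' : Ideal (𝓞 F)) (γ : 𝓞 F), J₆ = J' * Ideal.span {γ ^ 6} ∧ (6 : 𝓞 F) ^ e₀ ∈ J' := by
  have hh : Fintype.card (ClassGroup (𝓞 F)) * 6 ≠ 0 := mul_ne_zero Fintype.card_ne_zero (by norm_num)
  refine ⟨Fintype.card (ClassGroup (𝓞 F)) * 6, fun J₆ m hm => ?_⟩
  have hS : Ideal.span {(6 : 𝓞 F)} ≠ 0 := by
    rw [Ne, Ideal.zero_eq_bot, Ideal.span_singleton_eq_bot]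
    norm_num
  obtain ⟨J', G, ⟨γ, rfl⟩, e, hd⟩ := mac2_monoid (fun G : Ideal (𝓞 F) => ∃ γ, G = Ideal.span {γ ^ 6})
    ⟨1, by simp⟩ (by
      rintro _ _ ⟨a, rfl⟩ ⟨b, rfl⟩
      exact ⟨a * b, by rw [Ideal.span_singleton_mul_span_singleton, mul_pow]⟩) hh (fun P hP => by
      have h0 : P ∈ nonZeroDivisors (Ideal (𝓞 F)) := mem_nonZeroDivisors_of_ne_zero hP.ne_zero
      have h1 : ClassGroup.mk0 (⟨P, h0⟩ ^ Fintype.card (ClassGroup (𝓞 F))) = 1 := by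
        rw [map_pow, pow_card_eq_one]
      obtain ⟨π, hπ⟩ := (ClassGroup.mk0_eq_one_iff (pow_mem h0 _)).1 h1
      exact ⟨π, by rw [pow_mul, hπ, Ideal.submodule_span_eq, Ideal.span_singleton_pow]⟩) hS m J₆
    (by rwa [Ideal.span_singleton_pow, Ideal.dvd_span_singleton])
  exact ⟨J', γ, e, by rwa [Ideal.span_singleton_pow, Ideal.dvd_span_singleton] at hd⟩

/-- If `a`, `b` are not coprime both sides vanish (`sI_ne_zero`); otherwise `exists_reduce` (`b = c γ ^ 6`,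
`(c) = J J'`, `sI_mul_left`, `sI_pow_left`, `sI_pow_six`), `CE.m_lift`, `commute_level`, `eq_of_commute`. -/
theorem stRec : StRec := by
  intro F _ _ _
  obtain ⟨e₀, he⟩ := exists_reduce F
  obtain ⟨k, hk, hc⟩ := commute_level (F := F) e₀
  refine ⟨k, hk, fun a b J J₆ m ha hb hJ h6 hm => ?_⟩
  have ha6 : IsCoprime a 6 := by
    obtain ⟨c, hc⟩ := (dvd_pow_self (6 : 𝓞 F) (by omega : k ≠ 0)).trans ha
    exact ⟨1, -c, by linear_combination hc⟩
  have ha6' : Cp (Ideal.span {a}) 6 := cp_span.2 ha6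
  by_cases hab : IsCoprime a b
  swap
  · have h1 : sE b a = 0 := not_not.1 fun h => hab (cp_span.1 (sI_ne_zero.1 h).2)
    have h2 : sI a J = 0 := not_not.1 fun h => hab (by
      have h3 : Cp J₆ a := by
        obtain ⟨u, v, huv⟩ := ha6.pow_right (n := m)
        refine cp_iff.2 ⟨u, ?_⟩
        rw [show a * u - 1 = -v * 6 ^ m by linear_combination huv]
        exact J₆.mul_mem_left _ hm
      have h4 := cp_mul_left.2 ⟨(sI_ne_zero.1 h).2, h3⟩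
      rw [← hJ] at h4
      exact (cp_span.1 h4).symm)
    rw [h1, h2]
  obtain ⟨J', γ, e, hJ'⟩ := he J₆ m hm
  rw [e, ← mul_assoc] at hJ
  obtain ⟨c, rfl⟩ : γ ^ 6 ∣ b := by
    rw [← Ideal.mem_span_singleton, ← Ideal.dvd_span_singleton, hJ]
    exact dvd_mul_left _ _
  have hγ : Ideal.span {γ ^ 6} ≠ 0 := by
    rw [Ne, Ideal.zero_eq_bot, Ideal.span_singleton_eq_bot]
    exact left_ne_zero_of_mul hb
  rw [← Ideal.span_singleton_mul_span_singleton, mul_comm] at hJ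
  have hcJ := mul_right_cancel₀ hγ hJ
  have hc0 : c ≠ 0 := right_ne_zero_of_mul hb
  have ha0 : (a : F) ≠ 0 := by
    have := ha6'.ne_bot
    rw [Ne, Ideal.span_singleton_eq_bot] at this
    exact_mod_cast this
  have hc0' : (c : F) ≠ 0 := by exact_mod_cast hc0
  have hx : (ce _).m ((ce _).lift (Dg (a : F) (a : F)⁻¹)) = Dg (a : F) (a : F)⁻¹ :=
    CE.m_lift (M' := Dg (a : F)⁻¹ (a : F)) (by
      rw [Dg_mul, mul_inv_cancel₀ ha0, inv_mul_cancel₀ ha0, Dg_one])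
  have hy : (ce _).m ((ce _).lift (Dg (c : F) 1)) = Dg (c : F) 1 :=
    CE.m_lift (M' := Dg (c : F)⁻¹ 1) (by rw [Dg_mul, mul_inv_cancel₀ hc0', mul_one, Dg_one])
  have key := eq_of_commute ha6 hc0 hab.of_mul_right_right hcJ h6 hJ' hx hy
    (hc a c J J' ha hc0 hcJ h6 hJ' _ _ hx hy)
  have h7 : Cp (Ideal.span {a}) γ :=
    cp_span.2 ((IsCoprime.pow_right_iff (by norm_num)).1 hab.of_mul_right_left)
  rw [← key, sE, sI_mul_left, sI_pow_left _ ha6', sI_pow_six, if_pos ⟨ha6', h7⟩, one_mul]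

end Crest.Agent.R27.Rec
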