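import Crest.Agent.R27.Rec.Res

/-!
Row 27, block REC: the arithmetic input `C1` from sextic reciprocity in `ℤ[ω]` (row 17).  Prefix: `baa_`, `bab_`.
-/

set_option autoImplicit false

namespace Crest.Agent.R27.Rec

open Crest.Agent.R17 Crest.NumberTheoryR.EisensteinField Function Matrix
open scoped Classical

variable {ι : Type} [Fintype ι] [DecidableEq ι]

/-- `(N n - 1) / 6` -/
noncomputable def n6 (n : O) : ℕ := (nN n - 1) / 6

/-! ### Part a -/

/-- multiplication of the slot `i` by `u` -/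
noncomputable def baa_d (i : ι) (u : O) : (ι → O) →ₗ[O] (ι → O) := Matrix.mulVecLin (diagonal (Pi.mulSingle i u))

theorem baa_d_apply (i : ι) (u : O) (p : ι → O) (l : ι) : baa_d i u p l = (if l = i then u else 1) * p l := by
  rw [baa_d, mulVecLin_apply, mulVec_diagonal, Pi.mulSingle_apply]

/-- reduction of the slot `i` -/
noncomputable def baa_q (i : ι) (I : Ideal O) : (ι → O) →ₗ[O] (O ⧸ I) :=
  (Ideal.Quotient.mkₐ O I).toLinearMap ∘ₗ LinearMap.proj i

omit [Fintype ι] [DecidableEq ι] in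
theorem baa_q_apply (i : ι) (I : Ideal O) (p : ι → O) : baa_q i I p = Ideal.Quotient.mk I (p i) := rfl

omit [Fintype ι] [DecidableEq ι] in
theorem baa_q_surj (i : ι) (I : Ideal O) : Surjective (baa_q i I) := by
  intro c
  obtain ⟨x, rfl⟩ := Ideal.Quotient.mk_surjective c
  exact ⟨fun _ => x, rfl⟩

theorem baa_j (i : ι) (u : O) (p : ι → O) : jO ι (baa_d i u p) = dg i (algebraMap O K3 u) *ᵥ jO ι p := by
  funext l
  rw [jO_apply, baa_d_apply, dg, mulVec_diagonal, jO_apply, Pi.mulSingle_apply, map_mul]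
  split_ifs <;> simp

theorem baa_ker (i : ι) {u u' : O} {m : ℕ} (h6 : IsCoprime u' 6) (h1 : u' ∣ u) (h2 : u ∣ 6 ^ m * u') (p : ι → O) :
    baa_q i (Ideal.span {u'}) p = 0 ↔ ∃ (k : ℕ) (w : ι → O), baa_d i u w = (6 ^ k : ℕ) • p := by
  rw [baa_q_apply, Ideal.Quotient.eq_zero_iff_mem, Ideal.mem_span_singleton]
  constructor
  · rintro ⟨c, hc⟩
    obtain ⟨e, he⟩ := h2
    refine ⟨m, fun l => if l = i then e * c else 6 ^ m * p l, funext fun l => ?_⟩
    rw [baa_d_apply, Pi.smul_apply, nsmul_eq_mul]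
    push_cast
    split_ifs with hl
    · rw [hl, hc]
      linear_combination -c * he
    · rw [one_mul]
  · rintro ⟨k, w, hw⟩
    have h := congrFun hw i
    rw [baa_d_apply, if_pos rfl, Pi.smul_apply, nsmul_eq_mul] at h
    push_cast at h
    exact (h6.pow_right (n := k)).dvd_of_dvd_mul_left (h ▸ h1.mul_right _)

theorem baa_int (i j : ι) (I : Ideal O) (u : O) (p : ι → O) :
    baa_q j I (baa_d i u p) = mq I (if j = i then u else 1) (baa_q j I p) := by
  rw [baa_q_apply, baa_q_apply, mq_mk, baa_d_apply]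

theorem baa_dg_comm (i j : ι) (u a : K3) : Commute (dg i u) (dg j a) := by
  unfold dg
  exact commute_diagonal _ _

/-- `comm_P` with `P = ι → O`, `j = jO ι`, `a = ` multiplication of the slot `i` by `u`
(`LinearMap.pi`, or `Matrix.mulVecLin (diagonal (Pi.mulSingle i u))`), `qa p = mk (p i)` into `O ⧸ span {u'}`,
`qb p = mk (p j)` into `O ⧸ span {a}`, `fa = mq _ (if i = j then u else 1)`, `fb = mq _ (if i = j then a else 1)`;
then `cv_eq`, `ez_sym`, `sE_eq_sx`, `nq_ideal`, `ez_three`. -/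
theorem ez_cd (i j : ι) {u u' a : O} {m : ℕ} (hu : u ≠ 0) (h6 : IsCoprime u' 6) (h1 : u' ∣ u) (h2 : u ∣ 6 ^ m * u')
    (ha : IsCoprime a 6) (hc : i = j → IsCoprime u a) :
    ez (cd i j (algebraMap O K3 u) (algebraMap O K3 a)) * sx (if i = j then u else 1) a =
      sx (if i = j then a else 1) u' * (-1) ^ (n6 a * n6 u') := by
  have ha0 : a ≠ 0 := by
    rintro rfl
    exact sya_not_coprime_zero ha
  have hinj : Injective (algebraMap O K3) := IsFractionRing.injective O K3
  have hu' : algebraMap O K3 u ≠ 0 := (map_ne_zero_iff _ hinj).2 hu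
  have ha' : algebraMap O K3 a ≠ 0 := (map_ne_zero_iff _ hinj).2 ha0
  have c1 : Cp (Ideal.span {u'}) (6 : O) := cp_span.2 h6
  have c2 : Cp (Ideal.span {a}) (6 : O) := cp_span.2 ha
  have c3 : Cp (Ideal.span {a}) (if j = i then u else 1) := by
    split_ifs with h
    · exact cp_span.2 (hc h.symm).symm
    · exact cp_span.2 isCoprime_one_right
  have c4 : Cp (Ideal.span {u'}) (if i = j then a else 1) := by
    split_ifs with h
    · exact cp_span.2 ((hc h).of_isCoprime_of_dvd_left h1)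
    · exact cp_span.2 isCoprime_one_right
  have := finite_ideal c1
  have := finite_ideal c2
  have hx := m_lift_dg i hu'
  have hy := m_lift_dg j ha'
  have key := comm_P ((ce ι).lift (dg i (algebraMap O K3 u))) ((ce ι).lift (dg j (algebraMap O K3 a)))
    (by rw [hx, hy]; exact baa_dg_comm _ _ _ _) (jO_inj ι) (jO_full ι) (baa_d i u) (baa_d j a)
    (fun p => by rw [hx, baa_j]) (fun p => by rw [hy, baa_j]) (fr_ideal c1) (fr_ideal c2)
    (baa_q i _) (baa_q j _) (baa_q_surj _ _) (baa_q_surj _ _) (baa_ker i h6 h1 h2)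
    (baa_ker j (m := 0) ha dvd_rfl (by simp)) (mq_bij c3) (mq_bij c4) (baa_int i j _ u) (baa_int j i _ a)
  have e1 := ez_sym c2 c3
  have e2 := ez_sym c1 c4
  have e3 : (if j = i then u else 1) = if i = j then u else 1 := if_congr eq_comm rfl rfl
  rw [cd, cv_eq key, ez_add, ez_three, nq_ideal, nq_ideal, ← sE_eq_sx, ← sE_eq_sx, ← e3, sE, sE, ← e1, ← e2,
    mul_right_comm, ez_sub_mul]
  rfl

/-- the prime-to-`6` part (induction on primes) -/
theorem exists_part {u : O} (hu : u ≠ 0) : ∃ (u' : O) (m : ℕ), IsCoprime u' 6 ∧ u' ∣ u ∧ u ∣ 6 ^ m * u' := by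
  induction u using UniqueFactorizationMonoid.induction_on_prime with
  | h₁ => exact absurd rfl hu
  | h₂ u h => exact ⟨1, 0, isCoprime_one_left, one_dvd _, h.dvd⟩
  | h₃ u p hu0 hp ih =>
    obtain ⟨u', m, h6, h1, h2⟩ := ih hu0
    by_cases h : p ∣ 6
    · refine ⟨u', m + 1, h6, h1.mul_left _, ?_⟩
      rw [pow_succ', mul_assoc]
      exact mul_dvd_mul h h2
    · refine ⟨p * u', m, (hp.coprime_iff_not_dvd.2 h).mul_left h6, mul_dvd_mul_left _ h1, ?_⟩
      rw [mul_left_comm]
      exact mul_dvd_mul_left _ h2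

/-! ### Part b -/

theorem bab1_nN {x : O} (hx : IsCoprime x 6) : nN x = 6 * n6 x + 1 := by
  have := nN_mod_six hx
  unfold n6
  omega

theorem neg_one_pow_n6_mul {x y : O} (hx : IsCoprime x 6) (hy : IsCoprime y 6) :
    (-1 : ℂ) ^ n6 (x * y) = (-1) ^ n6 x * (-1) ^ n6 y := by
  have e : n6 (x * y) = 2 * (3 * n6 x * n6 y) + (n6 x + n6 y) := by
    have h := bab1_nN (hx.mul_left hy)
    rw [nN_mul, bab1_nN hx, bab1_nN hy] at h
    have h' : 6 * n6 (x * y) = 6 * (2 * (3 * n6 x * n6 y) + (n6 x + n6 y)) := by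
      have e : (6 * n6 x + 1) * (6 * n6 y + 1) = 6 * (2 * (3 * n6 x * n6 y) + (n6 x + n6 y)) + 1 := by ring
      omega
    omega
  rw [e, pow_add, pow_mul, pow_add]
  simp

/-- `N a ≡ 1 (mod 12)` -/
theorem even_n6 {a : O} (ha : (12 : O) ∣ a - 1) : Even (n6 a) := by
  have h : nN a ≡ nN 1 [MOD 12] := nN_congr (m := 12) (by exact_mod_cast ha)
  rw [nN_one, Nat.ModEq] at h
  unfold n6
  rw [Nat.even_iff]
  omega

theorem bab1_ne {x : O} (hx : x ≠ 0) : algebraMap O K3 x ≠ 0 :=
  (map_ne_zero_iff _ (IsFractionRing.injective O K3)).2 hx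

theorem bab1_n6_one : n6 1 = 0 := by simp [n6]

theorem bab1_prime (i : ι) {x y : O} (hx : Prim x) (hy : Prim y) (hxp : Prime x) (hyp : Prime y)
    (hx2 : IsCoprime x 2) (hy2 : IsCoprime y 2) :
    ez (cd i i (algebraMap O K3 x) (algebraMap O K3 y)) = eps x y * (-1) ^ (n6 x * n6 y) := by
  have hx6 := hx.coprime_six hx2
  have hy6 := hy.coprime_six hy2
  by_cases hxy : x = y
  · subst hxy
    have hN := bab1_nN hx6
    have e : (nN x - 1) / 2 = 3 * n6 x := by omega
    rw [cd_self, ez_zero, eps_self hx2, gam_sq hx2, e, ← pow_add]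
    refine (Even.neg_one_pow ?_).symm
    have e2 : 3 * n6 x + n6 x * n6 x = n6 x * (n6 x + 1) + 2 * n6 x := by ring
    rw [e2]
    exact (Nat.even_mul_succ_self _).add (even_two_mul _)
  · have hc := hx.coprime_of_ne hy hxp hyp hxy
    have h := ez_cd i i (m := 0) hx.ne_zero hx6 dvd_rfl (by simp) hy6 fun _ => hc
    simp only [if_true] at h
    rw [sx_recip hx hy hx2 hy2] at h
    have h0 : sx y x ≠ 0 := sx_ne_zero.2 ⟨hx6, hc.symm⟩
    have h1 := eps_mul_self hx2 hy2
    have h2 : ez (cd i i (algebraMap O K3 x) (algebraMap O K3 y)) * eps x y = (-1) ^ (n6 y * n6 x) := by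
      apply mul_left_cancel₀ h0
      linear_combination h
    rw [mul_comm (n6 x), ← h2]
    linear_combination (-ez (cd i i (algebraMap O K3 x) (algebraMap O K3 y))) * h1

theorem bab1_prime_left (i : ι) {x y : O} (hx : Prim x) (hy : Prim y) (hxp : Prime x)
    (hx2 : IsCoprime x 2) (hy2 : IsCoprime y 2) :
    ez (cd i i (algebraMap O K3 x) (algebraMap O K3 y)) = eps x y * (-1) ^ (n6 x * n6 y) := by
  revert hy2
  refine hy.induction (P := fun y => IsCoprime y 2 →
    ez (cd i i (algebraMap O K3 x) (algebraMap O K3 y)) = eps x y * (-1) ^ (n6 x * n6 y)) ?_ ?_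
  · intro _
    have h := cd_mul_right i i (bab1_ne hx.ne_zero) (one_ne_zero (α := K3)) (one_ne_zero (α := K3))
    rw [mul_one, left_eq_add] at h
    rw [map_one, h, ez_zero, eps_one_right hx2, bab1_n6_one, mul_zero, pow_zero, mul_one]
  · intro p m hp hpp hm ih h2
    have hp2 := h2.of_mul_left_left
    have hm2 := h2.of_mul_left_right
    rw [map_mul, cd_mul_right i i (bab1_ne hx.ne_zero) (bab1_ne hpp.ne_zero) (bab1_ne hm.ne_zero), ez_add,
      ih hm2, bab1_prime i hx hpp hxp hp hx2 hp2, eps_mul_right hx2 hp2 hm2, pow_mul', pow_mul', pow_mul',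
      neg_one_pow_n6_mul (hpp.coprime_six hp2) (hm.coprime_six hm2), mul_pow]
    ring

/-- Both sides are bimultiplicative, so it is enough to treat primary primes `x`, `y` (induction on primary primes
twice).  Distinct: `ez_cd`, `sx_recip`, `eps_mul_self`.  Equal: `cd_self`, `eps_self`, `gam_sq`,
`(N - 1) / 2 = 3 * n6`. -/
theorem ez_cd_prim (i : ι) {x y : O} (hx : Prim x) (hy : Prim y) (hx2 : IsCoprime x 2) (hy2 : IsCoprime y 2) :
    ez (cd i i (algebraMap O K3 x) (algebraMap O K3 y)) = eps x y * (-1) ^ (n6 x * n6 y) := by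
  revert hx2
  refine hx.induction (P := fun x => IsCoprime x 2 →
    ez (cd i i (algebraMap O K3 x) (algebraMap O K3 y)) = eps x y * (-1) ^ (n6 x * n6 y)) ?_ ?_
  · intro _
    have h := cd_mul_left i i (one_ne_zero (α := K3)) (one_ne_zero (α := K3)) (bab1_ne hy.ne_zero)
    rw [mul_one, left_eq_add] at h
    rw [map_one, h, ez_zero, eps_one_left hy2, bab1_n6_one, zero_mul, pow_zero, mul_one]
  · intro p m hp hpp hm ih h2
    have hp2 := h2.of_mul_left_left
    have hm2 := h2.of_mul_left_right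
    rw [map_mul, cd_mul_left i i (bab1_ne hpp.ne_zero) (bab1_ne hm.ne_zero) (bab1_ne hy.ne_zero), ez_add,
      ih hm2, bab1_prime_left i hpp hy hp hp2 hy2, eps_mul_left hp2 hm2 hy2, pow_mul, pow_mul, pow_mul,
      neg_one_pow_n6_mul (hpp.coprime_six hp2) (hm.coprime_six hm2), mul_pow]
    ring

theorem bab2_ne {x : O} (hx : x ≠ 0) : algebraMap O K3 x ≠ 0 :=
  (map_ne_zero_iff _ (FaithfulSMul.algebraMap_injective O K3)).2 hx

theorem bab2_six {a : O} (ha : (72 : O) ∣ a - 1) : IsCoprime a 6 := by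
  obtain ⟨w, hw⟩ := ha
  exact ⟨1, -(12 * w), by linear_combination hw⟩

theorem bab2_dvd (i : ι) {u a : O} {m : ℕ} (hu : u ∣ 6 ^ m) (ha : (72 : O) ∣ a - 1) :
    cd i i (algebraMap O K3 u) (algebraMap O K3 a) = 0 := by
  have h6 := bab2_six ha
  have h := ez_cd i i (u' := 1) (m := m) (ne_zero_of_dvd_ne_zero (pow_ne_zero m (by norm_num)) hu)
    isCoprime_one_left (one_dvd u) (by rwa [mul_one]) h6
    fun _ => (h6.symm.pow_left (m := m)).of_isCoprime_of_dvd_left hu
  rw [if_pos rfl, if_pos rfl, sx_per hu ha ((show (6 : O) ∣ 72 from ⟨12, by norm_num⟩).trans ha),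
    sx_one_right, sx_one_right, (even_n6 ((show (12 : O) ∣ 72 from ⟨6, by norm_num⟩).trans
      ha)).mul_right _ |>.neg_one_pow, mul_one, mul_one] at h
  exact ez_inj (h.trans ez_zero.symm)

/-- `i ≠ j`: `exists_part`, `ez_cd`, `even_n6`.  `i = j`: induction on the primes of `u` (`cd_mul_left`); for a unit or a
prime dividing `6` use `ez_cd` with `u' = 1` and `sx_per` (`D = 6`, `n' = 1`); another prime is a unit times a primary
prime: `ez_cd_prim`, `eps_congr`, `eps_one_right`, `even_n6`. -/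
theorem cd_eq_zero (i j : ι) {u a : O} (hu : u ≠ 0) (ha : (72 : O) ∣ a - 1) :
    cd i j (algebraMap O K3 u) (algebraMap O K3 a) = 0 := by
  have h6 := bab2_six ha
  have he := even_n6 ((show (12 : O) ∣ 72 from ⟨6, by norm_num⟩).trans ha)
  obtain ⟨u', m, h1, h2, h3⟩ := exists_part hu
  by_cases hij : i = j
  swap
  · have h := ez_cd i j hu h1 h2 h3 h6 fun e => absurd e hij
    rw [if_neg hij, if_neg hij, sx_one_left, sx_one_left, if_pos h6, if_pos h1,
      (he.mul_right _).neg_one_pow, mul_one, mul_one] at h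
    exact ez_inj (h.trans ez_zero.symm)
  subst hij
  obtain ⟨w, rfl⟩ := h2
  obtain ⟨h12, h13⟩ := coprime_six_iff.1 h1
  obtain ⟨ζ, x, hζ, hx, rfl⟩ := exists_unit_prim (n := u') fun hd =>
    prime_lam.not_isUnit (h13.isUnit_of_dvd' hd lam_dvd_three)
  have hu' := left_ne_zero_of_mul hu
  have ha' : Prim a := (show (3 : O) ∣ 72 from ⟨24, by norm_num⟩).trans ha
  have hw : w ∣ 6 ^ m := by rwa [mul_comm (6 ^ m), mul_dvd_mul_iff_left hu'] at h3
  have h := ez_cd_prim i hx ha' h12.of_mul_left_right (coprime_six_iff.1 h6).1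
  rw [eps_congr h12.of_mul_left_right (coprime_six_iff.1 h6).1 (a' := x) (by simp)
    ((show (4 : O) ∣ 72 from ⟨18, by norm_num⟩).trans ha), eps_one_right h12.of_mul_left_right,
    (he.mul_left _).neg_one_pow, mul_one] at h
  rw [map_mul, map_mul, cd_mul_left i i (by rw [← map_mul]; exact bab2_ne hu')
    (bab2_ne (right_ne_zero_of_mul hu)) (bab2_ne ha'.ne_zero),
    cd_mul_left i i (bab2_ne hζ.ne_zero) (bab2_ne hx.ne_zero) (bab2_ne ha'.ne_zero),
    bab2_dvd i hw ha, bab2_dvd i (m := 0) hζ.dvd ha, ez_inj (h.trans ez_zero.symm), add_zero,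
    add_zero]

/-- `aa_frac`, `u = p / q` (`IsFractionRing.div_surjective`), `cd_mul_left`, `cd_mul_right`, `commute_of_cd` -/
theorem c1_ce (ι : Type) [Fintype ι] [DecidableEq ι] : (ce ι).C1 (aa 3) := by
  intro i j u a x y hu ha hx hy
  obtain ⟨a₁, a₂, h₁, h₂, e⟩ := aa_frac (by norm_num) ha
  have h72 : (72 : O) ∣ 6 ^ 3 := ⟨3, by norm_num⟩
  have ha0 := (aa_Qi (by norm_num) a ha).1
  have hn₂ : algebraMap O K3 a₂ ≠ 0 :=
    bab2_ne (Prim.ne_zero ((show (3 : O) ∣ 6 ^ 3 from ⟨72, by norm_num⟩).trans h₂))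
  have key : ∀ p : O, p ≠ 0 → cd i j (algebraMap O K3 p) a = 0 := fun p hp => by
    have h := cd_mul_right i j (bab2_ne hp) ha0 hn₂
    rw [e, cd_eq_zero i j hp (h72.trans h₁), cd_eq_zero i j hp (h72.trans h₂), add_zero] at h
    exact h.symm
  obtain ⟨p, q, hq, rfl⟩ := IsFractionRing.div_surjective (A := O) u
  have hq0 := nonZeroDivisors.ne_zero hq
  have hp0 : p ≠ 0 := by
    rintro rfl
    simp at hu
  have h := cd_mul_left i j hu (bab2_ne hq0) ha0
  rw [div_mul_cancel₀ _ (bab2_ne hq0), key p hp0, key q hq0, add_zero] at h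
  exact commute_of_cd hu ha0 h.symm hx hy

end Crest.Agent.R27.Rec
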