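import Crest.Agent.R27.Rec.Fam

/-!
Row 27, block REC: the central extension `Ext A` of a group `G` acting on a family of lattices, and the commutator
formula.  An element is a pair `(g, φ)` where `φ` regularises the divergent integral `∫_{(L ∖ 0)/μ₆} (o (g x) - o x)`.
Prefix: `exa_`, `exb_`, `exc_`.
-/

set_option autoImplicit false

namespace Crest.Agent.R27.Rec

open Crest.Agent.R17 Function
open scoped Classical

/-- a group acting on `V` and permuting a family of lattices -/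
structure Act (G V : Type*) [Group G] [AddCommGroup V] [Module O V] where
  F : Fam V
  ρ : G →* (V ≃ₗ[O] V)
  pres : ∀ g, ∀ L ∈ F.S, L.map (ρ g : V →ₗ[O] V) ∈ F.S

variable {G V : Type*} [Group G] [AddCommGroup V] [Module O V]

namespace Act

variable (A : Act G V)

theorem pres' (g : G) : A.F.Pres (A.ρ g) := fun L hL =>
  ⟨A.pres g L hL, by
    have := A.pres g⁻¹ L hL
    rwa [map_inv] at this⟩

/-- the global orientation -/
noncomputable def o : V → Z6 := A.F.exists_glob.choose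

theorem o_spec {L : Submodule O V} (hL : L ∈ A.F.S) : A.F.Ad (L : Set V)ᶜ A.o := A.F.exists_glob.choose_spec L hL

/-- the action on lattices -/
noncomputable def sm (g : G) (L : A.F.S) : A.F.S := ⟨L.1.map (A.ρ g : V →ₗ[O] V), A.pres g L.1 L.2⟩

/-- `∫_{(L₁ ∖ L₂)/μ₆} (o (g x) - o x)` -/
noncomputable def I (g : G) (L₁ L₂ : A.F.S) : Z6 :=
  A.F.dl ((L₁.1 : Set V) \ L₂.1) A.o fun x => A.o (A.ρ g x)

variable {A}

/-! ### Part a -/

theorem sm_one (L : A.F.S) : A.sm 1 L = L := by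
  refine Subtype.ext ?_
  ext v
  simp only [sm, map_one, Submodule.mem_map]
  exact ⟨fun ⟨y, hy, h⟩ => h ▸ hy, fun h => ⟨v, h, rfl⟩⟩

theorem sm_mul (g h : G) (L : A.F.S) : A.sm (g * h) L = A.sm g (A.sm h L) := by
  refine Subtype.ext ?_
  simp only [sm, map_mul]
  rw [← Submodule.map_comp]
  rfl

theorem sm_mono (g : G) {L₁ L₂ : A.F.S} (h : L₂.1 ≤ L₁.1) : (A.sm g L₂).1 ≤ (A.sm g L₁).1 := by
  exact Submodule.map_mono h

theorem image_diff (g : G) (L₁ L₂ : A.F.S) :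
    A.ρ g '' ((L₁.1 : Set V) \ L₂.1) = ((A.sm g L₁).1 : Set V) \ (A.sm g L₂).1 := by
  rw [Set.image_sdiff (A.ρ g).injective]
  rfl

theorem co_diff (L₁ L₂ : A.F.S) : A.F.CO ((L₁.1 : Set V) \ L₂.1) := by
  exact (Fam.co_mem L₁.2).diff (Fam.co_mem L₂.2)

/-- `Ad.comp`, `Ad.mono`, `o_spec` for `sm g L` -/
theorem ad_o (g : G) (L : A.F.S) {X : Set V} (hX : ∀ x ∈ X, x ∉ L.1) : A.F.Ad X fun x => A.o (A.ρ g x) := by
  refine Fam.Ad.comp (A.pres' g) ((A.o_spec (A.sm g L).2).mono ?_)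
  rintro _ ⟨x, hx, rfl⟩ ⟨y, hy, hxy⟩
  exact hX x hx ((A.ρ g).injective hxy ▸ hy)

theorem I_one (L₁ L₂ : A.F.S) : A.I 1 L₁ L₂ = 0 := by
  unfold I
  rw [map_one]
  exact Fam.dl_self _ _

theorem I_self (g : G) (L : A.F.S) : A.I g L L = 0 := by
  unfold I
  rw [Fam.dl_congr (co_diff L L) ((A.o_spec L.2).mono fun _ hx => hx.2) (ad_o g L fun _ hx => hx.2)
    (o₁ := A.o) (o₁' := A.o) (fun _ _ => rfl) (fun _ hx => (hx.2 hx.1).elim)]
  exact Fam.dl_self _ _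

/-- `dl_diff` -/
theorem I_chain (g : G) {L₁ L₂ L₃ : A.F.S} (h₁ : L₂.1 ≤ L₁.1) (h₂ : L₃.1 ≤ L₂.1) :
    A.I g L₁ L₂ + A.I g L₂ L₃ = A.I g L₁ L₃ := by
  unfold I
  have e : ((L₁.1 : Set V) \ L₃.1) \ ((L₂.1 : Set V) \ L₃.1) = (L₁.1 : Set V) \ L₂.1 := by
    ext x
    constructor
    · rintro ⟨⟨h1, h3⟩, h⟩
      exact ⟨h1, fun h2 => h ⟨h2, h3⟩⟩
    · rintro ⟨h1, h2⟩
      exact ⟨⟨h1, fun h3 => h2 (h₂ h3)⟩, fun h => h2 h.1⟩
  rw [Fam.dl_diff (co_diff L₁ L₃) (co_diff L₂ L₃) (fun _ hx => ⟨h₁ hx.1, hx.2⟩)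
    ((A.o_spec L₃.2).mono fun _ hx => hx.2) (ad_o g L₃ fun _ hx => hx.2), e, add_comm]

/-- `dl_add`, `dl_image` -/
theorem I_mul (g h : G) (L₁ L₂ : A.F.S) :
    A.I (g * h) L₁ L₂ = A.I g (A.sm h L₁) (A.sm h L₂) + A.I h L₁ L₂ := by
  unfold I
  have h1 := Fam.dl_image (A.pres' h) (co_diff L₁ L₂) (o := A.o) (o' := fun x => A.o (A.ρ g x))
    ((A.o_spec (A.sm h L₂).2).mono (by rw [image_diff]; exact fun _ hx => hx.2))
    (ad_o g (A.sm h L₂) (by rw [image_diff]; exact fun _ hx => hx.2))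
  rw [← image_diff, ← h1, add_comm, ← Fam.dl_add (co_diff L₁ L₂) ((A.o_spec L₂.2).mono fun _ hx => hx.2)
    (ad_o h L₂ fun _ hx => hx.2) (ad_o (g * h) L₂ fun _ hx => hx.2), map_mul]
  rfl

end Act

/-- the extension -/
@[ext] structure Ext (A : Act G V) where
  g : G
  φ : A.F.S → Z6
  spec : ∀ L₁ L₂ : A.F.S, L₂.1 ≤ L₁.1 → φ L₁ - φ L₂ = A.I g L₁ L₂

namespace Ext

variable {A : Act G V}

instance : One (Ext A) := ⟨⟨1, fun _ => 0, fun L₁ L₂ _ => by rw [Act.I_one, sub_self]⟩⟩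

noncomputable instance : Mul (Ext A) := ⟨fun x y => ⟨x.g * y.g, fun L => x.φ (A.sm y.g L) + y.φ L, fun L₁ L₂ h => by
  rw [Act.I_mul, ← x.spec _ _ (Act.sm_mono _ h), ← y.spec _ _ h]
  ring⟩⟩

noncomputable instance : Inv (Ext A) := ⟨fun x => ⟨x.g⁻¹, fun L => -x.φ (A.sm x.g⁻¹ L), fun L₁ L₂ h => by
  have h1 := Act.I_mul (A := A) x.g x.g⁻¹ L₁ L₂
  rw [mul_inv_cancel, Act.I_one, ← x.spec _ _ (Act.sm_mono _ h)] at h1
  linear_combination h1⟩⟩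

@[simp] theorem one_g : (1 : Ext A).g = 1 := rfl
@[simp] theorem one_φ (L : A.F.S) : (1 : Ext A).φ L = 0 := rfl
@[simp] theorem mul_g (x y : Ext A) : (x * y).g = x.g * y.g := rfl
@[simp] theorem mul_φ (x y : Ext A) (L : A.F.S) : (x * y).φ L = x.φ (A.sm y.g L) + y.φ L := rfl
@[simp] theorem inv_g (x : Ext A) : x⁻¹.g = x.g⁻¹ := rfl
@[simp] theorem inv_φ (x : Ext A) (L : A.F.S) : x⁻¹.φ L = -x.φ (A.sm x.g⁻¹ L) := rfl

noncomputable instance : Group (Ext A) := Group.ofLeftAxioms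
  (fun x y z => Ext.ext (mul_assoc _ _ _) (funext fun L => by
    simp only [mul_φ, mul_g, Act.sm_mul, add_assoc]))
  (fun x => Ext.ext (one_mul _) (funext fun L => by simp only [mul_φ, one_φ, zero_add]))
  (fun x => Ext.ext (inv_mul_cancel _) (funext fun L => by
    simp only [mul_φ, inv_φ, one_φ, ← Act.sm_mul, inv_mul_cancel, Act.sm_one, neg_add_cancel]))

variable (A) in
/-- the projection -/
noncomputable def π : Ext A →* G where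
  toFun := Ext.g
  map_one' := rfl
  map_mul' _ _ := rfl

variable (A) in
/-- the centre -/
def κ (t : Z6) : Ext A := ⟨1, fun _ => t, fun L₁ L₂ _ => by rw [Act.I_one, sub_self]⟩

@[simp] theorem π_apply (x : Ext A) : π A x = x.g := rfl
@[simp] theorem κ_g (t : Z6) : (κ A t).g = 1 := rfl
@[simp] theorem κ_φ (t : Z6) (L : A.F.S) : (κ A t).φ L = t := rfl

/-! ### Part b -/

theorem κ_zero : κ A 0 = 1 := rfl

theorem κ_add (s t : Z6) : κ A (s + t) = κ A s * κ A t :=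
  Ext.ext (one_mul _).symm rfl

theorem κ_inj {s t : Z6} (h : κ A s = κ A t) : s = t :=
  congrArg (fun z : Ext A => z.φ ⟨A.F.C 0, A.F.C_mem 0⟩) h

theorem κ_comm (t : Z6) (x : Ext A) : Commute (κ A t) x :=
  Ext.ext (by simp only [mul_g, κ_g, one_mul, mul_one]) (funext fun L => by
    simp only [mul_φ, κ_g, κ_φ, Act.sm_one, add_comm])

/-- `φ L - φ (L ⊓ L') = 0 = φ L' - φ (L ⊓ L')` -/
theorem exists_κ {z : Ext A} (hz : π A z = 1) : ∃ t, z = κ A t := by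
  have hg : z.g = 1 := hz
  refine ⟨z.φ ⟨A.F.C 0, A.F.C_mem 0⟩, Ext.ext hg (funext fun L => ?_)⟩
  have h1 := z.spec L ⟨L.1 ⊓ A.F.C 0, A.F.inf _ L.2 _ (A.F.C_mem 0)⟩ inf_le_left
  have h2 := z.spec ⟨A.F.C 0, A.F.C_mem 0⟩ ⟨L.1 ⊓ A.F.C 0, A.F.inf _ L.2 _ (A.F.C_mem 0)⟩ inf_le_right
  rw [hg, Act.I_one] at h1 h2
  rw [κ_φ]
  linear_combination h1 - h2

theorem ker_comm (z : Ext A) (hz : π A z = 1) (x : Ext A) : Commute z x := by
  obtain ⟨t, rfl⟩ := exists_κ hz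
  exact κ_comm t x

theorem exb_pow (t : Z6) (n : ℕ) : κ A t ^ n = κ A (n * t) := by
  induction n with
  | zero => rw [pow_zero, Nat.cast_zero, zero_mul, κ_zero]
  | succ n ih => rw [pow_succ, ih, ← κ_add, Nat.cast_succ, add_mul, one_mul]

theorem ker_pow (z : Ext A) (hz : π A z = 1) : z ^ 6 = 1 := by
  obtain ⟨t, rfl⟩ := exists_κ hz
  have h6 : ((6 : ℕ) : Z6) = 0 := by decide
  rw [exb_pow, h6, zero_mul, κ_zero]

/-- `φ L = I g L (L ⊓ L₀) - I g L₀ (L ⊓ L₀)`, `L₀ = C 0`; `I_chain` -/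
theorem π_surj : Surjective (π A) := by
  intro g
  let L₀ : A.F.S := ⟨A.F.C 0, A.F.C_mem 0⟩
  let m : A.F.S → A.F.S := fun L => ⟨L.1 ⊓ A.F.C 0, A.F.inf _ L.2 _ (A.F.C_mem 0)⟩
  refine ⟨⟨g, fun L => A.I g L (m L) - A.I g L₀ (m L), fun L₁ L₂ h => ?_⟩, rfl⟩
  have hm : (m L₂).1 ≤ (m L₁).1 := inf_le_inf_right _ h
  have h1 := Act.I_chain g (L₁ := L₁) (L₂ := m L₁) (L₃ := m L₂) inf_le_left hm
  have h2 := Act.I_chain g (L₁ := L₀) (L₂ := m L₁) (L₃ := m L₂) inf_le_right hm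
  have h3 := Act.I_chain g (L₁ := L₁) (L₂ := L₂) (L₃ := m L₂) h inf_le_left
  linear_combination h1 - h2 - h3

/-- two elements with the same projection and `φ L - φ' L = t` at one lattice -/
theorem eq_κ_mul {x y : Ext A} (h : x.g = y.g) (L : A.F.S) : x = κ A (x.φ L - y.φ L) * y := by
  obtain ⟨t, ht⟩ := exists_κ (z := x * y⁻¹) (by rw [π_apply, mul_g, inv_g, h, mul_inv_cancel])
  have e : x = κ A t * y := by rw [← ht, inv_mul_cancel_right]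
  have e2 : x.φ L = t + y.φ L := by rw [e, mul_φ, κ_φ]
  rw [e2, add_sub_cancel_right]
  exact e

/-! ### Part c: the commutator formula -/

/-- extension by zero of the orientation pulled back along `q` -/
noncomputable def pb {L : Submodule O V} {M : Type*} [AddCommGroup M] [Module O M] (q : L →ₗ[O] M) (x : V) : Z6 :=
  if h : x ∈ L then ori M (q ⟨x, h⟩) else 0

/-- One half.  `X = L ∖ bL`, `o_b = pb q`: `dl o (o a) = dl o o_b + dl o_b (o_b a) + dl (o_b a) (o a)` on `X`; the middle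
term is `sym f` (`dl_eq_dfs` with level `bL` and `q` extended by `0`, image `{≠ 0}`), the last is `dl (aX) o_b o`
(`dl_image`), `aX = aL ∖ bL` by injectivity of `f`; `dl_diff`, `dl_add`, `dl_self`. -/
theorem I_eq (a b : G) (L : A.F.S) (ha : ∀ v ∈ L.1, A.ρ a v ∈ L.1) (hb : ∀ v ∈ L.1, A.ρ b v ∈ L.1)
    {M : Type*} [AddCommGroup M] [Module O M] [Finite M] (hM : Fr M) (q : L.1 →ₗ[O] M) (hq : Surjective q)
    (hk : ∀ v : L.1, q v = 0 ↔ v.1 ∈ (A.sm b L).1) {f : M →ₗ[O] M} (hf : Bijective f)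
    (hqf : ∀ v : L.1, q ⟨A.ρ a v, ha v v.2⟩ = f (q v)) :
    A.I a L (A.sm b L) = sym f +
      A.F.dl (((L.1 : Set V) \ (A.sm b L).1) \ (A.sm a L).1) A.o (pb q) := by
  have hbL : (A.sm b L).1 ≤ L.1 := by
    rintro _ ⟨v, hv, rfl⟩
    exact hb v hv
  obtain ⟨X, hX⟩ : ∃ X : Set V, X = (L.1 : Set V) \ (A.sm b L).1 := ⟨_, rfl⟩
  have hm : ∀ x, x ∈ X ↔ x ∈ L.1 ∧ x ∉ (A.sm b L).1 := fun x => by rw [hX]; rfl
  have hpb : ∀ (x : V) (h : x ∈ L.1), pb q x = ori M (q ⟨x, h⟩) := fun x h => dif_pos h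
  have hco : A.F.CO X := hX ▸ Act.co_diff L (A.sm b L)
  have hper : PerS X (A.sm b L).1 := by
    intro x hx y hy
    obtain ⟨h1, h2⟩ := (hm x).1 hx
    refine (hm _).2 ⟨L.1.add_mem h1 (hbL hy), fun h => h2 ?_⟩
    simpa using (A.sm b L).1.sub_mem h hy
  have hab : ∀ (x : V) (h : x ∈ L.1), A.ρ a x ∈ (A.sm b L).1 ↔ x ∈ (A.sm b L).1 := by
    intro x h
    rw [← hk ⟨x, h⟩, ← hk ⟨A.ρ a x, ha x h⟩, hqf ⟨x, h⟩]
    exact map_eq_zero_iff f hf.1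
  have hsub : A.ρ a '' X ⊆ X := by
    rintro _ ⟨x, hx, rfl⟩
    obtain ⟨h1, h2⟩ := (hm x).1 hx
    exact (hm _).2 ⟨ha x h1, fun h => h2 ((hab x h1).1 h)⟩
  have hdiff : X \ A.ρ a '' X = X \ (A.sm a L).1 := by
    ext y
    refine and_congr_right fun hy => not_congr ⟨?_, ?_⟩
    · rintro ⟨x, hx, rfl⟩
      exact ⟨x, ((hm x).1 hx).1, rfl⟩
    · rintro ⟨x, hx, rfl⟩
      exact ⟨x, (hm x).2 ⟨hx, fun h => ((hm _).1 hy).2 ((hab x hx).2 h)⟩, rfl⟩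
  have ho : A.F.Ad X A.o := (A.o_spec (A.sm b L).2).mono fun x hx => ((hm x).1 hx).2
  have hp : A.F.Ad X (pb q) := by
    refine ⟨fun x hx => ?_, (A.sm b L).1, (A.sm b L).2, fun x hx y hy => ?_⟩
    · obtain ⟨h1, h2⟩ := (hm x).1 hx
      rw [hpb x h1, hpb _ (L.1.smul_mem zt h1), ← ori_spec hM _ fun h => h2 ((hk ⟨x, h1⟩).1 h),
        ← map_smul]
      rfl
    · obtain ⟨h1, -⟩ := (hm x).1 hx
      rw [hpb x h1, hpb _ (L.1.add_mem h1 (hbL hy)), ← add_zero (q ⟨x, h1⟩),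
        ← (hk ⟨y, hbL hy⟩).2 hy, ← map_add]
      rfl
  have hoa := Fam.Ad.comp (A.pres' a) (ho.mono hsub)
  have hpa := Fam.Ad.comp (A.pres' a) (hp.mono hsub)
  have hco' := hco.image (A.pres' a)
  have hmid : A.F.dl X (pb q) (fun x => pb q (A.ρ a x)) = sym f := by
    let q' : V → M := fun x => if h : x ∈ L.1 then q ⟨x, h⟩ else 0
    have hqv : ∀ (x : V) (h : x ∈ L.1), q' x = q ⟨x, h⟩ := fun x h => dif_pos h
    have himg : q' '' X = {m : M | m ≠ 0} := by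
      ext m
      constructor
      · rintro ⟨x, hx, rfl⟩
        obtain ⟨h1, h2⟩ := (hm x).1 hx
        rw [hqv x h1]
        exact fun h => h2 ((hk _).1 h)
      · intro h0
        obtain ⟨v, rfl⟩ := hq m
        exact ⟨v.1, (hm _).2 ⟨v.2, fun h => h0 ((hk v).2 h)⟩, hqv v.1 v.2⟩
    rw [Fam.dl_eq_dfs (F := A.F) ⟨L.1, L.2, fun x hx => ((hm x).1 hx).1⟩ (A.sm b L).2 hper q' ?_
      (p := ori M) (p' := fun m => ori M (f m)) ?_ ?_, himg, sym]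
    · intro x hx x' hx'
      rw [hqv x ((hm x).1 hx).1, hqv x' ((hm x').1 hx').1, ← sub_eq_zero, ← map_sub, hk]
      rfl
    · intro x hx
      rw [hqv x ((hm x).1 hx).1, hpb x ((hm x).1 hx).1]
    · intro x hx
      rw [hqv x ((hm x).1 hx).1, hpb _ (ha x ((hm x).1 hx).1), ← hqf]
  have e1 := Fam.dl_add hco ho hp hoa
  have e2 := Fam.dl_add hco hp hpa hoa
  have e3 := Fam.dl_image (A.pres' a) hco (hp.mono hsub) (ho.mono hsub)
  have e4 := Fam.dl_diff hco hco' hsub ho hp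
  have e5 := Fam.dl_add hco' (ho.mono hsub) (hp.mono hsub) (ho.mono hsub)
  rw [Fam.dl_self] at e5
  rw [hdiff] at e4
  rw [Act.I, ← hX, ← e1, ← e2, hmid, e3, e4]
  linear_combination e5

/-- `dl_eq_dfs` with level `aL ⊓ bL` and `(qb, qa)`, which is onto (`fa`, `fb` are onto and `qb (b v) = 0`,
`qa (a v) = 0`); `dfs_prod` -/
theorem dl_pb (a b : G) (L : A.F.S) (ha : ∀ v ∈ L.1, A.ρ a v ∈ L.1) (hb : ∀ v ∈ L.1, A.ρ b v ∈ L.1)
    {Ma Mb : Type*} [AddCommGroup Ma] [Module O Ma] [Finite Ma] [AddCommGroup Mb] [Module O Mb] [Finite Mb]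
    (hMa : Fr Ma) (hMb : Fr Mb) (qa : L.1 →ₗ[O] Ma) (qb : L.1 →ₗ[O] Mb) (hqa : Surjective qa) (hqb : Surjective qb)
    (hka : ∀ v : L.1, qa v = 0 ↔ v.1 ∈ (A.sm a L).1) (hkb : ∀ v : L.1, qb v = 0 ↔ v.1 ∈ (A.sm b L).1)
    {fa : Mb →ₗ[O] Mb} {fb : Ma →ₗ[O] Ma} (hfa : Bijective fa) (hfb : Bijective fb)
    (h1 : ∀ v : L.1, qb ⟨A.ρ a v, ha v v.2⟩ = fa (qb v)) (h2 : ∀ v : L.1, qa ⟨A.ρ b v, hb v v.2⟩ = fb (qa v)) :
    A.F.dl (((L.1 : Set V) \ (A.sm b L).1) \ (A.sm a L).1) (pb qb) (pb qa) = 3 * nq Mb * nq Ma := by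
  have hmem : ∀ (g : G) (v : V), v ∈ L.1 → A.ρ g v ∈ (A.sm g L).1 := fun g v hv => ⟨v, hv, rfl⟩
  have haL : (A.sm a L).1 ≤ L.1 := by
    rintro _ ⟨v, hv, rfl⟩
    exact ha v hv
  let q : V → Mb × Ma := fun x => if h : x ∈ L.1 then (qb ⟨x, h⟩, qa ⟨x, h⟩) else 0
  have hqv : ∀ (x : V) (h : x ∈ L.1), q x = (qb ⟨x, h⟩, qa ⟨x, h⟩) := fun x h => dif_pos h
  have himg : q '' (((L.1 : Set V) \ (A.sm b L).1) \ (A.sm a L).1) = {p : Mb × Ma | p.1 ≠ 0 ∧ p.2 ≠ 0} := by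
    ext p
    constructor
    · rintro ⟨x, ⟨⟨hx, hxb⟩, hxa⟩, rfl⟩
      rw [hqv x hx]
      exact ⟨fun h => hxb ((hkb _).1 h), fun h => hxa ((hka _).1 h)⟩
    · rintro ⟨hp1, hp2⟩
      obtain ⟨u, hu⟩ := (hfa.2.comp hqb) p.1
      obtain ⟨w, hw⟩ := (hfb.2.comp hqa) p.2
      let x : L.1 := ⟨A.ρ a u, ha u u.2⟩ + ⟨A.ρ b w, hb w w.2⟩
      have e1 : qb x = p.1 := by
        rw [map_add, h1, (hkb ⟨A.ρ b w, hb w w.2⟩).2 (hmem b w w.2), add_zero]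
        exact hu
      have e2 : qa x = p.2 := by
        rw [map_add, h2, (hka ⟨A.ρ a u, ha u u.2⟩).2 (hmem a u u.2), zero_add]
        exact hw
      refine ⟨x.1, ⟨⟨x.2, fun h => hp1 ?_⟩, fun h => hp2 ?_⟩, ?_⟩
      · rw [← e1]
        exact (hkb x).2 h
      · rw [← e2]
        exact (hka x).2 h
      · rw [hqv x.1 x.2]
        exact Prod.ext e1 e2
  rw [Fam.dl_eq_dfs (F := A.F) (M := Mb × Ma) ⟨L.1, L.2, fun x hx => hx.1.1⟩
    (A.F.inf _ (A.sm a L).2 _ (A.sm b L).2) ?_ q ?_ (p := fun p => ori Mb p.1) (p' := fun p => ori Ma p.2) ?_ ?_,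
    himg]
  · exact dfs_prod (ori_spec hMb) (ori_spec hMa)
  · rintro x ⟨⟨hx, hxb⟩, hxa⟩ y ⟨hya, hyb⟩
    refine ⟨⟨L.1.add_mem hx (haL hya), fun h => hxb ?_⟩, fun h => hxa ?_⟩
    · simpa using (A.sm b L).1.sub_mem h hyb
    · simpa using (A.sm a L).1.sub_mem h hya
  · intro x hx x' hx'
    rw [hqv x hx.1.1, hqv x' hx'.1.1, Prod.mk.injEq, ← sub_eq_zero, ← map_sub, ← sub_eq_zero (a := qa _), ← map_sub,
      hkb, hka, Submodule.mem_inf, and_comm]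
    rfl
  · intro x hx
    rw [hqv x hx.1.1]
    exact dif_pos hx.1.1
  · intro x hx
    rw [hqv x hx.1.1]
    exact dif_pos hx.1.1

theorem exb_ad_pb (L N : A.F.S) (hN : N.1 ≤ L.1) {M : Type*} [AddCommGroup M] [Module O M] (hM : Fr M)
    (q : L.1 →ₗ[O] M) (hk : ∀ v : L.1, q v = 0 ↔ v.1 ∈ N.1) {X : Set V} (hX : X ⊆ (L.1 : Set V) \ N.1) :
    A.F.Ad X (pb q) := by
  refine ⟨fun x hx => ?_, N.1, N.2, fun x hx y hy => ?_⟩
  · have h1 : x ∈ L.1 := (hX hx).1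
    have h2 : zt • x ∈ L.1 := L.1.smul_mem _ h1
    have h3 : q ⟨x, h1⟩ ≠ 0 := fun h => (hX hx).2 ((hk _).1 h)
    have h4 : q ⟨zt • x, h2⟩ = zt • q ⟨x, h1⟩ := q.map_smul zt ⟨x, h1⟩
    rw [pb, pb, dif_pos h1, dif_pos h2, h4]
    exact ori_spec hM _ h3
  · have h1 : x ∈ L.1 := (hX hx).1
    have h2 : x + y ∈ L.1 := L.1.add_mem h1 (hN hy)
    have h4 : q ⟨x + y, h2⟩ = q ⟨x, h1⟩ + q ⟨y, hN hy⟩ := q.map_add ⟨x, h1⟩ ⟨y, hN hy⟩
    rw [pb, pb, dif_pos h1, dif_pos h2, h4, (hk ⟨y, hN hy⟩).2 hy, add_zero]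

/-- `eq_κ_mul` at `L`, `spec`, `I_eq` twice, `dl_add`, `dl_pb` -/
theorem comm_formula (x y : Ext A) (hc : Commute x.g y.g) (L : A.F.S)
    (ha : ∀ v ∈ L.1, A.ρ x.g v ∈ L.1) (hb : ∀ v ∈ L.1, A.ρ y.g v ∈ L.1)
    {Ma Mb : Type*} [AddCommGroup Ma] [Module O Ma] [Finite Ma] [AddCommGroup Mb] [Module O Mb] [Finite Mb]
    (hMa : Fr Ma) (hMb : Fr Mb) (qa : L.1 →ₗ[O] Ma) (qb : L.1 →ₗ[O] Mb) (hqa : Surjective qa) (hqb : Surjective qb)
    (hka : ∀ v : L.1, qa v = 0 ↔ v.1 ∈ (A.sm x.g L).1) (hkb : ∀ v : L.1, qb v = 0 ↔ v.1 ∈ (A.sm y.g L).1)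
    {fa : Mb →ₗ[O] Mb} {fb : Ma →ₗ[O] Ma} (hfa : Bijective fa) (hfb : Bijective fb)
    (h1 : ∀ v : L.1, qb ⟨A.ρ x.g v, ha v v.2⟩ = fa (qb v))
    (h2 : ∀ v : L.1, qa ⟨A.ρ y.g v, hb v v.2⟩ = fb (qa v)) :
    x * y = κ A (sym fb - sym fa + 3 * nq Mb * nq Ma) * (y * x) := by
  have haL : (A.sm x.g L).1 ≤ L.1 := by
    rintro _ ⟨v, hv, rfl⟩
    exact ha v hv
  have hbL : (A.sm y.g L).1 ≤ L.1 := by
    rintro _ ⟨v, hv, rfl⟩
    exact hb v hv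
  have e := eq_κ_mul (x := x * y) (y := y * x) hc.eq L
  have s1 := x.spec L _ hbL
  have s2 := y.spec L _ haL
  rw [I_eq x.g y.g L ha hb hMb qb hqb hkb hfa h1] at s1
  rw [I_eq y.g x.g L hb ha hMa qa hqa hka hfb h2, Set.diff_diff_comm] at s2
  have s3 := dl_pb x.g y.g L ha hb hMa hMb qa qb hqa hqb hka hkb hfa hfb h1 h2
  have s4 := Fam.dl_add ((Act.co_diff L (A.sm y.g L)).diff (Fam.co_mem (A.sm x.g L).2))
    ((A.o_spec (A.sm x.g L).2).mono fun v hv => hv.2)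
    (exb_ad_pb L _ hbL hMb qb hkb fun v hv => hv.1)
    (exb_ad_pb L _ haL hMa qa hka fun v hv => ⟨hv.1.1, hv.2⟩)
  have t : (x * y).φ L - (y * x).φ L = sym fb - sym fa + 3 * nq Mb * nq Ma := by
    rw [mul_φ, mul_φ]
    linear_combination s2 - s1 + s3 - s4
  rwa [t] at e

end Ext

end Crest.Agent.R27.Rec
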