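import Crest.Agent.R27.Rec.Sym

/-!
Row 27, block REC: families of lattices and the `ℤ/6`-valued integral `dl X o o' = ∫_{X/μ₆} (o' - o)`
(all lattices have volume `1`, because all indices are `≡ 1 mod 6`).  Prefix: `faa_`, `fab_`, `fac_`.
-/

set_option autoImplicit false

namespace Crest.Agent.R27.Rec

open Crest.Agent.R17 Function
open scoped Classical

/-- a commensurability class of `6`-saturated submodules -/
structure Fam (V : Type*) [AddCommGroup V] [Module O V] where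
  S : Set (Submodule O V)
  sat : ∀ L ∈ S, ∀ x : V, (6 : ℕ) • x ∈ L → x ∈ L
  inf : ∀ L ∈ S, ∀ L' ∈ S, L ⊓ L' ∈ S
  fin : ∀ L ∈ S, ∀ L' ∈ S, (L'.mkQ '' (L : Set V)).Finite
  C : ℕ → Submodule O V
  C_mem : ∀ k, C k ∈ S
  C_anti : Antitone C
  C_cof : ∀ L ∈ S, ∃ k, C k ≤ L

variable {V : Type*} [AddCommGroup V] [Module O V]

/-- `X` is a union of cosets of `L` -/
def PerS (X : Set V) (L : Submodule O V) : Prop := ∀ x ∈ X, ∀ y ∈ L, x + y ∈ X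

/-- `o` is `L`-periodic on `X` -/
def PerF (X : Set V) (L : Submodule O V) (o : V → Z6) : Prop := ∀ x ∈ X, ∀ y ∈ L, o (x + y) = o x

/-- the integral computed at level `L` -/
noncomputable def dL (L : Submodule O V) (X : Set V) (o o' : V → Z6) : Z6 :=
  dfs (L.mkQ '' X) (fun c => o c.out) (fun c => o' c.out)

namespace Fam

variable (F : Fam V)

/-- compact, open and `ζ`-stable -/
structure CO (X : Set V) : Prop where
  bd : ∃ L ∈ F.S, X ⊆ L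
  per : ∃ L ∈ F.S, PerS X L
  stb : Stb X

/-- a locally constant orientation on `X` -/
structure Ad (X : Set V) (o : V → Z6) : Prop where
  ori : Ori X o
  per : ∃ L ∈ F.S, PerF X L o

/-- the integral -/
noncomputable def dl (X : Set V) (o o' : V → Z6) : Z6 :=
  if h : ∃ L ∈ F.S, PerS X L ∧ PerF X L o ∧ PerF X L o' then dL h.choose X o o' else 0

variable {F} {X X' : Set V} {o o' o'' o₁ o₁' : V → Z6}

/-! ### Part a -/

theorem fr_quot {L : Submodule O V} (hL : L ∈ F.S) : Fr (V ⧸ L) := by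
  intro x hx
  obtain ⟨z, rfl⟩ := L.mkQ_surjective x
  rw [← map_nsmul, Submodule.mkQ_apply, Submodule.Quotient.mk_eq_zero] at hx
  exact (Submodule.Quotient.mk_eq_zero _).2 (F.sat L hL z hx)

theorem faa_mk_out (L : Submodule O V) (c : V ⧸ L) : L.mkQ c.out = c := Quotient.out_eq' c

theorem faa_out (L : Submodule O V) (x : V) : (L.mkQ x).out - x ∈ L :=
  (Submodule.Quotient.eq L).1 (faa_mk_out L (L.mkQ x))

theorem faa_out_mem {L L₁ : Submodule O V} (hX : PerS X L) (hle : L₁ ≤ L) {c : V ⧸ L₁} (hc : c ∈ L₁.mkQ '' X) :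
    c.out ∈ X := by
  obtain ⟨x, hx, rfl⟩ := hc
  have := hX x hx _ (hle (faa_out L₁ x))
  rwa [add_sub_cancel] at this

theorem faa_perF {L : Submodule O V} (ho : PerF X L o) {x : V} (hx : x ∈ X) : o x = o (L.mkQ x).out := by
  have := ho x hx _ (faa_out L x)
  rw [add_sub_cancel] at this
  exact this.symm

/-- `dfs_congr` (on `L₁.mkQ '' X` one has `c.out ∈ X` and `o c.out = p (q c.out)`), `dfs_fiber` for `c ↦ q c.out`: the
fibre through `mkQ x` is the translate `mkQ x + L.map L₁.mkQ` (`ncard_submodule`, `fr_quot`, `F.fin`) -/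
theorem dL_eq_dfs {M : Type*} (hb : ∃ L₀ ∈ F.S, X ⊆ L₀) {L L₁ : Submodule O V} (hL : L ∈ F.S) (hL₁ : L₁ ∈ F.S)
    (hle : L₁ ≤ L) (hX : PerS X L) (q : V → M) (hq : ∀ x ∈ X, ∀ x' ∈ X, q x = q x' ↔ x - x' ∈ L)
    {p p' : M → Z6} (hp : ∀ x ∈ X, o x = p (q x)) (hp' : ∀ x ∈ X, o' x = p' (q x)) :
    dL L₁ X o o' = dfs (q '' X) p p' := by
  obtain ⟨L₀, hL₀, hb⟩ := hb
  have hY : (L₁.mkQ '' X).Finite := (F.fin L₀ hL₀ L₁ hL₁).subset (Set.image_mono hb)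
  have him : (fun c : V ⧸ L₁ => q c.out) '' (L₁.mkQ '' X) = q '' X := by
    refine Set.Subset.antisymm ?_ ?_
    · rintro _ ⟨c, hc, rfl⟩
      exact ⟨_, faa_out_mem hX hle hc, rfl⟩
    · rintro _ ⟨x, hx, rfl⟩
      exact ⟨_, ⟨x, hx, rfl⟩, (hq _ (faa_out_mem hX hle ⟨x, hx, rfl⟩) x hx).2 (hle (faa_out L₁ x))⟩
  rw [dL, dfs_congr (fun c hc => hp _ (faa_out_mem hX hle hc)) fun c hc => hp' _ (faa_out_mem hX hle hc), ← him]
  refine dfs_fiber hY (fun c : V ⧸ L₁ => q c.out) (fun c hc => ?_) p p'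
  have hc' := faa_out_mem hX hle hc
  have hs : L₁.mkQ '' X ∩ {c' : V ⧸ L₁ | q c'.out = q c.out} =
      (fun n => c + n) '' (L.map L₁.mkQ : Set (V ⧸ L₁)) := by
    refine Set.Subset.antisymm ?_ ?_
    · rintro c' ⟨h1, h2⟩
      refine ⟨_, ⟨_, (hq _ (faa_out_mem hX hle h1) _ hc').1 h2, rfl⟩, ?_⟩
      beta_reduce
      rw [map_sub, faa_mk_out, faa_mk_out, add_sub_cancel]
    · rintro _ ⟨_, ⟨y, hy, rfl⟩, rfl⟩
      have e : c + L₁.mkQ y = L₁.mkQ (c.out + y) := by rw [map_add, faa_mk_out]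
      have h1 : c + L₁.mkQ y ∈ L₁.mkQ '' X := ⟨_, hX _ hc' y hy, e.symm⟩
      refine ⟨h1, (hq _ (faa_out_mem hX hle h1) _ hc').2 ?_⟩
      have h2 := L.add_mem (hle (faa_out L₁ (c.out + y))) hy
      rw [← e] at h2
      convert h2 using 1
      abel
  rw [hs, Set.ncard_image_of_injective _ (add_right_injective c)]
  exact ncard_submodule (fr_quot hL₁) _ (F.fin L hL L₁ hL₁)

/-- the master formula: `dL_eq_dfs` twice at the level `L ⊓ L₀`, `L₀` the chosen level (once with `q = L₀.mkQ`) -/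
theorem dl_eq_dfs {M : Type*} (hb : ∃ L₀ ∈ F.S, X ⊆ L₀) {L : Submodule O V} (hL : L ∈ F.S)
    (hX : PerS X L) (q : V → M) (hq : ∀ x ∈ X, ∀ x' ∈ X, q x = q x' ↔ x - x' ∈ L)
    {p p' : M → Z6} (hp : ∀ x ∈ X, o x = p (q x)) (hp' : ∀ x ∈ X, o' x = p' (q x)) :
    F.dl X o o' = dfs (q '' X) p p' := by
  have hper : ∀ {o : V → Z6} {p : M → Z6}, (∀ x ∈ X, o x = p (q x)) → PerF X L o := fun hp x hx y hy => by
    rw [hp _ (hX x hx y hy), hp x hx, (hq _ (hX x hx y hy) x hx).2 (by rwa [add_sub_cancel_left])]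
  have h : ∃ L ∈ F.S, PerS X L ∧ PerF X L o ∧ PerF X L o' := ⟨L, hL, hX, hper hp, hper hp'⟩
  rw [dl, dif_pos h]
  obtain ⟨h0, h1, h2, h3⟩ := h.choose_spec
  rw [← dL_eq_dfs hb hL (F.inf _ hL _ h0) inf_le_left hX q hq hp hp']
  exact (dL_eq_dfs hb h0 (F.inf _ hL _ h0) inf_le_right h1 h.choose.mkQ (fun x _ x' _ => Submodule.Quotient.eq _)
    (p := fun c => o c.out) (p' := fun c => o' c.out) (fun x hx => faa_perF h2 hx) fun x hx => faa_perF h3 hx).symm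

theorem dl_eq_dL (hb : ∃ L₀ ∈ F.S, X ⊆ L₀) {L : Submodule O V} (hL : L ∈ F.S) (hX : PerS X L)
    (ho : PerF X L o) (ho' : PerF X L o') : F.dl X o o' = dL L X o o' := by
  exact dl_eq_dfs hb hL hX L.mkQ (fun x _ x' _ => Submodule.Quotient.eq _)
    (p := fun c => o c.out) (p' := fun c => o' c.out) (fun x hx => faa_perF ho hx) fun x hx => faa_perF ho' hx

/-! ### Part b -/

theorem fab_perS {L L' : Submodule O V} (h : PerS X L) (hle : L' ≤ L) : PerS X L' :=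
  fun x hx y hy => h x hx y (hle hy)

theorem fab_perF {L L' : Submodule O V} (h : PerF X L o) (hle : L' ≤ L) : PerF X L' o :=
  fun x hx y hy => h x hx y (hle hy)

theorem fab_sub (L : Submodule O V) (x : V) : (L.mkQ x).out - x ∈ L :=
  (Submodule.Quotient.eq L).1 (Quotient.out_eq (L.mkQ x))

theorem fab_out {L : Submodule O V} (h : PerS X L) {c : V ⧸ L} (hc : c ∈ L.mkQ '' X) : c.out ∈ X := by
  obtain ⟨x, hx, rfl⟩ := hc
  have := h x hx _ (fab_sub L x)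
  rwa [add_sub_cancel] at this

theorem fab_val {L : Submodule O V} (h : PerF X L o) {x : V} (hx : x ∈ X) : o (L.mkQ x).out = o x := by
  have := h x hx _ (fab_sub L x)
  rwa [add_sub_cancel] at this

theorem fab_fin (hX : F.CO X) {L : Submodule O V} (hL : L ∈ F.S) : (L.mkQ '' X).Finite := by
  obtain ⟨L₀, h₀, hle⟩ := hX.bd
  exact (F.fin L₀ h₀ L hL).subset (Set.image_mono hle)

theorem fab_stb (hX : Stb X) (L : Submodule O V) : Stb (L.mkQ '' X) := by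
  rintro _ ⟨x, hx, rfl⟩
  exact ⟨zt • x, hX x hx, map_smul _ _ _⟩

theorem fab_ori (hX : Stb X) {L : Submodule O V} (ho : Ori X o) (h : PerF X L o) :
    Ori (L.mkQ '' X) fun c => o c.out := by
  rintro _ ⟨x, hx, rfl⟩
  show o (zt • L.mkQ x).out = o (L.mkQ x).out + 1
  rw [← map_smul, fab_val h (hX x hx), fab_val h hx, ho x hx]

theorem fab_level (hX : ∃ L ∈ F.S, PerS X L) (hX' : ∃ L ∈ F.S, PerS X' L) (ho : F.Ad X o) (ho' : F.Ad X o')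
    (ho'' : F.Ad X o'') : ∃ L ∈ F.S, PerS X L ∧ PerS X' L ∧ PerF X L o ∧ PerF X L o' ∧ PerF X L o'' := by
  obtain ⟨L₁, h₁, p₁⟩ := hX
  obtain ⟨L₂, h₂, p₂⟩ := hX'
  obtain ⟨L₃, h₃, p₃⟩ := ho.per
  obtain ⟨L₄, h₄, p₄⟩ := ho'.per
  obtain ⟨L₅, h₅, p₅⟩ := ho''.per
  exact ⟨(L₁ ⊓ L₂) ⊓ (L₃ ⊓ (L₄ ⊓ L₅)), F.inf _ (F.inf _ h₁ _ h₂) _ (F.inf _ h₃ _ (F.inf _ h₄ _ h₅)),
    fab_perS p₁ (inf_le_left.trans inf_le_left), fab_perS p₂ (inf_le_left.trans inf_le_right),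
    fab_perF p₃ (inf_le_right.trans inf_le_left),
    fab_perF p₄ (inf_le_right.trans (inf_le_right.trans inf_le_left)),
    fab_perF p₅ (inf_le_right.trans (inf_le_right.trans inf_le_right))⟩

theorem fab_diff {L : Submodule O V} (h : PerS X L) (h' : PerS X' L) : PerS (X \ X') L := by
  intro x hx y hy
  refine ⟨h x hx.1 y hy, fun hm => hx.2 ?_⟩
  have := h' _ hm (-y) (L.neg_mem hy)
  rwa [add_neg_cancel_right] at this

theorem dl_self (X : Set V) (o : V → Z6) : F.dl X o o = 0 := by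
  unfold dl
  split_ifs
  · exact dfs_self _ _
  · rfl

theorem dl_congr (hX : F.CO X) (ho : F.Ad X o) (ho' : F.Ad X o') (h : ∀ x ∈ X, o x = o₁ x)
    (h' : ∀ x ∈ X, o' x = o₁' x) : F.dl X o o' = F.dl X o₁ o₁' := by
  obtain ⟨L, hL, p, -, p₁, p₂, -⟩ := fab_level hX.per hX.per ho ho' ho'
  have q₁ : PerF X L o₁ := fun x hx y hy => by rw [← h _ (p x hx y hy), ← h x hx, p₁ x hx y hy]
  have q₂ : PerF X L o₁' := fun x hx y hy => by rw [← h' _ (p x hx y hy), ← h' x hx, p₂ x hx y hy]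
  rw [dl_eq_dL hX.bd hL p p₁ p₂, dl_eq_dL hX.bd hL p q₁ q₂]
  exact dfs_congr (fun c hc => h _ (fab_out p hc)) fun c hc => h' _ (fab_out p hc)

/-- common level `L`, `dl_eq_dL`, `dfs_add` in `V ⧸ L` -/
theorem dl_add (hX : F.CO X) (ho : F.Ad X o) (ho' : F.Ad X o') (ho'' : F.Ad X o'') :
    F.dl X o o' + F.dl X o' o'' = F.dl X o o'' := by
  obtain ⟨L, hL, p, -, p₁, p₂, p₃⟩ := fab_level hX.per hX.per ho ho' ho''
  rw [dl_eq_dL hX.bd hL p p₁ p₂, dl_eq_dL hX.bd hL p p₂ p₃, dl_eq_dL hX.bd hL p p₁ p₃]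
  exact dfs_add (fab_fin hX hL) (fab_stb hX.stb L) (fab_ori hX.stb ho.ori p₁) (fab_ori hX.stb ho'.ori p₂)
    (fab_ori hX.stb ho''.ori p₃)

theorem Ad.mono (ho : F.Ad X o) (h : X' ⊆ X) : F.Ad X' o := by
  obtain ⟨L, hL, p⟩ := ho.per
  exact ⟨fun x hx => ho.ori x (h hx), L, hL, fun x hx => p x (h hx)⟩

/-- stability: `zt • x ∈ X'` implies `x = zt ^ 5 • zt • x ∈ X'` -/
theorem CO.diff (hX : F.CO X) (hX' : F.CO X') : F.CO (X \ X') := by
  obtain ⟨L₀, h₀, hle⟩ := hX.bd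
  obtain ⟨L₁, h₁, p₁⟩ := hX.per
  obtain ⟨L₂, h₂, p₂⟩ := hX'.per
  refine ⟨⟨L₀, h₀, Set.sdiff_subset.trans hle⟩,
    ⟨L₁ ⊓ L₂, F.inf _ h₁ _ h₂, fab_diff (fab_perS p₁ inf_le_left) (fab_perS p₂ inf_le_right)⟩,
    fun x hx => ⟨hX.stb x hx.1, fun hm => hx.2 ?_⟩⟩
  have := hX'.stb.pow hm 5
  rwa [smul_smul, ← pow_succ, zt_pow_six, one_smul] at this

theorem co_mem {L : Submodule O V} (hL : L ∈ F.S) : F.CO (L : Set V) := by
  exact ⟨⟨L, hL, subset_rfl⟩, ⟨L, hL, fun x hx y hy => L.add_mem hx hy⟩, fun x hx => L.smul_mem _ hx⟩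

theorem dl_diff (hX : F.CO X) (hX' : F.CO X') (h : X' ⊆ X) (ho : F.Ad X o) (ho' : F.Ad X o') :
    F.dl X o o' = F.dl X' o o' + F.dl (X \ X') o o' := by
  obtain ⟨L, hL, p, p', p₁, p₂, -⟩ := fab_level hX.per hX'.per ho ho' ho'
  rw [dl_eq_dL hX.bd hL p p₁ p₂, dl_eq_dL hX'.bd hL p' (fun x hx => p₁ x (h hx)) (fun x hx => p₂ x (h hx)),
    dl_eq_dL (hX.diff hX').bd hL (fab_diff p p') (fun x hx => p₁ x hx.1) (fun x hx => p₂ x hx.1)]
  have e : L.mkQ '' (X \ X') = L.mkQ '' X \ L.mkQ '' X' := by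
    refine Set.Subset.antisymm ?_ fun c ⟨⟨x, hx, e⟩, hc⟩ => ⟨x, ⟨hx, fun hx' => hc ⟨x, hx', e⟩⟩, e⟩
    rintro _ ⟨x, hx, rfl⟩
    refine ⟨⟨x, hx.1, rfl⟩, ?_⟩
    rintro ⟨x', hx', e⟩
    have := p' x' hx' _ ((Submodule.Quotient.eq L).1 e.symm)
    rw [add_sub_cancel] at this
    exact hx.2 this
  unfold dL
  rw [e]
  exact dfs_diff (fab_fin hX hL) (Set.image_mono h) _ _

/-! ### Part c -/

variable (F) in
/-- `g` permutes the family -/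
def Pres (g : V ≃ₗ[O] V) : Prop :=
  ∀ L ∈ F.S, L.map (g : V →ₗ[O] V) ∈ F.S ∧ L.map (g.symm : V →ₗ[O] V) ∈ F.S

theorem CO.image {g : V ≃ₗ[O] V} (hg : F.Pres g) (hX : F.CO X) : F.CO (g '' X) := by
  obtain ⟨⟨L₁, hL₁, h₁⟩, ⟨L₂, hL₂, h₂⟩, h₃⟩ := hX
  refine ⟨⟨_, (hg L₁ hL₁).1, ?_⟩, ⟨_, (hg L₂ hL₂).1, ?_⟩, ?_⟩
  · rintro _ ⟨x, hx, rfl⟩
    exact ⟨x, h₁ hx, rfl⟩
  · rintro _ ⟨x, hx, rfl⟩ _ ⟨y, hy, rfl⟩
    exact ⟨x + y, h₂ x hx y hy, map_add g x y⟩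
  · rintro _ ⟨x, hx, rfl⟩
    exact ⟨zt • x, h₃ x hx, map_smul g zt x⟩

theorem Ad.comp {g : V ≃ₗ[O] V} (hg : F.Pres g) (ho : F.Ad (g '' X) o) : F.Ad X fun x => o (g x) := by
  obtain ⟨h₁, L, hL, h₂⟩ := ho
  refine ⟨fun x hx => ?_, _, (hg L hL).2, ?_⟩
  · simp only [map_smul]
    exact h₁ _ ⟨x, hx, rfl⟩
  · rintro x hx _ ⟨y, hy, rfl⟩
    simp only [map_add, LinearEquiv.coe_coe, LinearEquiv.apply_symm_apply]
    exact h₂ _ ⟨x, hx, rfl⟩ y hy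

/-- `L` a common level for `g '' X`, `o`, `o'`; `dl_eq_dfs` with the level `L.map g.symm` and `q = L.mkQ ∘ g` -/
theorem dl_image {g : V ≃ₗ[O] V} (hg : F.Pres g) (hX : F.CO X) (ho : F.Ad (g '' X) o) (ho' : F.Ad (g '' X) o') :
    F.dl X (fun x => o (g x)) (fun x => o' (g x)) = F.dl (g '' X) o o' := by
  obtain ⟨L₁, hL₁, h₁⟩ := (hX.image hg).per
  obtain ⟨L₂, hL₂, h₂⟩ := ho.per
  obtain ⟨L₃, hL₃, h₃⟩ := ho'.per
  have hL : L₁ ⊓ L₂ ⊓ L₃ ∈ F.S := F.inf _ (F.inf _ hL₁ _ hL₂) _ hL₃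
  have p₁ : PerS (g '' X) (L₁ ⊓ L₂ ⊓ L₃) := fun x hx y hy => h₁ x hx y hy.1.1
  have p₂ : PerF (g '' X) (L₁ ⊓ L₂ ⊓ L₃) o := fun x hx y hy => h₂ x hx y hy.1.2
  have p₃ : PerF (g '' X) (L₁ ⊓ L₂ ⊓ L₃) o' := fun x hx y hy => h₃ x hx y hy.2
  generalize L₁ ⊓ L₂ ⊓ L₃ = L at hL p₁ p₂ p₃
  have key : ∀ {o : V → Z6}, PerF (g '' X) L o → ∀ x ∈ X, o (g x) = o (L.mkQ (g x)).out := by
    intro o ho x hx
    have h1 : (L.mkQ (g x)).out - g x ∈ L :=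
      (Submodule.Quotient.eq L).1 (Quotient.out_eq (L.mkQ (g x)))
    rw [← ho _ ⟨x, hx, rfl⟩ _ h1, add_sub_cancel]
  rw [dl_eq_dL (hX.image hg).bd hL p₁ p₂ p₃, dL, Set.image_image]
  refine dl_eq_dfs hX.bd (hg L hL).2 ?_ (fun x => L.mkQ (g x)) ?_ (key p₂) (key p₃)
  · rintro x hx _ ⟨y, hy, rfl⟩
    obtain ⟨x', hx', e⟩ := p₁ _ ⟨x, hx, rfl⟩ y hy
    have : x + (g.symm : V →ₗ[O] V) y = x' := g.injective (by
      rw [e, map_add, LinearEquiv.coe_coe, LinearEquiv.apply_symm_apply])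
    rwa [this]
  · intro x _ x' _
    rw [Submodule.mkQ_apply, Submodule.mkQ_apply, Submodule.Quotient.eq, ← map_sub]
    constructor
    · intro h
      exact ⟨_, h, g.symm_apply_apply _⟩
    · rintro ⟨y, hy, e⟩
      rw [← e, LinearEquiv.coe_coe, LinearEquiv.apply_symm_apply]
      exact hy

/-- the global orientation: for `x ∉ C k`, `k` minimal (`Nat.find`), put `o x = ori (V ⧸ C k) (mkQ x)`; if `C b ≤ L`
then `o` is `C b`-periodic off `L` -/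
theorem exists_glob (F : Fam V) : ∃ o : V → Z6, ∀ L ∈ F.S, F.Ad (L : Set V)ᶜ o := by
  obtain ⟨o₂, ho₂⟩ : ∃ o₂ : ℕ → V → Z6, ∀ k x, o₂ k x = ori (V ⧸ F.C k) ((F.C k).mkQ x) :=
    ⟨_, fun _ _ => rfl⟩
  refine ⟨fun x => o₂ (sInf {k | x ∉ F.C k}) x, fun L hL => ?_⟩
  obtain ⟨b, hb⟩ := F.C_cof L hL
  refine ⟨fun x hx => ?_, _, F.C_mem b, fun x hx y hy => ?_⟩
  · have e : {k | zt • x ∉ F.C k} = {k | x ∉ F.C k} := by
      ext k
      refine not_congr ⟨fun h => ?_, fun h => (F.C k).smul_mem _ h⟩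
      have := (F.C k).smul_mem (zt ^ 5) h
      rwa [smul_smul, ← pow_succ, zt_pow_six, one_smul] at this
    have hk : x ∉ F.C (sInf {k | x ∉ F.C k}) :=
      Nat.sInf_mem (s := {k | x ∉ F.C k}) ⟨b, fun h => hx (hb h)⟩
    simp only [e]
    generalize sInf {k | x ∉ F.C k} = k at hk
    rw [ho₂, ho₂, map_smul]
    refine ori_spec (fr_quot (F.C_mem k)) _ fun h => hk ?_
    exact (Submodule.Quotient.mk_eq_zero _).1 h
  · have hxb : x ∉ F.C b := fun h => hx (hb h)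
    have hiff : ∀ k ≤ b, (x + y ∈ F.C k ↔ x ∈ F.C k) := fun k hk =>
      (F.C k).add_mem_iff_left (F.C_anti hk hy)
    have hxyb : x + y ∉ F.C b := fun h => hxb ((hiff b le_rfl).1 h)
    have h1 : sInf {k | x ∉ F.C k} ≤ b := Nat.sInf_le hxb
    have h2 : sInf {k | x + y ∉ F.C k} ≤ b := Nat.sInf_le hxyb
    have h3 : x ∉ F.C (sInf {k | x ∉ F.C k}) := Nat.sInf_mem (s := {k | x ∉ F.C k}) ⟨b, hxb⟩
    have h4 : x + y ∉ F.C (sInf {k | x + y ∉ F.C k}) :=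
      Nat.sInf_mem (s := {k | x + y ∉ F.C k}) ⟨b, hxyb⟩
    have e : sInf {k | x + y ∉ F.C k} = sInf {k | x ∉ F.C k} :=
      le_antisymm (Nat.sInf_le fun h => h3 ((hiff _ h1).1 h))
        (Nat.sInf_le fun h => h4 ((hiff _ h2).2 h))
    simp only [e]
    generalize sInf {k | x ∉ F.C k} = k at h1
    rw [ho₂, ho₂]
    congr 1
    rw [map_add, Submodule.mkQ_apply _ y, (Submodule.Quotient.mk_eq_zero _).2 (F.C_anti h1 hy),
      add_zero]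

end Fam

end Crest.Agent.R27.Rec
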