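import Mathlib

/-!
Row 27, block REC: a central extension of exponent six of `GL ι K` splits over a congruence subgroup.
`s N` is the canonical lift of `1 + N` (`N² = 0`), `X i j t` the lift of a transvection, `d i a` coherent lifts of the
diagonal matrices `dg i a`.  Prefix for helper lemmas: `gra_` … `grf_`.
Matrix identities: `Matrix.single_mul_single_same`, `Matrix.single_mul_single_of_ne`, `mul_add`, `add_mul`, or
`ext p q; simp [Matrix.mul_apply, Matrix.single_apply, …]`.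
-/

set_option autoImplicit false

namespace Crest.Agent.R27.Rec

open Matrix
open scoped Classical

/-- a central extension of exponent six -/
structure CE (ι K E : Type*) [Fintype ι] [DecidableEq ι] [Field K] [Group E] where
  π : E →* GL ι K
  surj : Function.Surjective π
  cen : ∀ z, π z = 1 → ∀ x, Commute z x
  exp : ∀ z, π z = 1 → z ^ 6 = 1

variable {ι K E : Type*} [Fintype ι] [DecidableEq ι] [Field K] [Group E]

/-- the diagonal matrix with `a` in the slot `i` -/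
def dg (i : ι) (a : K) : Matrix ι ι K := diagonal (Pi.mulSingle i a)

/-- `1 + 𝔞` is a group -/
def Qi (𝔞 : NonUnitalSubring K) : Prop := ∀ a : K, a - 1 ∈ 𝔞 → a ≠ 0 ∧ a⁻¹ - 1 ∈ 𝔞

/-- entries in `𝔞`, supported on `J₁ × J₂` -/
def Sup (𝔞 : NonUnitalSubring K) (J₁ J₂ : Finset ι) (N : Matrix ι ι K) : Prop :=
  ∀ p q, N p q ∈ 𝔞 ∧ (N p q ≠ 0 → p ∈ J₁ ∧ q ∈ J₂)

namespace CE

variable (C : CE ι K E)

/-- the matrix of an element -/
def m (x : E) : Matrix ι ι K := (C.π x : Matrix ι ι K)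

/-- some lift -/
noncomputable def lift (M : Matrix ι ι K) : E := if h : ∃ y, C.m y = M then h.choose else 1

/-- the canonical lift of `1 + N` for `N * N = 0` -/
noncomputable def s (N : Matrix ι ι K) : E := C.lift (1 + (6 : K)⁻¹ • N) ^ 6

/-- the lift of a transvection -/
noncomputable def X (i j : ι) (t : K) : E := C.s (single i j t)

/-- the Weyl element -/
noncomputable def W (i j : ι) (u : K) : E := C.X i j u * C.X j i (-u⁻¹) * C.X i j u

/-- coherent lifts of `dg i a` -/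
noncomputable def d (i₀ i : ι) (a : K) : E :=
  if i = i₀ then C.lift (dg i₀ a) else C.W i₀ i 1 * C.lift (dg i₀ a) * (C.W i₀ i 1)⁻¹

/-- the lift of `dg i a * dg j a⁻¹` -/
noncomputable def η (i₀ i j : ι) (a : K) : E := C.d i₀ i a * (C.d i₀ j a)⁻¹

/-- the arithmetic input -/
def C1 (𝔞 : NonUnitalSubring K) : Prop :=
  ∀ (i j : ι) (u a : K) (x y : E), u ≠ 0 → a - 1 ∈ 𝔞 → C.m x = dg i u → C.m y = dg j a → Commute x y

/-- the split subgroup -/
def Sig (𝔞 : NonUnitalSubring K) (i₀ : ι) (J : Finset ι) : Subgroup E :=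
  Subgroup.closure ({x | ∃ i ∈ J, ∃ j ∈ J, ∃ t ∈ 𝔞, i ≠ j ∧ x = C.X i j t} ∪
    {x | ∃ i ∈ J, ∃ j ∈ J, ∃ a, a - 1 ∈ 𝔞 ∧ x = C.η i₀ i j a})

/-- the normal form -/
def NF (𝔞 : NonUnitalSubring K) (i₀ : ι) (J : Finset ι) (k : ι) (y : E) : Prop :=
  ∃ (N : Matrix ι ι K) (a : K) (σ : E) (N' : Matrix ι ι K), Sup 𝔞 {k} J N ∧ a - 1 ∈ 𝔞 ∧ σ ∈ C.Sig 𝔞 i₀ J ∧
    Sup 𝔞 J {k} N' ∧ y = C.s N * C.η i₀ i₀ k a * σ * C.s N'

@[simp] theorem m_one : C.m 1 = 1 := by simp [m]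

@[simp] theorem m_mul (x y : E) : C.m (x * y) = C.m x * C.m y := by simp [m]

theorem m_pow (x : E) (n : ℕ) : C.m (x ^ n) = C.m x ^ n := by simp [m]

theorem m_mul_inv (x : E) : C.m x * C.m x⁻¹ = 1 := by rw [← m_mul, mul_inv_cancel, m_one]

theorem m_inv_mul (x : E) : C.m x⁻¹ * C.m x = 1 := by rw [← m_mul, inv_mul_cancel, m_one]

variable {C}

theorem cen' {z : E} (hz : C.m z = 1) (x : E) : Commute z x := C.cen z (Units.ext hz) x

theorem exp' {z : E} (hz : C.m z = 1) : z ^ 6 = 1 := C.exp z (Units.ext hz)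

/-! ### Part a: canonical lifts -/

theorem gra_lift {M : Matrix ι ι K} (h : ∃ y, C.m y = M) : C.m (C.lift M) = M := by
  rw [lift, dif_pos h]; exact h.choose_spec

theorem gra_pow {A : Matrix ι ι K} (h : A * A = 0) (n : ℕ) : (1 + A) ^ n = 1 + n • A := by
  induction n with
  | zero => simp
  | succ n ih => rw [pow_succ, ih]; simp [mul_add, add_mul, mul_assoc, h, add_smul, add_assoc, add_comm]

theorem m_lift {M M' : Matrix ι ι K} (h : M * M' = 1) : C.m (C.lift M) = M := by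
  obtain ⟨y, hy⟩ := C.surj ⟨M, M', h, mul_eq_one_comm.1 h⟩
  exact gra_lift ⟨y, by rw [m, hy]⟩

theorem gra_m6 {N : Matrix ι ι K} (hN : N * N = 0) : C.m (C.lift (1 + (6 : K)⁻¹ • N)) = 1 + (6 : K)⁻¹ • N :=
  m_lift (M' := 1 - (6 : K)⁻¹ • N) (by simp [mul_sub, add_mul, hN])

theorem exists_cen {x y : E} (h : C.m x = C.m y) : ∃ z, C.m z = 1 ∧ x = z * y := by
  exact ⟨x * y⁻¹, by rw [m_mul, h, m_mul_inv], by simp⟩

theorem pow_six_eq {x y : E} (h : C.m x = C.m y) : x ^ 6 = y ^ 6 := by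
  obtain ⟨z, hz, rfl⟩ := exists_cen h
  rw [(cen' hz y).mul_pow, exp' hz, one_mul]

/-- `z = x y x⁻¹ y⁻¹` is central, `x ^ n y = z ^ n y x ^ n` -/
theorem comm_pow_six {x y : E} (h : Commute (C.m x) (C.m y)) : Commute (x ^ 6) y := by
  obtain ⟨z, hz, e⟩ := exists_cen (C := C) (x := x * y) (y := y * x) (by rw [m_mul, m_mul, h.eq])
  have H : ∀ n : ℕ, x ^ n * y = z ^ n * y * x ^ n := fun n => by
    induction n with
    | zero => simp
    | succ n ih =>
      calc x ^ (n + 1) * y = x ^ n * (z * (y * x)) := by rw [pow_succ, mul_assoc, e]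
        _ = z * (x ^ n * y) * x := by rw [← mul_assoc, ← (cen' hz _).eq]; simp only [mul_assoc]
        _ = _ := by rw [ih, pow_succ', pow_succ]; simp only [mul_assoc]
  have := H 6
  rwa [exp' hz, one_mul] at this

/-- commutation only depends on the matrices -/
theorem comm_congr {x x' y y' : E} (hx : C.m x = C.m x') (hy : C.m y = C.m y') (h : Commute x y) :
    Commute x' y' := by
  obtain ⟨z, hz, rfl⟩ := exists_cen hx.symm
  obtain ⟨w, hw, rfl⟩ := exists_cen hy.symm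
  exact (cen' hz _).mul_left ((cen' hw x).symm.mul_right h)

variable [CharZero K]

theorem s_eq {N : Matrix ι ι K} {y : E} (hy : C.m y = 1 + (6 : K)⁻¹ • N) : C.s N = y ^ 6 := by
  exact pow_six_eq ((gra_lift ⟨y, hy⟩).trans hy.symm)

theorem m_s {N : Matrix ι ι K} (hN : N * N = 0) : C.m (C.s N) = 1 + N := by
  rw [s, m_pow, gra_m6 hN, gra_pow (by rw [smul_mul_smul_comm, hN, smul_zero]), ← Nat.cast_smul_eq_nsmul K, smul_smul]
  norm_num

@[simp] theorem s_zero : C.s 0 = 1 := by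
  rw [s_eq (y := 1) (by simp), one_pow]

/-- the lifts `y₁`, `y₂` of `1 + Nᵢ/6` commute (`y₁` has the same matrix as the sixth power of a lift of `1 + N₁/36`) -/
theorem s_add {N₁ N₂ : Matrix ι ι K} (h11 : N₁ * N₁ = 0) (h12 : N₁ * N₂ = 0) (h21 : N₂ * N₁ = 0)
    (h22 : N₂ * N₂ = 0) : C.s (N₁ + N₂) = C.s N₁ * C.s N₂ := by
  have e1 := m_s (C := C) (N := (6 : K)⁻¹ • N₁) (by rw [smul_mul_smul_comm, h11, smul_zero])
  have e2 := m_s (C := C) (N := (6 : K)⁻¹ • N₂) (by rw [smul_mul_smul_comm, h22, smul_zero])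
  have hc : Commute (C.s ((6 : K)⁻¹ • N₁)) (C.s ((6 : K)⁻¹ • N₂)) := by
    refine comm_pow_six (C := C) ?_
    rw [e2, gra_m6 (by rw [smul_mul_smul_comm, h11, smul_zero])]
    simp [Commute, SemiconjBy, mul_add, add_mul, h12, h21, add_right_comm]
  rw [s_eq e1, s_eq e2, ← hc.mul_pow]
  refine s_eq ?_
  rw [m_mul, e1, e2]
  simp [mul_add, add_mul, h12, add_assoc]

theorem s_neg {N : Matrix ι ι K} (hN : N * N = 0) : C.s (-N) = (C.s N)⁻¹ := by
  refine eq_inv_of_mul_eq_one_right ?_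
  rw [← s_add hN (by simp [hN]) (by simp [hN]) (by simp [hN]), add_neg_cancel, s_zero]

/-- equivariance (`conj_pow`) -/
theorem s_conj {N N' : Matrix ι ι K} (hN : N * N = 0) {y : E} (h : C.m y * N = N' * C.m y) :
    y * C.s N = C.s N' * y := by
  rw [s_eq (N := N') (y := y * C.lift (1 + (6 : K)⁻¹ • N) * y⁻¹) ?_, conj_pow, inv_mul_cancel_right, s]
  rw [m_mul, m_mul, gra_m6 hN, mul_add, mul_one, mul_smul_comm, h, add_mul, smul_mul_assoc, mul_assoc, m_mul_inv,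
    mul_one]

theorem m_X {i j : ι} (h : i ≠ j) (t : K) : C.m (C.X i j t) = 1 + single i j t := by
  exact m_s (single_mul_single_of_ne _ _ _ _ h.symm _)

theorem X_add {i j : ι} (h : i ≠ j) (t r : K) : C.X i j (t + r) = C.X i j t * C.X i j r := by
  have e : ∀ a b : K, single i j a * single i j b = 0 := fun a b => single_mul_single_of_ne _ _ _ _ h.symm _
  rw [X, single_add, s_add (e _ _) (e _ _) (e _ _) (e _ _), X, X]

theorem X_neg {i j : ι} (h : i ≠ j) (t : K) : C.X i j (-t) = (C.X i j t)⁻¹ := by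
  rw [X, ← single_neg, s_neg (single_mul_single_of_ne _ _ _ _ h.symm _), X]

@[simp] theorem X_zero (i j : ι) : C.X i j 0 = 1 := by
  rw [X, single_zero, s_zero]

/-- conjugation by a diagonal matrix -/
theorem diag_X {x : E} {v : ι → K} (hx : C.m x = diagonal v) (hv : ∀ i, v i ≠ 0) {i j : ι} (h : i ≠ j) (t : K) :
    x * C.X i j t = C.X i j (v i * t / v j) * x := by
  refine s_conj (single_mul_single_of_ne _ _ _ _ h.symm _) ?_
  rw [hx]
  ext p q
  rw [diagonal_mul, mul_diagonal, single_apply, single_apply]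
  split_ifs with e
  · obtain ⟨rfl, rfl⟩ := e
    rw [div_mul_cancel₀ _ (hv _)]
  · simp

/-! ### Part b: Weyl elements -/

theorem m_W {i j : ι} (h : i ≠ j) {u : K} (hu : u ≠ 0) :
    C.m (C.W i j u) = 1 - single i i 1 - single j j 1 + single i j u - single j i u⁻¹ := by
  rw [W, m_mul, m_mul, m_X h, m_X h.symm]
  simp only [mul_add, add_mul, one_mul, mul_one, single_mul_single_same, single_mul_single_of_ne _ _ _ _ h,
    single_mul_single_of_ne _ _ _ _ h.symm, mul_neg, neg_mul, mul_inv_cancel₀ hu, inv_mul_cancel₀ hu,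
    ← single_neg]
  abel

theorem W_neg {i j : ι} (h : i ≠ j) (u : K) : C.W i j (-u) = (C.W i j u)⁻¹ := by
  rw [W, W, X_neg h, inv_neg, X_neg h.symm (-u⁻¹)]
  group

theorem W_X {i j : ι} (h : i ≠ j) {u : K} (hu : u ≠ 0) (t : K) :
    C.W i j u * C.X i j t = C.X j i (-(t / u ^ 2)) * C.W i j u := by
  refine s_conj (single_mul_single_of_ne _ _ _ _ h.symm _) ?_
  rw [m_W h hu]
  have e : -(t / u ^ 2) * u = -(u⁻¹ * t) := by field_simp
  simp only [mul_add, add_mul, mul_sub, sub_mul, one_mul, mul_one, single_mul_single_same,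
    single_mul_single_of_ne _ _ _ _ h, single_mul_single_of_ne _ _ _ _ h.symm, e]
  simp only [← single_neg]
  abel

theorem W_X' {i j : ι} (h : i ≠ j) {u : K} (hu : u ≠ 0) (t : K) :
    C.W i j u * C.X j i t = C.X i j (-(u ^ 2 * t)) * C.W i j u := by
  refine s_conj (single_mul_single_of_ne _ _ _ _ h _) ?_
  rw [m_W h hu]
  have e : -(u ^ 2 * t) * u⁻¹ = -(u * t) := by field_simp
  simp only [mul_add, add_mul, mul_sub, sub_mul, one_mul, mul_one, single_mul_single_same,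
    single_mul_single_of_ne _ _ _ _ h, single_mul_single_of_ne _ _ _ _ h.symm, e]
  simp only [← single_neg]
  abel

/-- conjugate `W` by itself (`W_X`, `W_X'`) -/
theorem W_alt {i j : ι} (h : i ≠ j) {u : K} (hu : u ≠ 0) :
    C.W i j u = C.X j i (-u⁻¹) * C.X i j u * C.X j i (-u⁻¹) := by
  have e1 : -(u / u ^ 2) = -u⁻¹ := by field_simp
  have e2 : -(u ^ 2 * -u⁻¹) = u := by field_simp
  have h1 := W_X (C := C) h hu u
  have h2 := W_X' (C := C) h hu (-u⁻¹)
  rw [e1] at h1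
  rw [e2] at h2
  have h3 : C.W i j u * (C.X i j u * C.X j i (-u⁻¹) * C.X i j u) =
      C.X j i (-u⁻¹) * C.X i j u * C.X j i (-u⁻¹) * C.W i j u := by
    rw [← mul_assoc, ← mul_assoc, h1, mul_assoc _ (C.W i j u), h2, mul_assoc, mul_assoc, h1]
    simp only [mul_assoc]
  exact mul_right_cancel h3

/-- `diag_X` three times -/
theorem diag_W {x : E} {v : ι → K} (hx : C.m x = diagonal v) (hv : ∀ i, v i ≠ 0) {i j : ι} (h : i ≠ j) (u : K) :
    x * C.W i j u = C.W i j (v i * u / v j) * x := by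
  have e : -(v i * u / v j)⁻¹ = v j * -u⁻¹ / v i := by
    rw [inv_div, div_mul_eq_div_div_swap, mul_neg, neg_div, div_eq_mul_inv (v j) u]
  rw [W, W, e, ← mul_assoc, ← mul_assoc, diag_X hx hv h, mul_assoc _ x, diag_X hx hv h.symm, mul_assoc,
    mul_assoc, diag_X hx hv h]
  simp only [mul_assoc]

theorem grb_W_X_row {i j k : ι} (hij : i ≠ j) (hki : k ≠ i) (hkj : k ≠ j) (t : K) :
    C.W i j 1 * C.X k i t = C.X k j (-t) * C.W i j 1 := by
  refine s_conj (single_mul_single_of_ne _ _ _ _ hki.symm _) ?_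
  rw [m_W hij one_ne_zero]
  simp only [mul_add, add_mul, mul_sub, sub_mul, one_mul, mul_one, inv_one, single_mul_single_same,
    single_mul_single_of_ne _ _ _ _ hij.symm, single_mul_single_of_ne _ _ _ _ hki.symm,
    single_mul_single_of_ne _ _ _ _ hkj.symm]
  simp only [← single_neg]
  abel

theorem grb_W_X_col {i j k : ι} (hij : i ≠ j) (hki : k ≠ i) (hkj : k ≠ j) (t : K) :
    C.W i j 1 * C.X i k t = C.X j k (-t) * C.W i j 1 := by
  refine s_conj (single_mul_single_of_ne _ _ _ _ hki _) ?_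
  rw [m_W hij one_ne_zero]
  simp only [mul_add, add_mul, mul_sub, sub_mul, one_mul, mul_one, inv_one, single_mul_single_same,
    single_mul_single_of_ne _ _ _ _ hij.symm, single_mul_single_of_ne _ _ _ _ hki,
    single_mul_single_of_ne _ _ _ _ hkj]
  simp only [← single_neg]
  abel

/-- `s_conj`: `W i j 1` conjugates `X k i t` to `X k j (-t)` and `X i k t` to `X j k (-t)` -/
theorem W_W {i j k : ι} (hij : i ≠ j) (hki : k ≠ i) (hkj : k ≠ j) :
    C.W i j 1 * C.W k i 1 = C.W k j (-1) * C.W i j 1 := by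
  have e : C.W k j (-1) = C.X k j (-1) * C.X j k (-(-1⁻¹)) * C.X k j (-1) := by rw [W, inv_neg]
  rw [e, W.eq_1 C k i, ← mul_assoc, ← mul_assoc, grb_W_X_row hij hki hkj, mul_assoc _ (C.W i j 1),
    grb_W_X_col hij hki hkj, mul_assoc, mul_assoc, grb_W_X_row hij hki hkj]
  simp only [mul_assoc]

omit [CharZero K] in
theorem grb2_dg (i : ι) (a : K) : dg i a = 1 - single i i 1 + single i i a := by
  ext p q
  by_cases hpq : p = q
  · subst hpq
    by_cases hi : p = i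
    · subst hi; simp [dg]
    · simp [dg, hi, Ne.symm hi]
  · have h1 : ¬(i = p ∧ i = q) := fun hk => hpq (hk.1.symm.trans hk.2)
    simp [dg, hpq, h1]

omit [CharZero K] in
theorem grb2_dg_mul (i : ι) (a b : K) : dg i a * dg i b = dg i (a * b) := by
  rw [dg, dg, dg, diagonal_mul_diagonal, Pi.mulSingle_mul]
  rfl

omit [CharZero K] in
theorem grb2_dg_one (i : ι) : dg i (1 : K) = 1 := by
  rw [dg, Pi.mulSingle_one]
  exact diagonal_one

omit [CharZero K] in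
theorem grb2_m_lift (i : ι) {a : K} (ha : a ≠ 0) : C.m (C.lift (dg i a)) = dg i a :=
  m_lift (M' := dg i a⁻¹) (by rw [grb2_dg_mul, mul_inv_cancel₀ ha, grb2_dg_one])

theorem m_W_mul {i j : ι} (h : i ≠ j) {u u' : K} (hu : u ≠ 0) (hu' : u' ≠ 0) :
    C.m (C.W i j u * C.W i j u') =
      diagonal fun p => if p = i then -(u / u') else if p = j then -(u' / u) else 1 := by
  have e : (diagonal fun p => if p = i then -(u / u') else if p = j then -(u' / u) else 1) =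
      1 - single i i 1 - single j j 1 - single i i (u * u'⁻¹) - single j j (u⁻¹ * u') := by
    ext p q
    have h' := h.symm
    by_cases hpq : p = q
    · subst hpq
      by_cases hi : p = i
      · subst hi; simp [h', div_eq_mul_inv]
      · by_cases hj : p = j
        · subst hj; simp [h, h', div_eq_mul_inv, mul_comm]
        · simp [hi, hj, Ne.symm hi, Ne.symm hj]
    · have h1 : ∀ k : ι, ¬(k = p ∧ k = q) := fun k hk => hpq (hk.1.symm.trans hk.2)
      simp [hpq, h1]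
  rw [m_mul, m_W h hu, m_W h hu', e]
  simp only [mul_add, add_mul, mul_sub, sub_mul, mul_one, one_mul, single_mul_single_same,
    single_mul_single_of_ne _ _ _ _ h, single_mul_single_of_ne _ _ _ _ h.symm]
  abel

theorem m_W_mul' {i j : ι} (h : i ≠ j) : C.m (C.W i j 1 * C.W j i 1) = 1 := by
  rw [m_mul, m_W h one_ne_zero, m_W h.symm one_ne_zero]
  simp only [mul_add, add_mul, mul_sub, sub_mul, mul_one, one_mul, inv_one, single_mul_single_same,
    single_mul_single_of_ne _ _ _ _ h, single_mul_single_of_ne _ _ _ _ h.symm]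
  abel

theorem m_W_dg {i j : ι} (h : i ≠ j) {u : K} (hu : u ≠ 0) (a : K) :
    C.m (C.W i j u) * dg i a = dg j a * C.m (C.W i j u) := by
  rw [m_W h hu, grb2_dg, grb2_dg]
  simp only [mul_add, add_mul, mul_sub, sub_mul, mul_one, one_mul, single_mul_single_same,
    single_mul_single_of_ne _ _ _ _ h, single_mul_single_of_ne _ _ _ _ h.symm, mul_comm a]
  abel

theorem m_d (i₀ i : ι) {a : K} (ha : a ≠ 0) : C.m (C.d i₀ i a) = dg i a := by
  unfold d
  split_ifs with h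
  · rw [h, grb2_m_lift i₀ ha]
  · rw [m_mul, m_mul, grb2_m_lift i₀ ha, m_W_dg (Ne.symm h) one_ne_zero, mul_assoc, m_mul_inv, mul_one]

theorem m_η (i₀ i j : ι) {a : K} (ha : a ≠ 0) :
    C.m (C.η i₀ i j a) = diagonal (Pi.mulSingle i a * Pi.mulSingle j a⁻¹) := by
  have e : C.m (C.d i₀ j a)⁻¹ = dg j a⁻¹ := by
    have h := C.m_inv_mul (C.d i₀ j a)
    rw [m_d i₀ j ha] at h
    rw [← mul_one (C.m (C.d i₀ j a)⁻¹), ← grb2_dg_one j, ← mul_inv_cancel₀ ha, ← grb2_dg_mul,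
      ← mul_assoc, h, one_mul]
  rw [η, m_mul, m_d i₀ i ha, e, dg, dg, diagonal_mul_diagonal]
  rfl

/-! ### Part c: the torus and the `SL₂` identity -/

variable {𝔞 : NonUnitalSubring K} {i₀ : ι}

/-- induction on the set of slots where `v ≠ 1` (lift each `dg i (v i)`; `comm_congr`, `cen'`) -/
theorem comm_diag (h1 : C.C1 𝔞) {x y : E} {v : ι → K} (hx : C.m x = diagonal v) (hv : ∀ i, v i ≠ 0)
    {j : ι} {a : K} (ha : a - 1 ∈ 𝔞) (hy : C.m y = dg j a) : Commute x y := by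
  suffices H : ∀ (S : Finset ι) (v : ι → K) (x : E), (∀ i, i ∉ S → v i = 1) → C.m x = diagonal v →
      (∀ i, v i ≠ 0) → Commute x y from H Finset.univ v x (fun i hi => absurd (Finset.mem_univ i) hi) hx hv
  intro S
  induction S using Finset.induction_on with
  | empty =>
    intro v x h0 hx _
    refine cen' (C := C) ?_ y
    rw [hx, show v = fun _ => 1 from funext fun i => h0 i (Finset.notMem_empty i)]
    exact diagonal_one
  | insert k S hk ih =>
    intro v x h0 hx hv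
    have hv' : ∀ i, Function.update v k 1 i ≠ 0 := fun i => by
      by_cases hi : i = k
      · subst hi; simp
      · simpa [hi] using hv i
    have e2 : C.m (C.lift (diagonal (Function.update v k 1))) = diagonal (Function.update v k 1) :=
      m_lift (M' := diagonal fun i => (Function.update v k 1 i)⁻¹) (by
        rw [diagonal_mul_diagonal, ← diagonal_one]
        exact congrArg diagonal (funext fun i => mul_inv_cancel₀ (hv' i)))
    have c2 := ih _ _ (fun i hi => by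
      by_cases hik : i = k
      · subst hik; simp
      · simpa [hik] using h0 i (by simp [hi, hik])) e2 hv'
    have c1 := h1 k j (v k) a _ y (hv k) ha (grb2_m_lift k (hv k)) hy
    refine comm_congr (C := C) ?_ rfl (c1.mul_left c2)
    rw [m_mul, grb2_m_lift k (hv k), e2, hx, dg, diagonal_mul_diagonal]
    refine congrArg diagonal (funext fun i => ?_)
    by_cases hi : i = k
    · subst hi; simp
    · simp [hi]

omit [Fintype ι] [CharZero K] in
theorem grc_ne {a : K} (ha : a ≠ 0) (i p : ι) : (Pi.mulSingle i a : ι → K) p ≠ 0 := by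
  rw [Pi.mulSingle_apply]
  split_ifs
  · exact ha
  · exact one_ne_zero

/-- Cases `i = i₀` (definition), `j = i₀` (`m_W_mul'`, `cen'`), otherwise `W_W`, `diag_W` (`W i j 1` commutes with the
lift of `dg i₀ a`), `W_neg`, and `W i₀ j 1 ^ 2` is diagonal (`m_W_mul`, `comm_diag`). -/
theorem W_d (hQ : Qi 𝔞) (h1 : C.C1 𝔞) {i j : ι} (h : i ≠ j) {a : K} (ha : a - 1 ∈ 𝔞) :
    C.W i j 1 * C.d i₀ i a = C.d i₀ j a * C.W i j 1 := by
  have ha0 := (hQ a ha).1
  have hL : C.m (C.lift (dg i₀ a)) = dg i₀ a := by simpa [d] using m_d (C := C) i₀ i₀ ha0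
  by_cases hi : i = i₀
  · subst hi
    simp [d, h.symm]
  by_cases hj : j = i₀
  · subst hj
    have hz := (cen' (m_W_mul' (C := C) h) (C.lift (dg j a))).eq
    simp only [d, if_neg hi, if_true]
    rw [← mul_assoc, ← mul_assoc, hz, mul_assoc, mul_inv_cancel_right]
  have e1 := W_W (C := C) h (Ne.symm hi) (Ne.symm hj)
  have e2 := diag_W hL (grc_ne ha0 i₀) h 1
  have e3 := (comm_diag h1 (m_W_mul (C := C) (Ne.symm hj) one_ne_zero one_ne_zero)
    (fun p => by split_ifs <;> simp) ha hL).eq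
  rw [W_neg (Ne.symm hj)] at e1
  simp only [Pi.mulSingle_eq_of_ne hi, Pi.mulSingle_eq_of_ne hj, mul_one, div_one] at e2
  simp only [d, if_neg hi, if_neg hj]
  generalize C.lift (dg i₀ a) = L at *
  generalize C.W i j 1 = A at *
  generalize C.W i₀ i 1 = B at *
  generalize C.W i₀ j 1 = D at *
  have e4 : B = A⁻¹ * D⁻¹ * A := by rw [mul_assoc, ← e1, inv_mul_cancel_left]
  have e5 : D⁻¹ * L * D = D * L * D⁻¹ := by
    calc D⁻¹ * L * D = D⁻¹ * (L * (D * D)) * D⁻¹ := by group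
      _ = D * L * D⁻¹ := by rw [← e3]; group
  calc A * (B * L * B⁻¹) = D⁻¹ * (A * L) * A⁻¹ * D * A := by rw [e4]; group
    _ = D⁻¹ * L * D * A := by rw [← e2]; group
    _ = _ := by rw [e5]

/-- `W i j u = e * W i j 1 * e⁻¹`, `e` a lift of `dg i u` (`diag_W`), `C1` -/
theorem W_d' (hQ : Qi 𝔞) (h1 : C.C1 𝔞) {i j : ι} (h : i ≠ j) {u : K} (hu : u ≠ 0) {a : K} (ha : a - 1 ∈ 𝔞) :
    C.W i j u * C.d i₀ i a = C.d i₀ j a * C.W i j u := by
  have ha0 := (hQ a ha).1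
  have he := m_d (C := C) i₀ i hu
  have e1 := diag_W he (grc_ne hu i) h 1
  simp only [Pi.mulSingle_eq_same, Pi.mulSingle_eq_of_ne h.symm, mul_one, div_one] at e1
  have e2 := (h1 i i u a _ _ hu ha he (m_d i₀ i ha0)).inv_left.eq
  have e3 := (h1 i j u a _ _ hu ha he (m_d i₀ j ha0)).eq
  have e4 := W_d (i₀ := i₀) hQ h1 h ha
  rw [← mul_inv_eq_iff_eq_mul] at e1
  rw [← e1, mul_assoc, e2, ← mul_assoc, mul_assoc _ (C.W i j 1), e4, ← mul_assoc, e3]
  simp only [mul_assoc]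

theorem d_mul (i₀ : ι) {a b : K} (ha : a ≠ 0) (hb : b ≠ 0) :
    ∃ z, C.m z = 1 ∧ ∀ i, C.d i₀ i a * C.d i₀ i b = z * C.d i₀ i (a * b) := by
  obtain ⟨z, hz, e⟩ := exists_cen (C := C) (x := C.lift (dg i₀ a) * C.lift (dg i₀ b))
    (y := C.lift (dg i₀ (a * b)))
    (by rw [m_mul, grb2_m_lift i₀ ha, grb2_m_lift i₀ hb, grb2_m_lift i₀ (mul_ne_zero ha hb), grb2_dg_mul])
  refine ⟨z, hz, fun i => ?_⟩
  unfold d
  split_ifs with h
  · exact e
  · calc _ = C.W i₀ i 1 * (C.lift (dg i₀ a) * C.lift (dg i₀ b)) * (C.W i₀ i 1)⁻¹ := by group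
      _ = _ := by rw [e, ← mul_assoc, ← (cen' hz _).eq]; simp only [mul_assoc]

omit [CharZero K] in
theorem η_trans (i j k : ι) (a : K) : C.η i₀ i j a * C.η i₀ j k a = C.η i₀ i k a := by
  simp [η, mul_assoc]

omit [CharZero K] in
theorem η_self (i : ι) (a : K) : C.η i₀ i i a = 1 := by simp [η]

theorem η_one (i j : ι) : C.η i₀ i j 1 = 1 := by
  have hz : C.m (C.lift (dg i₀ (1 : K))) = 1 := (grb2_m_lift i₀ one_ne_zero).trans (grb2_dg_one i₀)
  have e : ∀ k, C.d i₀ k 1 = C.lift (dg i₀ (1 : K)) := fun k => by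
    unfold d
    split_ifs with h
    · rfl
    · rw [← (cen' hz _).eq, mul_inv_cancel_right]
  rw [η, e, e, mul_inv_cancel]

theorem η_mul (hQ : Qi 𝔞) (h1 : C.C1 𝔞) (i j : ι) {a b : K} (ha : a - 1 ∈ 𝔞) (hb : b - 1 ∈ 𝔞) :
    C.η i₀ i j a * C.η i₀ i j b = C.η i₀ i j (a * b) := by
  have ha0 := (hQ a ha).1
  have hb0 := (hQ b hb).1
  obtain ⟨z, hz, e⟩ := d_mul (C := C) i₀ ha0 hb0
  have c : ∀ k, Commute (C.d i₀ j a) (C.d i₀ k b) := fun k =>
    h1 j k a b _ _ ha0 hb (m_d i₀ j ha0) (m_d i₀ k hb0)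
  calc _ = C.d i₀ i a * ((C.d i₀ j a)⁻¹ * C.d i₀ i b) * (C.d i₀ j b)⁻¹ := by simp only [η, mul_assoc]
    _ = C.d i₀ i a * C.d i₀ i b * (C.d i₀ j b * C.d i₀ j a)⁻¹ := by
      rw [(c i).inv_left.eq]; group
    _ = z * C.η i₀ i j (a * b) * z⁻¹ := by rw [← (c j).eq, e, e, η]; group
    _ = _ := by rw [(cen' hz _).eq, mul_inv_cancel_right]

theorem η_inv (hQ : Qi 𝔞) (h1 : C.C1 𝔞) (i j : ι) {a : K} (ha : a - 1 ∈ 𝔞) :
    (C.η i₀ i j a)⁻¹ = C.η i₀ i j a⁻¹ := by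
  exact inv_eq_of_mul_eq_one_right
    (by rw [η_mul hQ h1 i j ha (hQ a ha).2, mul_inv_cancel₀ (hQ a ha).1, η_one])

/-- The `SL₂` identity, `a = 1 + t r`.  For `t ≠ 0` write `X = X i j`, `Y = X j i`: by `W_alt`,
`X t = Y (1/t) W t Y (1/t)` and `Y (a/t) X (-t/a) = W (-t/a) Y (-a/t)`; `W t W (-t/a)` is diagonal (`m_W_mul`, `diag_X`),
so `Y (-r/a) X t Y r X (-t/a) = W t (W (t/a))⁻¹`; `W t = d i a * W (t/a) * (d i a)⁻¹` (`diag_W`), `W_d'`. -/
theorem key (hQ : Qi 𝔞) (h1 : C.C1 𝔞) {i j : ι} (h : i ≠ j) {t r : K} (htr : t * r ∈ 𝔞) :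
    C.X i j t * C.X j i r =
      C.X j i (r / (1 + t * r)) * C.η i₀ i j (1 + t * r) * C.X i j (t / (1 + t * r)) := by
  have ha : 1 + t * r - 1 ∈ 𝔞 := by rwa [add_sub_cancel_left]
  have ha0 := (hQ _ ha).1
  by_cases ht : t = 0
  · subst ht
    simp [η_one]
  have hr : r = (1 + t * r) / t - t⁻¹ := by field_simp; ring
  generalize 1 + t * r = a at *
  have hu : t / a ≠ 0 := div_ne_zero ht ha0
  have e1 := W_alt (C := C) h ht
  have e2 := W_alt (C := C) h (neg_ne_zero.2 hu)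
  have e3 := diag_X (m_W_mul (C := C) h ht (neg_ne_zero.2 hu))
    (fun p => by split_ifs <;> simp [ht, ha0]) h.symm (-(a / t))
  have e4 := diag_W (m_d (C := C) i₀ i ha0) (grc_ne ha0 i) h (t / a)
  have e5 := W_d' (i₀ := i₀) hQ h1 h hu ha
  have e6 : C.X j i r = C.X j i (a / t) * (C.X j i t⁻¹)⁻¹ := by
    rw [← X_neg h.symm, ← X_add h.symm, ← sub_eq_add_neg, ← hr]
  have e7 : C.X j i (r / a) = (C.X j i (t * a)⁻¹)⁻¹ * C.X j i t⁻¹ := by
    rw [← X_neg h.symm, ← X_add h.symm]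
    congr 1
    rw [hr]
    field_simp
    ring
  have e8 := (show C.X j i (a / t) * (C.X j i t⁻¹)⁻¹ = (C.X j i t⁻¹)⁻¹ * C.X j i (a / t) by
    rw [← X_neg h.symm, ← X_add h.symm, ← X_add h.symm, add_comm])
  have e9 := (show (C.X j i (t * a)⁻¹)⁻¹ * C.X j i t⁻¹ = C.X j i t⁻¹ * (C.X j i (t * a)⁻¹)⁻¹ by
    rw [← X_neg h.symm, ← X_add h.symm, ← X_add h.symm, add_comm])
  simp only [if_neg h.symm, if_true] at e3
  rw [show -(-(t / a) / t) * -(a / t) / -(t / -(t / a)) = -(t * a)⁻¹ by field_simp,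
    X_neg h.symm, X_neg h.symm, W_neg h] at e3
  rw [show -(-(t / a))⁻¹ = a / t by field_simp, W_neg h, X_neg h] at e2
  rw [X_neg h.symm] at e1
  simp only [Pi.mulSingle_eq_same, Pi.mulSingle_eq_of_ne h.symm, div_one] at e4
  rw [mul_div_cancel₀ t ha0] at e4
  rw [e6, e7, e8, e9, η]
  generalize C.X j i t⁻¹ = Y₁ at *
  generalize C.X j i (a / t) = Y₂ at *
  generalize C.X j i (t * a)⁻¹ = Y₃ at *
  generalize C.X i j t = X₁ at *
  generalize C.X i j (t / a) = X₂ at *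
  generalize C.W i j t = W₁ at *
  generalize C.W i j (t / a) = W₂ at *
  generalize C.d i₀ i a = d₁ at *
  generalize C.d i₀ j a = d₂ at *
  have f1 : X₁ = Y₁ * W₁ * Y₁ := by rw [e1]; group
  have f2 : d₂ = W₂ * d₁ * W₂⁻¹ := by rw [e5]; group
  have f3 : d₁ * d₂⁻¹ = W₁ * W₂⁻¹ := by
    calc d₁ * d₂⁻¹ = d₁ * W₂ * d₁⁻¹ * W₂⁻¹ := by rw [f2]; group
      _ = _ := by rw [e4]; group
  have f4 : X₂ = Y₂ * W₂ * Y₂ := by
    calc X₂ = Y₂ * (Y₂ * X₂⁻¹ * Y₂)⁻¹ * Y₂ := by group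
      _ = _ := by rw [← e2, inv_inv]
  calc X₁ * (Y₁⁻¹ * Y₂) = Y₁ * (W₁ * W₂⁻¹ * Y₂⁻¹) * (Y₂ * W₂ * Y₂) := by rw [f1]; group
    _ = _ := by rw [e3, f3, f4]; group

/-! ### Part d: the subgroup `Sig` -/

variable {J : Finset ι}

omit [CharZero K] in
theorem X_mem {i j : ι} (hi : i ∈ J) (hj : j ∈ J) (h : i ≠ j) {t : K} (ht : t ∈ 𝔞) : C.X i j t ∈ C.Sig 𝔞 i₀ J :=
  Subgroup.subset_closure (Or.inl ⟨i, hi, j, hj, t, ht, h, rfl⟩)

omit [CharZero K] in
theorem η_mem {i j : ι} (hi : i ∈ J) (hj : j ∈ J) {a : K} (ha : a - 1 ∈ 𝔞) : C.η i₀ i j a ∈ C.Sig 𝔞 i₀ J :=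
  Subgroup.subset_closure (Or.inr ⟨i, hi, j, hj, a, ha, rfl⟩)

omit [CharZero K] in
theorem _root_.Crest.Agent.R27.Rec.Sup.mul_eq_zero {J₁ J₂ J₃ J₄ : Finset ι} {N N' : Matrix ι ι K}
    (h : Sup 𝔞 J₁ J₂ N) (h' : Sup 𝔞 J₃ J₄ N') (hd : Disjoint J₂ J₃) : N * N' = 0 := by
  ext p q
  rw [Matrix.mul_apply, Matrix.zero_apply]
  refine Finset.sum_eq_zero fun k _ => ?_
  by_contra h0
  exact Finset.disjoint_left.1 hd ((h p k).2 (left_ne_zero_of_mul h0)).2
    ((h' k q).2 (right_ne_zero_of_mul h0)).1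

omit [CharZero K] in
theorem _root_.Crest.Agent.R27.Rec.Sup.mul {J₁ J₂ J₃ J₄ : Finset ι} {N N' : Matrix ι ι K}
    (h : Sup 𝔞 J₁ J₂ N) (h' : Sup 𝔞 J₃ J₄ N') : Sup 𝔞 J₁ J₄ (N * N') := by
  intro p q
  rw [Matrix.mul_apply]
  refine ⟨sum_mem fun k _ => mul_mem (h p k).1 (h' k q).1, fun h0 => ?_⟩
  obtain ⟨k, -, hk⟩ := Finset.exists_ne_zero_of_sum_ne_zero h0
  exact ⟨((h p k).2 (left_ne_zero_of_mul hk)).1, ((h' k q).2 (right_ne_zero_of_mul hk)).2⟩

omit [CharZero K] in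
theorem _root_.Crest.Agent.R27.Rec.Sup.add {J₁ J₂ : Finset ι} {N N' : Matrix ι ι K}
    (h : Sup 𝔞 J₁ J₂ N) (h' : Sup 𝔞 J₁ J₂ N') : Sup 𝔞 J₁ J₂ (N + N') := by
  intro p q
  rw [Matrix.add_apply]
  refine ⟨add_mem (h p q).1 (h' p q).1, fun h0 => ?_⟩
  by_cases h1 : N p q = 0
  · exact (h' p q).2 fun h2 => h0 (by rw [h1, h2, add_zero])
  · exact (h p q).2 h1

omit [Fintype ι] [CharZero K] in
theorem grd1_sup_single {J₁ J₂ : Finset ι} {i j : ι} (hi : i ∈ J₁) (hj : j ∈ J₂) {t : K} (ht : t ∈ 𝔞) :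
    Sup 𝔞 J₁ J₂ (single i j t) := by
  intro p q
  rw [Matrix.single_apply]
  split_ifs with h
  · exact ⟨ht, fun _ => ⟨h.1 ▸ hi, h.2 ▸ hj⟩⟩
  · exact ⟨zero_mem _, fun h0 => absurd rfl h0⟩

omit [CharZero K] in
theorem grd1_η_inv (i j : ι) (a : K) : (C.η i₀ i j a)⁻¹ = C.η i₀ j i a := by
  simp [η]

theorem grd1_sup_η (hQ : Qi 𝔞) {i j : ι} (hi : i ∈ J) (hj : j ∈ J) {a : K} (ha : a - 1 ∈ 𝔞) :
    Sup 𝔞 J J (C.m (C.η i₀ i j a) - 1) := by
  have h1 : ∀ (k p : ι) (b : K), b - 1 ∈ 𝔞 → (Pi.mulSingle k b : ι → K) p - 1 ∈ 𝔞 := fun k p b hb => by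
    rw [Pi.mulSingle_apply]
    split_ifs
    · exact hb
    · rw [sub_self]
      exact zero_mem _
  intro p q
  rw [m_η i₀ i j (hQ a ha).1, Matrix.sub_apply]
  by_cases hpq : p = q
  · subst hpq
    rw [diagonal_apply_eq, one_apply_eq, Pi.mul_apply]
    constructor
    · have h2 := h1 i p a ha
      have h3 := h1 j p a⁻¹ (hQ a ha).2
      have h4 := add_mem (add_mem (mul_mem h2 h3) h2) h3
      convert h4 using 1
      ring
    · intro h0
      rw [and_self]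
      by_contra hp
      have hpi : p ≠ i := fun h => hp (h ▸ hi)
      have hpj : p ≠ j := fun h => hp (h ▸ hj)
      exact h0 (by rw [Pi.mulSingle_eq_of_ne hpi, Pi.mulSingle_eq_of_ne hpj, mul_one, sub_self])
  · rw [diagonal_apply_ne _ hpq, one_apply_ne hpq, sub_self]
    exact ⟨zero_mem _, fun h0 => absurd rfl h0⟩

/-- closure induction for the pair `y`, `y⁻¹`; `g g' - 1 = (g-1)(g'-1) + (g-1) + (g'-1)` -/
theorem sup_Sig (hQ : Qi 𝔞) {y : E} (hy : y ∈ C.Sig 𝔞 i₀ J) : Sup 𝔞 J J (C.m y - 1) := by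
  induction hy using Subgroup.closure_induction'' with
  | mem x hx =>
    rcases hx with ⟨i, hi, j, hj, t, ht, hij, rfl⟩ | ⟨i, hi, j, hj, a, ha, rfl⟩
    · rw [m_X hij, add_sub_cancel_left]
      exact grd1_sup_single hi hj ht
    · exact grd1_sup_η hQ hi hj ha
  | inv_mem x hx =>
    rcases hx with ⟨i, hi, j, hj, t, ht, hij, rfl⟩ | ⟨i, hi, j, hj, a, ha, rfl⟩
    · rw [← X_neg hij, m_X hij, add_sub_cancel_left]
      exact grd1_sup_single hi hj (neg_mem ht)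
    · rw [grd1_η_inv]
      exact grd1_sup_η hQ hj hi ha
  | one =>
    rw [m_one, sub_self]
    exact fun p q => ⟨zero_mem _, fun h0 => absurd rfl h0⟩
  | mul x y _ _ hx hy =>
    have h : C.m (x * y) - 1 = (C.m x - 1) * (C.m y - 1) + (C.m x - 1) + (C.m y - 1) := by
      rw [m_mul]
      noncomm_ring
    rw [h]
    exact ((hx.mul hy).add hx).add hy

theorem det_Sig (hQ : Qi 𝔞) {y : E} (hy : y ∈ C.Sig 𝔞 i₀ J) : (C.m y).det = 1 := by
  induction hy using Subgroup.closure_induction with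
  | mem x hx =>
    rcases hx with ⟨i, hi, j, hj, t, ht, hij, rfl⟩ | ⟨i, hi, j, hj, a, ha, rfl⟩
    · rw [m_X hij]
      exact det_transvection_of_ne i j hij t
    · rw [m_η i₀ i j (hQ a ha).1, det_diagonal]
      simp only [Pi.mul_apply, Finset.prod_mul_distrib, Finset.prod_pi_mulSingle', Finset.mem_univ, if_true]
      exact mul_inv_cancel₀ (hQ a ha).1
  | one => rw [m_one, det_one]
  | mul x y _ _ hx hy => rw [m_mul, det_mul, hx, hy, mul_one]
  | inv x _ hx =>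
    have h := congrArg det (C.m_mul_inv x)
    rwa [det_mul, hx, one_mul, det_one] at h

/-- induction over the partial sums `∑ (p, q) ∈ T, single p q (N p q)` (`Matrix.matrix_eq_sum_single`, `s_add`) -/
theorem s_mem {J₁ J₂ : Finset ι} (hd : Disjoint J₁ J₂) (h₁ : J₁ ⊆ J) (h₂ : J₂ ⊆ J) {N : Matrix ι ι K}
    (hN : Sup 𝔞 J₁ J₂ N) : C.s N ∈ C.Sig 𝔞 i₀ J := by
  have hs : ∀ T : Finset (ι × ι),
      Sup 𝔞 J₁ J₂ (Matrix.of fun p q => if (p, q) ∈ T then N p q else 0) := fun T p q => by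
    rw [Matrix.of_apply]
    split_ifs
    · exact hN p q
    · exact ⟨zero_mem _, fun h0 => absurd rfl h0⟩
  have key : ∀ T : Finset (ι × ι),
      C.s (Matrix.of fun p q => if (p, q) ∈ T then N p q else 0) ∈ C.Sig 𝔞 i₀ J := fun T => by
    induction T using Finset.induction_on with
    | empty =>
      have : (Matrix.of fun p q => if (p, q) ∈ (∅ : Finset (ι × ι)) then N p q else 0) = 0 := by
        ext p q
        simp
      rw [this, s_zero]
      exact one_mem _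
    | insert a T ha ih =>
      obtain ⟨i, j⟩ := a
      have h1 : (Matrix.of fun p q => if (p, q) ∈ insert (i, j) T then N p q else 0) =
          single i j (N i j) + Matrix.of fun p q => if (p, q) ∈ T then N p q else 0 := by
        ext p q
        rw [Matrix.add_apply, Matrix.of_apply, Matrix.of_apply, Matrix.single_apply]
        by_cases h : i = p ∧ j = q
        · obtain ⟨rfl, rfl⟩ := h
          simp [ha]
        · have h' : (p, q) ≠ (i, j) := fun e => h ⟨(Prod.mk.inj e).1.symm, (Prod.mk.inj e).2.symm⟩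
          simp [h, h']
      rw [h1]
      by_cases h0 : N i j = 0
      · rw [h0, single_zero, zero_add]
        exact ih
      · obtain ⟨hi, hj⟩ := (hN i j).2 h0
        have h2 : Sup 𝔞 J₁ J₂ (single i j (N i j)) := grd1_sup_single hi hj (hN i j).1
        rw [s_add (h2.mul_eq_zero h2 hd.symm) (h2.mul_eq_zero (hs T) hd.symm)
          ((hs T).mul_eq_zero h2 hd.symm) ((hs T).mul_eq_zero (hs T) hd.symm)]
        refine mul_mem (X_mem (h₁ hi) (h₂ hj) (fun e => ?_) (hN i j).1) ih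
        exact Finset.disjoint_left.1 hd hi (e ▸ hj)
  have h := key Finset.univ
  simp only [Finset.mem_univ, if_true] at h
  exact h

omit [CharZero K] in
theorem grd2_mul_mem {a t : K} (ha : a - 1 ∈ 𝔞) (ht : t ∈ 𝔞) : a * t ∈ 𝔞 := by
  have e : a * t = (a - 1) * t + t := by ring
  rw [e]
  exact add_mem (mul_mem ha ht) ht

omit [CharZero K] in
theorem grd2_mul_one {a b : K} (ha : a - 1 ∈ 𝔞) (hb : b - 1 ∈ 𝔞) : a * b - 1 ∈ 𝔞 := by
  have e : a * b - 1 = (a - 1) * (b - 1) + (a - 1) + (b - 1) := by ring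
  rw [e]
  exact add_mem (add_mem (mul_mem ha hb) ha) hb

omit [CharZero K] in
theorem grd2_conj_mem (hQ : Qi 𝔞) {a b t : K} (ha : a - 1 ∈ 𝔞) (hb : b - 1 ∈ 𝔞) (ht : t ∈ 𝔞) :
    a * t / b ∈ 𝔞 := by
  have e : a * t / b = b⁻¹ * (a * t) := by rw [div_eq_mul_inv, mul_comm]
  rw [e]
  exact grd2_mul_mem (hQ b hb).2 (grd2_mul_mem ha ht)

omit [CharZero K] in
theorem grd2_single {a : K} (ha : a - 1 ∈ 𝔞) (i p : ι) : (Pi.mulSingle i a : ι → K) p - 1 ∈ 𝔞 := by
  by_cases h : p = i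
  · subst h
    rwa [Pi.mulSingle_eq_same]
  · rw [Pi.mulSingle_eq_of_ne h, sub_self]
    exact zero_mem _

omit [CharZero K] in
theorem grd2_eta (hQ : Qi 𝔞) {a : K} (ha : a - 1 ∈ 𝔞) (i j p : ι) :
    (Pi.mulSingle i a * Pi.mulSingle j a⁻¹ : ι → K) p - 1 ∈ 𝔞 :=
  grd2_mul_one (grd2_single ha i p) (grd2_single (hQ a ha).2 j p)

/-- `diag_X`, `comm_diag` -/
theorem diag_conj_mem (hQ : Qi 𝔞) (h1 : C.C1 𝔞) {x : E} {v : ι → K} (hx : C.m x = diagonal v)
    (hv : ∀ i, v i - 1 ∈ 𝔞) {y : E} (hy : y ∈ C.Sig 𝔞 i₀ J) : x * y * x⁻¹ ∈ C.Sig 𝔞 i₀ J := by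
  have hv0 : ∀ i, v i ≠ 0 := fun i => (hQ _ (hv i)).1
  induction hy using Subgroup.closure_induction with
  | mem y hy =>
    rcases hy with ⟨i, hi, j, hj, t, ht, hij, rfl⟩ | ⟨i, hi, j, hj, a, ha, rfl⟩
    · rw [diag_X hx hv0 hij, mul_inv_cancel_right]
      exact X_mem hi hj hij (grd2_conj_mem hQ (hv i) (hv j) ht)
    · have c1 : Commute x (C.d i₀ i a) := comm_diag h1 hx hv0 ha (m_d i₀ i (hQ a ha).1)
      have c2 : Commute x (C.d i₀ j a) := comm_diag h1 hx hv0 ha (m_d i₀ j (hQ a ha).1)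
      have c3 : Commute x (C.η i₀ i j a) := c1.mul_right c2.inv_right
      rw [c3.eq, mul_inv_cancel_right]
      exact η_mem hi hj ha
  | one =>
    rw [mul_one, mul_inv_cancel]
    exact one_mem _
  | mul y z _ _ hy hz =>
    have e : x * (y * z) * x⁻¹ = (x * y * x⁻¹) * (x * z * x⁻¹) := by group
    rw [e]
    exact mul_mem hy hz
  | inv y _ hy =>
    have e : x * y⁻¹ * x⁻¹ = (x * y * x⁻¹)⁻¹ := by group
    rw [e]
    exact inv_mem hy

/-- `N' = N * m y⁻¹`, and `m y * N = N` -/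
theorem Sig_row (hQ : Qi 𝔞) {k : ι} (hk : k ∉ J) {y : E} (hy : y ∈ C.Sig 𝔞 i₀ J) {N : Matrix ι ι K}
    (hN : Sup 𝔞 {k} J N) : ∃ N', Sup 𝔞 {k} J N' ∧ y * C.s N = C.s N' * y := by
  have hd : Disjoint J {k} := Finset.disjoint_singleton_right.2 hk
  refine ⟨N * C.m y⁻¹, ?_, s_conj (hN.mul_eq_zero hN hd) ?_⟩
  · have e : N * C.m y⁻¹ = N * (C.m y⁻¹ - 1) + N := by rw [mul_sub, mul_one, sub_add_cancel]
    rw [e]
    exact (hN.mul (sup_Sig hQ (inv_mem hy))).add hN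
  · have e : C.m y * N = (C.m y - 1) * N + N := by rw [sub_mul, one_mul, sub_add_cancel]
    rw [e, (sup_Sig hQ hy).mul_eq_zero hN hd, zero_add, mul_assoc, m_inv_mul, mul_one]

theorem Sig_col (hQ : Qi 𝔞) {k : ι} (hk : k ∉ J) {y : E} (hy : y ∈ C.Sig 𝔞 i₀ J) {N : Matrix ι ι K}
    (hN : Sup 𝔞 J {k} N) : ∃ N', Sup 𝔞 J {k} N' ∧ y * C.s N = C.s N' * y := by
  have hd : Disjoint {k} J := Finset.disjoint_singleton_left.2 hk
  have hs : Sup 𝔞 J {k} (C.m y * N) := by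
    have e : C.m y * N = (C.m y - 1) * N + N := by rw [sub_mul, one_mul, sub_add_cancel]
    rw [e]
    exact ((sup_Sig hQ hy).mul hN).add hN
  refine ⟨C.m y * N, hs, s_conj (hN.mul_eq_zero hN hd) ?_⟩
  have e : C.m y * N * C.m y = C.m y * N * (C.m y - 1) + C.m y * N := by
    rw [mul_sub, mul_one, sub_add_cancel]
  rw [e, hs.mul_eq_zero (sup_Sig hQ hy) hd, zero_add]

/-- `N' p q = v p * N p q / v q` -/
theorem diag_s (hQ : Qi 𝔞) {x : E} {v : ι → K} (hx : C.m x = diagonal v) (hv : ∀ i, v i - 1 ∈ 𝔞)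
    {J₁ J₂ : Finset ι} (hd : Disjoint J₁ J₂) {N : Matrix ι ι K} (hN : Sup 𝔞 J₁ J₂ N) :
    ∃ N', Sup 𝔞 J₁ J₂ N' ∧ x * C.s N = C.s N' * x := by
  refine ⟨Matrix.of fun p q => v p * N p q / v q, fun p q => ⟨?_, fun h => ?_⟩,
    s_conj (hN.mul_eq_zero hN hd.symm) ?_⟩
  · exact grd2_conj_mem hQ (hv p) (hv q) (hN p q).1
  · refine (hN p q).2 fun h0 => h ?_
    simp [h0]
  · rw [hx]
    ext p q
    rw [Matrix.diagonal_mul, Matrix.mul_diagonal, Matrix.of_apply, div_mul_cancel₀ _ (hQ _ (hv q)).1]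

/-! ### Part e: the normal form -/

theorem NF.row {k : ι} (hk : k ∉ J) {y : E} (hy : C.NF 𝔞 i₀ J k y) {N : Matrix ι ι K} (hN : Sup 𝔞 {k} J N) :
    C.NF 𝔞 i₀ J k (C.s N * y) := by
  obtain ⟨N₀, a, σ, N', h₀, ha, hσ, h', rfl⟩ := hy
  have hd : Disjoint J {k} := Finset.disjoint_singleton_right.2 hk
  refine ⟨N + N₀, a, σ, N', hN.add h₀, ha, hσ, h', ?_⟩
  rw [s_add (hN.mul_eq_zero hN hd) (hN.mul_eq_zero h₀ hd) (h₀.mul_eq_zero hN hd) (h₀.mul_eq_zero h₀ hd)]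
  simp only [mul_assoc]

/-- `Sig_row`, `diag_conj_mem` for `(η i₀ k a)⁻¹ = η i₀ k a⁻¹` -/
theorem NF.sig (hQ : Qi 𝔞) (h1 : C.C1 𝔞) {k : ι} (hk : k ∉ J) {y : E} (hy : C.NF 𝔞 i₀ J k y) {σ : E}
    (hσ : σ ∈ C.Sig 𝔞 i₀ J) : C.NF 𝔞 i₀ J k (σ * y) := by
  obtain ⟨N₀, a, σ₀, N', h₀, ha, hσ₀, h', rfl⟩ := hy
  obtain ⟨N₁, hN₁, e₁⟩ := Sig_row hQ hk hσ h₀
  have hai := (hQ a ha).2
  have hc := diag_conj_mem hQ h1 (m_η i₀ i₀ k (hQ _ hai).1) (grd2_eta hQ hai i₀ k) hσ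
  rw [← η_inv hQ h1 i₀ k ha, inv_inv] at hc
  refine ⟨N₁, a, (C.η i₀ i₀ k a)⁻¹ * σ * C.η i₀ i₀ k a * σ₀, N', hN₁, ha, mul_mem hc hσ₀, h', ?_⟩
  calc σ * (C.s N₀ * C.η i₀ i₀ k a * σ₀ * C.s N') = σ * C.s N₀ * (C.η i₀ i₀ k a * σ₀ * C.s N') := by
        simp only [mul_assoc]
    _ = _ := by
        rw [e₁]
        group

/-- `η i k b = η i i₀ b * η i₀ k b`, `diag_s`, `η_mul`, `NF.sig` -/
theorem NF.eta (hQ : Qi 𝔞) (h1 : C.C1 𝔞) (h0 : i₀ ∈ J) {k : ι} (hk : k ∉ J) {y : E} (hy : C.NF 𝔞 i₀ J k y)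
    {i : ι} (hi : i ∈ J) {b : K} (hb : b - 1 ∈ 𝔞) : C.NF 𝔞 i₀ J k (C.η i₀ i k b * y) := by
  obtain ⟨N₀, a, σ₀, N', h₀, ha, hσ₀, h', rfl⟩ := hy
  have hd : Disjoint {k} J := Finset.disjoint_singleton_left.2 hk
  obtain ⟨N₁, hN₁, e₁⟩ := diag_s hQ (m_η (C := C) i₀ i₀ k (hQ b hb).1) (grd2_eta hQ hb i₀ k) hd h₀
  rw [← η_trans i i₀ k b, mul_assoc]
  refine NF.sig hQ h1 hk ⟨N₁, b * a, σ₀, N', hN₁, grd2_mul_one hb ha, hσ₀, h', ?_⟩ (η_mem hi h0 hb)
  rw [← η_mul hQ h1 i₀ k hb ha]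
  calc C.η i₀ i₀ k b * (C.s N₀ * C.η i₀ i₀ k a * σ₀ * C.s N')
      = C.η i₀ i₀ k b * C.s N₀ * (C.η i₀ i₀ k a * σ₀ * C.s N') := by simp only [mul_assoc]
    _ = _ := by
        rw [e₁]
        simp only [mul_assoc]

omit [Fintype ι] [CharZero K] in
theorem gre2_single {J₁ J₂ : Finset ι} {i j : ι} (hi : i ∈ J₁) (hj : j ∈ J₂) {t : K} (ht : t ∈ 𝔞) :
    Sup 𝔞 J₁ J₂ (single i j t) := fun p q => by
  rw [single_apply]
  split_ifs with h
  · exact ⟨ht, fun _ => ⟨h.1 ▸ hi, h.2 ▸ hj⟩⟩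
  · exact ⟨zero_mem _, fun h => absurd rfl h⟩

omit [Fintype ι] [DecidableEq ι] [CharZero K] in
theorem gre2_zero (J₁ J₂ : Finset ι) : Sup 𝔞 J₁ J₂ (0 : Matrix ι ι K) := fun _ _ =>
  ⟨zero_mem _, fun h => absurd rfl h⟩

omit [Fintype ι] [CharZero K] in
theorem gre2_v (hQ : Qi 𝔞) (i j : ι) {b : K} (hb : b - 1 ∈ 𝔞) (p : ι) :
    (Pi.mulSingle i b * Pi.mulSingle j b⁻¹ : ι → K) p - 1 ∈ 𝔞 := by
  rw [Pi.mul_apply, Pi.mulSingle_apply, Pi.mulSingle_apply]
  split_ifs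
  · rw [mul_inv_cancel₀ (hQ b hb).1, sub_self]; exact zero_mem _
  · rwa [mul_one]
  · rw [one_mul]; exact (hQ b hb).2
  · rw [mul_one, sub_self]; exact zero_mem _

omit [CharZero K] in
theorem gre2_div (hQ : Qi 𝔞) {b t : K} (hb : b - 1 ∈ 𝔞) (ht : t ∈ 𝔞) : t / b ∈ 𝔞 := by
  have := add_mem (mul_mem ht (hQ b hb).2) ht
  rwa [mul_sub, mul_one, sub_add_cancel, ← div_eq_mul_inv] at this

/-- `N = single k i r + N''` with `r = N k i`; `key`; `X i k t' * s N'' = s N'' * s P * X i k t'` with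
`P = single i k t' * N''` (`s_conj`, `s_add`; `s P ∈ Sig` by `s_mem` with `{i}`, `J.erase i`); move `X i k t'` past
`η * σ` (`diag_s`, `Sig_col` for the inverses); then `NF.sig`, `NF.row`, `NF.eta`, `NF.row`. -/
theorem NF.col (hQ : Qi 𝔞) (h1 : C.C1 𝔞) (h0 : i₀ ∈ J) {k : ι} (hk : k ∉ J) {y : E} (hy : C.NF 𝔞 i₀ J k y)
    {i : ι} (hi : i ∈ J) {t : K} (ht : t ∈ 𝔞) : C.NF 𝔞 i₀ J k (C.X i k t * y) := by
  obtain ⟨N, a, σ, N', hN, ha, hσ, hN', rfl⟩ := hy
  have hik : i ≠ k := fun h => hk (h ▸ hi)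
  have hr : N k i ∈ 𝔞 := (hN k i).1
  have dk : Disjoint J {k} := Finset.disjoint_singleton_right.2 hk
  have dk' : Disjoint (J.erase i) {k} := dk.mono_left (Finset.erase_subset _ _)
  have di : Disjoint (J.erase i) {i} := Finset.disjoint_singleton_right.2 (Finset.notMem_erase _ _)
  have hM : Sup 𝔞 {k} (J.erase i) (N - single k i (N k i)) := fun p q => by
    rw [Matrix.sub_apply, single_apply]
    split_ifs with h
    · rw [h.1, h.2, sub_self]
      exact ⟨zero_mem _, fun h => absurd rfl h⟩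
    · rw [sub_zero]
      refine ⟨(hN p q).1, fun h' => ⟨((hN p q).2 h').1, Finset.mem_erase.2 ⟨fun e => h ⟨?_, e.symm⟩,
        ((hN p q).2 h').2⟩⟩⟩
      exact (Finset.mem_singleton.1 ((hN p q).2 h').1).symm
  generalize hMe : N - single k i (N k i) = M at hM
  have hM' : Sup 𝔞 {k} J M := fun p q =>
    ⟨(hM p q).1, fun h => ⟨((hM p q).2 h).1, Finset.mem_of_mem_erase ((hM p q).2 h).2⟩⟩
  generalize N k i = r at hr hMe
  have hR : Sup 𝔞 {k} J (single k i r) := gre2_single (Finset.mem_singleton_self k) hi hr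
  have e1 : C.s N = C.X k i r * C.s M := by
    rw [X, ← s_add (hR.mul_eq_zero hR dk) (hR.mul_eq_zero hM' dk) (hM'.mul_eq_zero hR dk)
      (hM'.mul_eq_zero hM' dk), ← hMe, add_sub_cancel]
  have hb : 1 + t * r - 1 ∈ 𝔞 := by rw [add_sub_cancel_left]; exact mul_mem ht hr
  have e2 := key (i₀ := i₀) hQ h1 hik (mul_mem ht hr)
  have ht' := gre2_div hQ hb ht
  have hr' := gre2_div hQ hb hr
  generalize t / (1 + t * r) = t' at e2 ht'
  generalize r / (1 + t * r) = r' at e2 hr'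
  generalize 1 + t * r = b at e2 hb
  have hE : Sup 𝔞 {i} {k} (single i k t') :=
    gre2_single (Finset.mem_singleton_self i) (Finset.mem_singleton_self k) ht'
  have hP := hE.mul hM
  have e3 : C.X i k t' * C.s M = C.s M * C.s (single i k t' * M) * C.X i k t' := by
    rw [← s_add (hM.mul_eq_zero hM dk') (hM.mul_eq_zero hP di) (hP.mul_eq_zero hM dk')
      (hP.mul_eq_zero hP di)]
    refine s_conj (hM.mul_eq_zero hM dk') ?_
    rw [m_X hik, add_mul, one_mul, mul_add, mul_one, add_mul, hM.mul_eq_zero hE di,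
      hP.mul_eq_zero hE di, add_zero, add_zero]
  have hPs : C.s (single i k t' * M) ∈ C.Sig 𝔞 i₀ J :=
    s_mem di.symm (Finset.singleton_subset_iff.2 hi) (Finset.erase_subset _ _) hP
  obtain ⟨E₁, hE₁, e4⟩ := diag_s (C := C) hQ (m_η i₀ i₀ k (inv_ne_zero (hQ a ha).1))
    (gre2_v hQ i₀ k (hQ a ha).2) dk
    (gre2_single hi (Finset.mem_singleton_self k) ht')
  rw [← η_inv hQ h1 i₀ k ha] at e4
  obtain ⟨E₂, hE₂, e5⟩ := Sig_col hQ hk (inv_mem hσ) hE₁
  have e6 : C.X i k t' * (C.η i₀ i₀ k a * σ * C.s N') = C.η i₀ i₀ k a * σ * C.s (E₂ + N') := by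
    rw [s_add (hE₂.mul_eq_zero hE₂ dk.symm) (hE₂.mul_eq_zero hN' dk.symm) (hN'.mul_eq_zero hE₂ dk.symm)
      (hN'.mul_eq_zero hN' dk.symm), eq_mul_inv_of_mul_eq e5.symm, eq_mul_inv_of_mul_eq e4.symm]
    simp only [X]
    group
  have e7 : C.X i k t * (C.s N * C.η i₀ i₀ k a * σ * C.s N') = C.s (single k i r') * (C.η i₀ i k b *
      (C.s M * (C.s (single i k t' * M) * (C.s 0 * C.η i₀ i₀ k a * σ * C.s (E₂ + N'))))) := by
    rw [s_zero, one_mul, ← e6, e1]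
    calc _ = (C.X i k t * C.X k i r) * C.s M * (C.η i₀ i₀ k a * σ * C.s N') := by
          simp only [mul_assoc]
      _ = C.X k i r' * C.η i₀ i k b * (C.X i k t' * C.s M) * (C.η i₀ i₀ k a * σ * C.s N') := by
          rw [e2]; simp only [mul_assoc]
      _ = _ := by rw [e3]; simp only [mul_assoc, X]
  rw [e7]
  exact NF.row hk (NF.eta hQ h1 h0 hk (NF.row hk (NF.sig hQ h1 hk
    ⟨0, a, σ, _, gre2_zero _ _, ha, hσ, hE₂.add hN', rfl⟩ hPs) hM') hi hb)
    (gre2_single (Finset.mem_singleton_self k) hi hr')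

/-- `Subgroup.closure_induction_left`; the generators are closed under inversion (`X_neg`, `η_inv`);
`η k i b = (η i k b)⁻¹ = η i k b⁻¹` -/
theorem nf_of_mem (hQ : Qi 𝔞) (h1 : C.C1 𝔞) (h0 : i₀ ∈ J) {k : ι} (hk : k ∉ J) {y : E}
    (hy : y ∈ C.Sig 𝔞 i₀ (insert k J)) : C.NF 𝔞 i₀ J k y := by
  have hX : ∀ i ∈ insert k J, ∀ j ∈ insert k J, ∀ t ∈ 𝔞, i ≠ j → ∀ y, C.NF 𝔞 i₀ J k y →
      C.NF 𝔞 i₀ J k (C.X i j t * y) := fun i hi j hj t ht hij y hy => by
    rcases Finset.mem_insert.1 hi with rfl | hi'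
    · exact hy.row hk (gre2_single (Finset.mem_singleton_self _)
        ((Finset.mem_insert.1 hj).resolve_left hij.symm) ht)
    · rcases Finset.mem_insert.1 hj with rfl | hj'
      · exact hy.col hQ h1 h0 hk hi' ht
      · exact hy.sig hQ h1 hk (X_mem hi' hj' hij ht)
  have hη : ∀ i ∈ insert k J, ∀ j ∈ insert k J, ∀ a, a - 1 ∈ 𝔞 → ∀ y, C.NF 𝔞 i₀ J k y →
      C.NF 𝔞 i₀ J k (C.η i₀ i j a * y) := fun i hi j hj a ha y hy => by
    rcases Finset.mem_insert.1 hi with rfl | hi' <;> rcases Finset.mem_insert.1 hj with rfl | hj'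
    · rwa [η_self, one_mul]
    · rw [← inv_eq_of_mul_eq_one_right ((η_trans (C := C) (i₀ := i₀) j i j a).trans (η_self j a)),
        η_inv hQ h1 j i ha]
      exact hy.eta hQ h1 h0 hk hj' (hQ a ha).2
    · exact hy.eta hQ h1 h0 hk hi' ha
    · exact hy.sig hQ h1 hk (η_mem hi' hj' ha)
  induction hy using Subgroup.closure_induction_left with
  | one =>
    exact ⟨0, 1, 1, 0, gre2_zero _ _, by rw [sub_self]; exact zero_mem _, one_mem _, gre2_zero _ _,
      by simp [η_one]⟩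
  | mul_left x hx y _ ih =>
    rcases hx with ⟨i, hi, j, hj, t, ht, hij, rfl⟩ | ⟨i, hi, j, hj, a, ha, rfl⟩
    · exact hX i hi j hj t ht hij y ih
    · exact hη i hi j hj a ha y ih
  | inv_mul_cancel x hx y _ ih =>
    rcases hx with ⟨i, hi, j, hj, t, ht, hij, rfl⟩ | ⟨i, hi, j, hj, a, ha, rfl⟩
    · rw [← X_neg hij]
      exact hX i hi j hj _ (neg_mem ht) hij y ih
    · rw [η_inv hQ h1 i j ha]
      exact hη i hi j hj _ (hQ a ha).2 y ih

/-- `D g = (1 - N) (1 - N')`; the entries `(k, q)`, `(p, k)` give `N = N' = 0`, the entry `(k, k)` gives `a = 1` -/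
theorem NF.uniq (hQ : Qi 𝔞) (h0 : i₀ ∈ J) {k : ι} (hk : k ∉ J) {y : E} (hy : C.NF 𝔞 i₀ J k y) (hm : C.m y = 1) :
    y ∈ C.Sig 𝔞 i₀ J := by
  obtain ⟨N, a, σ, N', hN, ha, hσ, hN', rfl⟩ := hy
  have hd : Disjoint J {k} := Finset.disjoint_singleton_right.2 hk
  have hNN : N * N = 0 := hN.mul_eq_zero hN hd
  have hNN' : N' * N' = 0 := hN'.mul_eq_zero hN' hd.symm
  have hk0 : k ≠ i₀ := fun e => hk (e ▸ h0)
  have ha0 : a ≠ 0 := (hQ a ha).1
  have hg := sup_Sig hQ hσ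
  rw [m_mul, m_mul, m_mul, m_s hNN, m_s hNN', m_η i₀ i₀ k ha0] at hm
  set D : Matrix ι ι K := diagonal (Pi.mulSingle i₀ a * Pi.mulSingle k a⁻¹) with hD
  have e1 : (1 - N) * (1 + N) = 1 := by
    rw [sub_mul, one_mul, mul_add, mul_one, hNN, add_zero, add_sub_cancel_right]
  have e2 : (1 + N') * (1 - N') = 1 := by
    rw [mul_sub, mul_one, add_mul, one_mul, hNN', add_zero, add_sub_cancel_right]
  have e : D * C.m σ = 1 - N - N' + N * N' := by
    calc D * C.m σ = (1 - N) * (1 + N) * (D * C.m σ) * ((1 + N') * (1 - N')) := by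
          rw [e1, e2, one_mul, mul_one]
      _ = (1 - N) * ((1 + N) * D * C.m σ * (1 + N')) * (1 - N') := by simp only [mul_assoc]
      _ = _ := by rw [hm, mul_one, mul_sub, mul_one, sub_mul, one_mul]; abel
  have hz : ∀ {J₁ J₂ : Finset ι} {P : Matrix ι ι K}, Sup 𝔞 J₁ J₂ P → ∀ p q, p ∉ J₁ ∨ q ∉ J₂ → P p q = 0 :=
    fun h p q hpq => by
      by_contra hne
      exact hpq.elim (fun h' => h' ((h p q).2 hne).1) fun h' => h' ((h p q).2 hne).2
  have hg' : ∀ p q, p = k ∨ q = k → C.m σ p q = (1 : Matrix ι ι K) p q := fun p q hpq =>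
    sub_eq_zero.1 (hz hg p q (hpq.imp (fun e : p = k => e ▸ hk) fun e : q = k => e ▸ hk))
  have hN0 : N = 0 := by
    ext p q
    by_contra hne
    obtain ⟨hp, hq⟩ := (hN p q).2 hne
    rw [Finset.mem_singleton] at hp
    subst hp
    have hqp : p ≠ q := fun e => hk (e ▸ hq)
    have := congrFun (congrFun e p) q
    rw [hD, diagonal_mul, hg' p q (Or.inl rfl), Matrix.add_apply, Matrix.sub_apply, Matrix.sub_apply,
      one_apply_ne hqp, hz hN' p q (Or.inl hk),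
      hz (hN.mul hN') p q (Or.inr (by rw [Finset.mem_singleton]; exact hqp.symm))] at this
    apply hne
    rw [Matrix.zero_apply]
    linear_combination this
  subst hN0
  rw [sub_zero, zero_mul, add_zero] at e
  have hN'0 : N' = 0 := by
    ext p q
    by_contra hne
    obtain ⟨hp, hq⟩ := (hN' p q).2 hne
    rw [Finset.mem_singleton] at hq
    subst hq
    have hqp : p ≠ q := fun e => hk (e ▸ hp)
    have := congrFun (congrFun e p) q
    rw [hD, diagonal_mul, hg' p q (Or.inr rfl), Matrix.sub_apply, one_apply_ne hqp] at this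
    apply hne
    rw [Matrix.zero_apply]
    linear_combination this
  subst hN'0
  have ha1 : a = 1 := by
    have := congrFun (congrFun e k) k
    rw [hD, diagonal_mul, hg' k k (Or.inr rfl), sub_zero, one_apply_eq, mul_one, Pi.mul_apply,
      Pi.mulSingle_eq_of_ne hk0, Pi.mulSingle_eq_same, one_mul] at this
    exact inv_eq_one.1 this
  rw [ha1, η_one, s_zero, one_mul, one_mul, mul_one]
  exact hσ

/-! ### Part f: conclusion -/

/-- induction on `J` for `insert i₀ J`; `Sig {i₀} = ⊥` -/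
theorem sig_ker (hQ : Qi 𝔞) (h1 : C.C1 𝔞) {y : E} (hy : y ∈ C.Sig 𝔞 i₀ Finset.univ) (hm : C.m y = 1) : y = 1 := by
  have H : ∀ (J : Finset ι) (y : E), y ∈ C.Sig 𝔞 i₀ (insert i₀ J) → C.m y = 1 → y = 1 := by
    intro J
    induction J using Finset.induction_on with
    | empty =>
      intro y hy _
      have : C.Sig 𝔞 i₀ (insert i₀ ∅) ≤ ⊥ := by
        refine (Subgroup.closure_le _).2 ?_
        rintro x (⟨i, hi, j, hj, t, -, hij, -⟩ | ⟨i, hi, j, hj, a, -, rfl⟩)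
        · simp only [Finset.mem_insert, Finset.notMem_empty, or_false] at hi hj
          exact absurd (hi.trans hj.symm) hij
        · simp only [Finset.mem_insert, Finset.notMem_empty, or_false] at hi hj
          rw [hi, hj, η_self]
          exact Subgroup.one_mem _
      exact Subgroup.mem_bot.1 (this hy)
    | insert k J _ ih =>
      intro y hy hm
      rw [Finset.insert_comm] at hy
      by_cases hk : k ∈ insert i₀ J
      · rw [Finset.insert_eq_of_mem hk] at hy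
        exact ih y hy hm
      · exact ih y ((nf_of_mem hQ h1 (Finset.mem_insert_self _ _) hk hy).uniq hQ
          (Finset.mem_insert_self _ _) hk hm) hm
  exact H Finset.univ y (by rwa [Finset.insert_eq_of_mem (Finset.mem_univ _)]) hm

theorem grf2_red (hQ : Qi 𝔞) {σ : E} (hσ : σ ∈ C.Sig 𝔞 i₀ Finset.univ) {g : Matrix ι ι K} (hd : g.det = 1)
    (hg : ∀ p q, (g - 1) p q ∈ 𝔞)
    (h : (C.m σ * g).det = 1 → (∀ p q, (C.m σ * g - 1) p q ∈ 𝔞) →
      ∃ y ∈ C.Sig 𝔞 i₀ Finset.univ, C.m y = C.m σ * g) : ∃ y ∈ C.Sig 𝔞 i₀ Finset.univ, C.m y = g := by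
  have h1 := sup_Sig hQ hσ
  have h2 : Sup 𝔞 Finset.univ Finset.univ (g - 1) := fun p q => ⟨hg p q, fun _ => by simp⟩
  have e : C.m σ * g - 1 = (C.m σ - 1) * (g - 1) + (C.m σ - 1) + (g - 1) := by noncomm_ring
  obtain ⟨y, hy, hm⟩ := h (by rw [det_mul, det_Sig hQ hσ, hd, one_mul])
    fun p q => e ▸ ((((h1.mul h2).add h1).add h2) p q).1
  exact ⟨σ⁻¹ * y, mul_mem (inv_mem hσ) hy, by rw [m_mul, hm, ← mul_assoc, m_inv_mul, one_mul]⟩

theorem grf2_clear (hQ : Qi 𝔞) (k : ι) {g : Matrix ι ι K} (hg : ∀ p q, (g - 1) p q ∈ 𝔞) :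
    ∃ σ ∈ C.Sig 𝔞 i₀ Finset.univ, (∀ p, (C.m σ * g) p k = if p = k then g k k else 0) ∧
      ∀ q, g k q = 0 → ∀ p, (C.m σ * g) p q = g p q := by
  obtain ⟨h0, hi⟩ := hQ (g k k) (by simpa using hg k k)
  set N : Matrix ι ι K := of fun p q => if q = k ∧ p ≠ k then -(g p k * (g k k)⁻¹) else 0 with hN
  have hS : Sup 𝔞 (Finset.univ.erase k) {k} N := fun p q => by
    rw [hN, of_apply]
    split_ifs with h
    · have h1 : g p k ∈ 𝔞 := by simpa [one_apply_ne h.2] using hg p k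
      have h2 := neg_mem (add_mem (mul_mem h1 hi) h1)
      rw [mul_sub, mul_one, sub_add_cancel] at h2
      exact ⟨h2, fun _ => by simp [h.1, h.2]⟩
    · exact ⟨zero_mem _, fun h => absurd rfl h⟩
  have hd : Disjoint (Finset.univ.erase k) {k} := by simp
  have e : ∀ p q, (C.m (C.s N) * g) p q = g p q + N p k * g k q := fun p q => by
    rw [m_s (hS.mul_eq_zero hS hd.symm), add_mul, one_mul, Matrix.add_apply, Matrix.mul_apply,
      Finset.sum_eq_single k]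
    · intro b _ hb
      simp [hN, hb]
    · simp
  refine ⟨C.s N, s_mem hd (Finset.subset_univ _) (Finset.subset_univ _) hS, fun p => ?_, fun q hq p => ?_⟩
  · rw [e, hN, of_apply]
    by_cases hp : p = k
    · simp [hp]
    · simp [hp, h0]
  · rw [e, hq, mul_zero, add_zero]

theorem grf2_ind (hQ : Qi 𝔞) (J : Finset ι) : ∀ g : Matrix ι ι K, g.det = 1 → (∀ p q, (g - 1) p q ∈ 𝔞) →
    (∀ q, q ≠ i₀ → q ∉ J → ∀ p, g p q = (1 : Matrix ι ι K) p q) →
    ∃ y ∈ C.Sig 𝔞 i₀ Finset.univ, C.m y = g := by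
  induction J using Finset.induction_on with
  | empty =>
    intro g hd hg hc
    obtain ⟨σ, hσ, h1, h2⟩ := grf2_clear (C := C) (i₀ := i₀) hQ i₀ hg
    refine grf2_red hQ hσ hd hg fun hd' _ => ⟨1, one_mem _, ?_⟩
    have e : C.m σ * g = diagonal (Pi.mulSingle i₀ (g i₀ i₀)) := by
      ext p q
      by_cases hq : q = i₀
      · subst hq
        rw [h1, diagonal_apply]
        split_ifs with h
        · simp [h]
        · rfl
      · rw [h2 q (by rw [hc q hq (by simp), one_apply_ne' hq]), hc q hq (by simp), diagonal_apply, one_apply]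
        split_ifs with h
        · simp [h, hq]
        · rfl
    rw [e, det_diagonal, Fintype.prod_pi_mulSingle'] at hd'
    rw [e, hd', m_one, Pi.mulSingle_one]
    exact diagonal_one.symm
  | insert k J hk ih =>
    intro g hd hg hc
    by_cases hk0 : k = i₀
    · exact ih g hd hg fun q hq hq' => hc q hq (by simp [hk0, hq, hq'])
    obtain ⟨σ, hσ, h1, h2⟩ := grf2_clear (C := C) (i₀ := i₀) hQ k hg
    have ha : g k k - 1 ∈ 𝔞 := by simpa using hg k k
    have h0 := (hQ _ ha).1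
    refine grf2_red hQ (mul_mem (η_mem (Finset.mem_univ i₀) (Finset.mem_univ k) ha) hσ) hd hg
      fun hd' hg' => ih _ hd' hg' fun q hq hq' p => ?_
    rw [m_mul, mul_assoc, m_η _ _ _ h0, diagonal_mul, one_apply]
    by_cases hqk : q = k
    · subst hqk
      rw [h1]
      split_ifs with h
      · simp [h, hq, h0]
      · simp
    · have h3 := hc q hq (by simp [hqk, hq'])
      rw [h2 q (by rw [h3, one_apply_ne' hqk]), h3, one_apply]
      split_ifs with h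
      · simp [h, hq, hqk]
      · simp

/-- Gaussian elimination.  Induction on `J` for: every `g` with `det g = 1`, `g ≡ 1`, whose columns outside
`insert i₀ J` are unit vectors, is in the image.  Clear the column `k` by `s N`, `N p k = -g p k / g k k` (`p ≠ k`;
`s_mem`, `det_Sig`), then multiply by `η i₀ k (g k k)`; for the last column use the determinant. -/
theorem sig_surj (hQ : Qi 𝔞) (i₀ : ι) {g : Matrix ι ι K} (hd : g.det = 1) (hg : ∀ p q, (g - 1) p q ∈ 𝔞) :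
    ∃ y ∈ C.Sig 𝔞 i₀ Finset.univ, C.m y = g := by
  exact grf2_ind hQ Finset.univ g hd hg fun q _ hq => absurd (Finset.mem_univ q) hq

/-- `B X B⁻¹ = s N'`, `N' = m B * single i j t * m B⁻¹`; `1 + N'/6` is in the image of `Sig`; `s_eq` -/
theorem conj_X_mem (hQ : Qi 𝔞) (i₀ : ι) (B : E) {i j : ι} (h : i ≠ j) {t : K}
    (hB : ∀ k l, (6 : K)⁻¹ * (C.m B k i * t * C.m B⁻¹ j l) ∈ 𝔞) :
    B * C.X i j t * B⁻¹ ∈ C.Sig 𝔞 i₀ Finset.univ := by
  have hN : single i j t * single i j t = (0 : Matrix ι ι K) := single_mul_single_of_ne _ _ _ _ h.symm _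
  have h1 : B * C.X i j t = C.s (C.m B * single i j t * C.m B⁻¹) * B :=
    s_conj hN (by rw [mul_assoc, m_inv_mul, mul_one])
  have e : 1 + (6 : K)⁻¹ • (C.m B * single i j t * C.m B⁻¹) =
      C.m B * transvection i j ((6 : K)⁻¹ * t) * C.m B⁻¹ := by
    rw [transvection, mul_add, add_mul, mul_one, m_mul_inv, ← smul_eq_mul (6 : K)⁻¹ t, ← smul_single, Matrix.mul_smul,
      Matrix.smul_mul]
  obtain ⟨y, hy, hm⟩ := sig_surj (C := C) hQ i₀ (g := 1 + (6 : K)⁻¹ • (C.m B * single i j t * C.m B⁻¹))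
    (by rw [e, det_mul, det_mul, det_transvection_of_ne i j h, mul_one, ← det_mul, m_mul_inv, det_one])
    fun p q => by
      have e2 : (C.m B * single i j t * C.m B⁻¹) p q = C.m B p i * t * C.m B⁻¹ j q := by
        rw [mul_apply, Finset.sum_eq_single j]
        · rw [mul_single_apply_same]
        · intro b _ hb
          rw [mul_single_apply_of_ne _ _ _ _ _ hb, zero_mul]
        · exact fun h => absurd (Finset.mem_univ _) h
      rw [add_sub_cancel_left, Matrix.smul_apply, smul_eq_mul, e2]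
      exact hB p q
  rw [h1, mul_inv_cancel_right, s_eq hm]
  exact Subgroup.pow_mem _ hy 6

/-- `A = z y` with `y ∈ Sig 𝔟`; `B (Sig 𝔟) B⁻¹ ≤ Sig 𝔞` (`conj_X_mem`, `key`); `B y B⁻¹ y⁻¹ ∈ Sig 𝔞` has matrix `1` -/
theorem main [Nonempty ι] {𝔞 𝔞₁ 𝔟 : NonUnitalSubring K} (hQ : Qi 𝔞) (hQ' : Qi 𝔟) (h1 : C.C1 𝔞) (hle : 𝔟 ≤ 𝔞)
    (hle' : 𝔟 ≤ 𝔞₁) (hp : ∀ u ∈ 𝔟, ∃ t ∈ 𝔞₁, ∃ r ∈ 𝔞₁, u = t * r) {A B : E} (hd : (C.m A).det = 1)
    (hA : ∀ p q, (C.m A - 1) p q ∈ 𝔟)
    (hB : ∀ t ∈ 𝔞₁, ∀ k i j l, (6 : K)⁻¹ * (C.m B k i * t * C.m B⁻¹ j l) ∈ 𝔞)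
    (hc : Commute (C.m A) (C.m B)) : Commute A B := by
  obtain ⟨i₀⟩ := ‹Nonempty ι›
  obtain ⟨y, hy, hm⟩ := sig_surj (C := C) hQ' i₀ hd hA
  have hX : ∀ {i j : ι}, i ≠ j → ∀ t ∈ 𝔞₁, B * C.X i j t * B⁻¹ ∈ C.Sig 𝔞 i₀ Finset.univ :=
    fun hij t ht => conj_X_mem hQ i₀ B hij fun k l => hB t ht k _ _ l
  have hconj : C.Sig 𝔟 i₀ Finset.univ ≤ (C.Sig 𝔞 i₀ Finset.univ).comap (MulAut.conj B).toMonoidHom := by
    refine (Subgroup.closure_le _).2 ?_
    rintro x (⟨i, -, j, -, t, ht, hij, rfl⟩ | ⟨i, -, j, -, a, ha, rfl⟩)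
    · exact hX hij t (hle' ht)
    · by_cases hij : i = j
      · rw [hij, η_self]
        exact Subgroup.one_mem _
      obtain ⟨t, ht, r, hr, e⟩ := hp _ ha
      have ea : a = 1 + t * r := by rw [← e, add_sub_cancel]
      have hdiv : ∀ u ∈ 𝔞₁, u / a ∈ 𝔞₁ := fun u hu => by
        have : u / a = u + u * (a⁻¹ - 1) := by rw [div_eq_mul_inv]; ring
        rw [this]
        exact add_mem hu (mul_mem hu (hle' (hQ' a ha).2))
      have hk := key (i₀ := i₀) hQ h1 hij (t := t) (r := r) (hle (e ▸ ha))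
      rw [← ea] at hk
      have e2 : C.η i₀ i j a =
          (C.X j i (r / a))⁻¹ * (C.X i j t * C.X j i r) * (C.X i j (t / a))⁻¹ := by
        rw [hk]; group
      rw [e2]
      exact mul_mem (mul_mem (inv_mem (hX (Ne.symm hij) _ (hdiv r hr)))
        (mul_mem (hX hij t ht) (hX (Ne.symm hij) r hr))) (inv_mem (hX hij _ (hdiv t ht)))
  have hmono : C.Sig 𝔟 i₀ Finset.univ ≤ C.Sig 𝔞 i₀ Finset.univ := by
    refine (Subgroup.closure_le _).2 ?_
    rintro x (⟨i, hi, j, hj, t, ht, hij, rfl⟩ | ⟨i, hi, j, hj, a, ha, rfl⟩)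
    · exact X_mem hi hj hij (hle ht)
    · exact η_mem hi hj (hle ha)
  have h2 : B * y * B⁻¹ ∈ C.Sig 𝔞 i₀ Finset.univ := hconj hy
  have h3 : B * y * B⁻¹ * y⁻¹ = 1 := by
    refine sig_ker hQ h1 (mul_mem h2 (inv_mem (hmono hy))) ?_
    rw [m_mul, m_mul, m_mul, hm, ← hc.eq, mul_assoc (C.m A), m_mul_inv, mul_one, ← hm, m_mul_inv]
  refine comm_congr hm rfl ?_
  rw [mul_inv_eq_one, mul_inv_eq_iff_eq_mul] at h3
  exact h3.symm

end CE

end Crest.Agent.R27.Rec
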