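import Crest.Agent.R27.Rec.Ext
import Crest.Agent.R27.Rec.Grp

/-!
Row 27, block REC: the family of `ℤ[ω, 1/6]`-lattices in `K3 ^ ι`, the extension `ce ι` of `GL ι K3`, and the commutator
formula for a lattice given by a parametrisation.  Prefix: `laa_`, `lab_`.
-/

set_option autoImplicit false

namespace Crest.Agent.R27.Rec

open Crest.Agent.R17 Crest.NumberTheoryR.EisensteinField Function Matrix
open scoped Classical

section
variable {V : Type*} [AddCommGroup V] [Module O V]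

/-- saturation at `6` -/
def sat6 (L : Submodule O V) : Submodule O V where
  carrier := {x | ∃ k : ℕ, (6 ^ k : ℕ) • x ∈ L}
  zero_mem' := ⟨0, by simp⟩
  add_mem' := by
    rintro x y ⟨k, hk⟩ ⟨l, hl⟩
    refine ⟨k + l, ?_⟩
    rw [nsmul_add]
    refine L.add_mem ?_ ?_
    · rw [pow_add, mul_comm, mul_nsmul']
      exact nsmul_mem hk _
    · rw [pow_add, mul_nsmul']
      exact nsmul_mem hl _
  smul_mem' := by
    rintro c x ⟨k, hk⟩
    exact ⟨k, by rw [smul_comm]; exact L.smul_mem c hk⟩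

theorem mem_sat6 {L : Submodule O V} {x : V} : x ∈ sat6 L ↔ ∃ k : ℕ, (6 ^ k : ℕ) • x ∈ L := Iff.rfl

/-- finitely generated and of full rank -/
def Full (L : Submodule O V) : Prop := L.FG ∧ ∀ x : V, ∃ n : ℕ, n ≠ 0 ∧ n • x ∈ L

/-- `n L` -/
noncomputable def nmul (n : ℕ) (L : Submodule O V) : Submodule O V := L.map ((n : O) • LinearMap.id)

/-! ### Part a -/

theorem le_sat6 (L : Submodule O V) : L ≤ sat6 L := by
  exact fun x hx => ⟨0, by simpa using hx⟩

theorem sat6_mono {L L' : Submodule O V} (h : L ≤ L') : sat6 L ≤ sat6 L' := by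
  exact fun x ⟨k, hk⟩ => ⟨k, h hk⟩

theorem sat6_sat (L : Submodule O V) (x : V) (h : (6 : ℕ) • x ∈ sat6 L) : x ∈ sat6 L := by
  obtain ⟨k, hk⟩ := h
  exact ⟨k + 1, by rwa [pow_succ, mul_smul]⟩

theorem sat6_inf (L L' : Submodule O V) : sat6 L ⊓ sat6 L' = sat6 (L ⊓ L') := by
  refine le_antisymm ?_ (le_inf (sat6_mono inf_le_left) (sat6_mono inf_le_right))
  rintro x ⟨⟨k, hk⟩, l, hl⟩
  refine ⟨k + l, ?_, ?_⟩
  · rw [pow_add, mul_comm, mul_smul]
    exact nsmul_mem hk _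
  · rw [pow_add, mul_smul]
    exact nsmul_mem hl _

theorem sat6_map (L : Submodule O V) (g : V ≃ₗ[O] V) :
    (sat6 L).map (g : V →ₗ[O] V) = sat6 (L.map (g : V →ₗ[O] V)) := by
  ext x
  simp only [Submodule.mem_map_equiv, mem_sat6, map_nsmul]

/-- `O` is noetherian (`Submodule.FG.of_le` or `isNoetherian_submodule`) -/
theorem Full.inf {L L' : Submodule O V} (h : Full L) (h' : Full L') : Full (L ⊓ L') := by
  refine ⟨h.1.of_le inf_le_left, fun x => ?_⟩
  obtain ⟨n, hn, h1⟩ := h.2 x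
  obtain ⟨m, hm, h2⟩ := h'.2 x
  refine ⟨n * m, mul_ne_zero hn hm, ?_, ?_⟩
  · rw [mul_comm, mul_smul]
    exact nsmul_mem h1 _
  · rw [mul_smul]
    exact nsmul_mem h2 _

theorem Full.map {L : Submodule O V} (h : Full L) (g : V ≃ₗ[O] V) : Full (L.map (g : V →ₗ[O] V)) := by
  refine ⟨h.1.map _, fun x => ?_⟩
  obtain ⟨n, hn, h1⟩ := h.2 (g.symm x)
  exact ⟨n, hn, by rwa [Submodule.mem_map_equiv, map_nsmul]⟩

theorem Full.of_nmul {L : Submodule O V} (h : Full L) {n : ℕ} (hn : n ≠ 0) : Full (nmul n L) := by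
  refine ⟨h.1.map _, fun x => ?_⟩
  obtain ⟨m, hm, h1⟩ := h.2 x
  exact ⟨n * m, mul_ne_zero hn hm, m • x, h1, by
    rw [LinearMap.smul_apply, LinearMap.id_apply, Nat.cast_smul_eq_nsmul, mul_smul]⟩

/-- `Submodule.fg_induction` or the product over a finite generating set -/
theorem Full.exists_nmul_le {L L' : Submodule O V} (h : Full L) (h' : Full L') : ∃ n : ℕ, n ≠ 0 ∧ nmul n L ≤ L' := by
  obtain ⟨s, rfl⟩ := h.1
  choose f f0 hf using h'.2
  refine ⟨∏ x ∈ s, f x, Finset.prod_ne_zero_iff.2 fun x _ => f0 x, ?_⟩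
  rw [nmul, Submodule.map_le_iff_le_comap, Submodule.span_le]
  intro x hx
  obtain ⟨c, hc⟩ := Finset.dvd_prod_of_mem f (Finset.mem_coe.1 hx)
  rw [SetLike.mem_coe, Submodule.mem_comap, LinearMap.smul_apply, LinearMap.id_apply, Nat.cast_smul_eq_nsmul, hc,
    mul_comm, mul_smul]
  exact nsmul_mem (hf x) _

/-- The image `T` of `L` in `V ⧸ sat6 L'` is a finitely generated torsion module over `O`, which is finite over `ℤ`,
so `T` is finite (`Module.Finite.trans`, `Module.finite_of_fg_torsion` / `AddCommGroup.finite_of_fg_torsion`).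
Multiplication by `6 ^ k` is injective on `V ⧸ sat6 L'`, hence onto on `T`; so the image of `sat6 L` is `T`. -/
theorem Full.finite_image {L L' : Submodule O V} (h : Full L) (h' : Full L') :
    ((sat6 L').mkQ '' (sat6 L : Set V)).Finite := by
  have inj : ∀ k : ℕ, Injective fun q : V ⧸ sat6 L' => (6 ^ k : ℕ) • q := fun k => by
    refine (injective_iff_map_eq_zero (nsmulAddMonoidHom (α := V ⧸ sat6 L') (6 ^ k))).2 fun q hq => ?_
    obtain ⟨x, rfl⟩ := (sat6 L').mkQ_surjective q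
    rw [nsmulAddMonoidHom_apply, ← map_nsmul, Submodule.mkQ_apply, Submodule.Quotient.mk_eq_zero] at hq
    obtain ⟨l, hl⟩ := hq
    exact (Submodule.Quotient.mk_eq_zero _).2 ⟨l + k, by rwa [pow_add, mul_smul]⟩
  set T := L.map (sat6 L').mkQ
  have : Module.Finite O T := Module.Finite.iff_fg.2 (h.1.map _)
  have : Module.Finite ℤ T := Module.Finite.trans O T
  have : Finite T := Module.finite_of_fg_torsion T fun t => by
    obtain ⟨_, x, hx, rfl⟩ := t
    obtain ⟨n, hn, h1⟩ := h'.2 x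
    refine ⟨⟨n, mem_nonZeroDivisors_of_ne_zero (by exact_mod_cast hn)⟩, Subtype.ext ?_⟩
    change (n : ℤ) • (sat6 L').mkQ x = 0
    rw [natCast_zsmul, ← map_nsmul]
    exact (Submodule.Quotient.mk_eq_zero _).2 (le_sat6 _ h1)
  refine (Set.toFinite (T : Set (V ⧸ sat6 L'))).subset ?_
  rintro _ ⟨x, ⟨k, hk⟩, rfl⟩
  obtain ⟨t, ht⟩ := Finite.surjective_of_injective (f := fun t : T => (6 ^ k : ℕ) • t)
    (fun a b e => Subtype.ext (inj k (congrArg Subtype.val e))) ⟨_, _, hk, rfl⟩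
  have e : (t : V ⧸ sat6 L') = (sat6 L').mkQ x := inj k ((congrArg Subtype.val ht).trans (map_nsmul _ _ _))
  exact e ▸ t.2

/-- the family of all `sat6 L`, `L` full -/
noncomputable def famOf (L₀ : Submodule O V) (h₀ : Full L₀) : Fam V where
  S := {L | ∃ L', Full L' ∧ L = sat6 L'}
  sat := by
    rintro _ ⟨L, -, rfl⟩
    exact sat6_sat L
  inf := by
    rintro _ ⟨L, hL, rfl⟩ _ ⟨L', hL', rfl⟩
    exact ⟨_, hL.inf hL', sat6_inf L L'⟩
  fin := by
    rintro _ ⟨L, hL, rfl⟩ _ ⟨L', hL', rfl⟩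
    exact hL.finite_image hL'
  C k := sat6 (nmul k.factorial L₀)
  C_mem k := ⟨_, h₀.of_nmul k.factorial_ne_zero, rfl⟩
  C_anti k l hkl := sat6_mono (by
    rintro _ ⟨x, hx, rfl⟩
    obtain ⟨c, hc⟩ := Nat.factorial_dvd_factorial hkl
    exact ⟨(c : O) • x, L₀.smul_mem _ hx, by simp [hc, smul_smul, mul_comm]⟩)
  C_cof := by
    rintro _ ⟨L, hL, rfl⟩
    obtain ⟨n, hn, hle⟩ := h₀.exists_nmul_le hL
    refine ⟨n, sat6_mono (le_trans ?_ hle)⟩
    rintro _ ⟨x, hx, rfl⟩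
    obtain ⟨c, hc⟩ := Nat.dvd_factorial (Nat.pos_of_ne_zero hn) le_rfl
    exact ⟨(c : O) • x, L₀.smul_mem _ hx, by
      simp only [LinearMap.smul_apply, LinearMap.id_apply, smul_smul, ← Nat.cast_mul, ← hc]⟩

theorem lab_inj {M : Type*} [AddCommGroup M] (hM : Fr M) (k : ℕ) :
    Injective fun m : M => (6 ^ k : ℕ) • m := by
  have h0 : ∀ (k : ℕ) (m : M), (6 ^ k : ℕ) • m = 0 → m = 0 := by
    intro k
    induction k with
    | zero => intro m hm; simpa using hm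
    | succ k ih =>
      intro m hm
      rw [pow_succ, mul_nsmul'] at hm
      exact hM m (ih _ hm)
  intro m m' h
  refine sub_eq_zero.1 (h0 k _ ?_)
  rw [nsmul_sub]
  exact sub_eq_zero.2 h

/-- Extension of a linear map to the saturation: `q x` is the unique `m` with `6 ^ k • m = q₀ p` whenever
`6 ^ k • x = j p` (multiplication by `6 ^ k` is bijective on `M`). -/
theorem exists_ext {P M : Type*} [AddCommGroup P] [Module O P] [AddCommGroup M] [Module O M] [Finite M] (hM : Fr M)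
    {j : P →ₗ[O] V} (hj : Injective j) (q₀ : P →ₗ[O] M) :
    ∃ q : sat6 (LinearMap.range j) →ₗ[O] M,
      ∀ (x : sat6 (LinearMap.range j)) (k : ℕ) (p : P), (6 ^ k : ℕ) • x.1 = j p → (6 ^ k : ℕ) • q x = q₀ p := by
  have key : ∀ x : sat6 (LinearMap.range j), ∃ m : M, ∀ (k : ℕ) (p : P),
      (6 ^ k : ℕ) • x.1 = j p → (6 ^ k : ℕ) • m = q₀ p := by
    rintro ⟨x, k₀, p₀, h₀⟩
    obtain ⟨m, hm⟩ := (Finite.injective_iff_surjective.1 (lab_inj hM k₀)) (q₀ p₀)
    refine ⟨m, fun k p hp => lab_inj hM k₀ ?_⟩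
    have h1 : (6 ^ k₀ : ℕ) • p = (6 ^ k : ℕ) • p₀ := by
      apply hj
      rw [map_nsmul, map_nsmul, h₀, ← hp, smul_comm]
    simp only at hm ⊢
    rw [smul_comm, hm, ← map_nsmul, ← map_nsmul, h1]
  choose q hq using key
  refine ⟨⟨⟨q, fun x y => ?_⟩, fun c x => ?_⟩, hq⟩
  · obtain ⟨k, p, hp⟩ := x.2
    obtain ⟨l, p', hp'⟩ := y.2
    have h1 := hq (x + y) (k + l) ((6 ^ l : ℕ) • p + (6 ^ k : ℕ) • p') (by
      rw [map_add, map_nsmul, map_nsmul, hp, hp', Submodule.coe_add, nsmul_add, ← mul_nsmul',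
        ← mul_nsmul', pow_add, mul_comm (6 ^ l)])
    refine lab_inj hM (k + l) ?_
    simp only
    rw [h1, map_add, map_nsmul, map_nsmul, ← hq x k p hp.symm, ← hq y l p' hp'.symm, nsmul_add,
      ← mul_nsmul', ← mul_nsmul', pow_add, mul_comm (6 ^ l)]
  · obtain ⟨k, p, hp⟩ := x.2
    have h1 := hq (c • x) k (c • p) (by rw [map_smul, hp, Submodule.coe_smul, smul_comm])
    refine lab_inj hM k ?_
    simp only [RingHom.id_apply]
    rw [h1, map_smul, ← hq x k p hp.symm, smul_comm]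

end

variable (ι : Type) [Fintype ι] [DecidableEq ι]

/-- the standard parametrisation -/
noncomputable def jO : (ι → O) →ₗ[O] (ι → K3) := (Algebra.linearMap O K3).compLeft ι

omit [Fintype ι] [DecidableEq ι] in
theorem jO_apply (p : ι → O) (i : ι) : jO ι p i = algebraMap O K3 (p i) := rfl

/-! ### Part b -/

omit [Fintype ι] [DecidableEq ι] in
theorem jO_inj : Injective (jO ι) := by
  intro p p' h
  funext i
  exact NumberField.RingOfIntegers.coe_injective (congrFun h i)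

/-- every element of `K3` has a positive integer multiple in `O` (`IsAlgebraic.exists_integral_multiple`-like, or
`IsFractionRing` and `Ideal.absNorm_mem`) -/
theorem jO_full (v : ι → K3) : ∃ n : ℕ, n ≠ 0 ∧ ∃ p, jO ι p = n • v := by
  have h : ∀ i, ∃ (m : ℕ) (r : O), m ≠ 0 ∧ m • v i = algebraMap O K3 r := fun i =>
    IsAlgebraic.exists_nsmul_eq O
      (IsFractionRing.isAlgebraic_iff ℤ ℚ K3 |>.mpr (.of_finite ℚ (v i)))
  choose m r hm hr using h
  refine ⟨∏ i, m i, Finset.prod_ne_zero_iff.2 fun i _ => hm i,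
    fun i => (∏ l ∈ Finset.univ.erase i, m l) • r i, ?_⟩
  funext i
  rw [jO_apply, map_nsmul, ← hr, Pi.smul_apply, ← mul_nsmul',
    Finset.prod_erase_mul _ _ (Finset.mem_univ i)]

omit [DecidableEq ι] [Fintype ι] in
theorem full_range {P : Type*} [AddCommGroup P] [Module O P] [Module.Finite O P] {j : P →ₗ[O] (ι → K3)}
    (h : ∀ v, ∃ n : ℕ, n ≠ 0 ∧ ∃ p, j p = n • v) : Full (LinearMap.range j) := by
  refine ⟨?_, fun v => ?_⟩
  · rw [← Submodule.map_top]
    exact Module.Finite.fg_top.map j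
  · obtain ⟨n, hn, p, hp⟩ := h v
    exact ⟨n, hn, p, hp⟩

/-- the action of `GL ι K3` -/
noncomputable def rho : GL ι K3 →* ((ι → K3) ≃ₗ[O] (ι → K3)) where
  toFun g :=
    { toFun := fun v => (g : Matrix ι ι K3) *ᵥ v
      invFun := fun v => ((g⁻¹ : GL ι K3) : Matrix ι ι K3) *ᵥ v
      map_add' := fun v w => mulVec_add _ v w
      map_smul' := fun c v => mulVec_smul _ c v
      left_inv := fun v => by simp only [mulVec_mulVec, Units.inv_mul, one_mulVec]
      right_inv := fun v => by simp only [mulVec_mulVec, Units.mul_inv, one_mulVec] }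
  map_one' := LinearEquiv.ext fun v => one_mulVec v
  map_mul' g h := LinearEquiv.ext fun v => (mulVec_mulVec v _ _).symm

theorem rho_apply (g : GL ι K3) (v : ι → K3) : rho ι g v = (g : Matrix ι ι K3) *ᵥ v := rfl

/-- the action on the lattices -/
noncomputable def act : Act (GL ι K3) (ι → K3) where
  F := famOf (LinearMap.range (jO ι)) (full_range ι (jO_full ι))
  ρ := rho ι
  pres := by
    rintro g _ ⟨L, hL, rfl⟩
    exact ⟨_, hL.map _, sat6_map L _⟩

/-- the extension -/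
abbrev EE : Type := Ext (act ι)

/-- the extension as an abstract central extension -/
noncomputable def ce : CE ι K3 (EE ι) where
  π := Ext.π _
  surj := Ext.π_surj
  cen := Ext.ker_comm
  exp := Ext.ker_pow

variable {ι}

theorem lac_fr {M : Type*} [AddCommGroup M] (hM : Fr M) (k : ℕ) {x y : M} (h : (6 ^ k : ℕ) • x = (6 ^ k : ℕ) • y) :
    x = y := by
  induction k with
  | zero => simpa using h
  | succ k ih =>
    refine ih (sub_eq_zero.1 (hM _ ?_))
    rw [nsmul_sub, ← mul_nsmul', ← mul_nsmul', ← pow_succ', h, sub_self]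

section
variable {V P M : Type*} [AddCommGroup V] [Module O V] [AddCommGroup P] [Module O P] [AddCommGroup M] [Module O M]
  {j : P →ₗ[O] V} {g : V ≃ₗ[O] V} {a : P →ₗ[O] P}

theorem lac_mem (ha : ∀ p, j (a p) = g (j p)) (v : V) (hv : v ∈ sat6 (LinearMap.range j)) :
    g v ∈ sat6 (LinearMap.range j) := by
  obtain ⟨k, p, hp⟩ := hv
  exact ⟨k, a p, by rw [ha, hp, map_nsmul]⟩

variable {q₀ : P →ₗ[O] M} {q : sat6 (LinearMap.range j) →ₗ[O] M}

theorem lac_surj (hq : ∀ (x : sat6 (LinearMap.range j)) (k : ℕ) (p : P),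
    (6 ^ k : ℕ) • x.1 = j p → (6 ^ k : ℕ) • q x = q₀ p) (h : Surjective q₀) : Surjective q := by
  intro m
  obtain ⟨p, rfl⟩ := h m
  exact ⟨⟨j p, le_sat6 _ ⟨p, rfl⟩⟩, by simpa using hq ⟨j p, le_sat6 _ ⟨p, rfl⟩⟩ 0 p (by simp)⟩

theorem lac_ker (hM : Fr M) (hq : ∀ (x : sat6 (LinearMap.range j)) (k : ℕ) (p : P),
    (6 ^ k : ℕ) • x.1 = j p → (6 ^ k : ℕ) • q x = q₀ p) (ha : ∀ p, j (a p) = g (j p))
    (hk : ∀ p, q₀ p = 0 ↔ ∃ (k : ℕ) (w : P), a w = (6 ^ k : ℕ) • p) (v : sat6 (LinearMap.range j)) :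
    q v = 0 ↔ v.1 ∈ (sat6 (LinearMap.range j)).map (g : V →ₗ[O] V) := by
  constructor
  · intro h
    obtain ⟨k, p, hp⟩ := v.2
    have h1 := hq v k p hp.symm
    rw [h, nsmul_zero] at h1
    obtain ⟨l, w, hw⟩ := (hk p).1 h1.symm
    rw [sat6_map]
    refine ⟨l + k, j w, ⟨w, rfl⟩, ?_⟩
    rw [LinearEquiv.coe_coe, ← ha, hw, map_nsmul, hp, pow_add, mul_nsmul']
  · rintro ⟨u, ⟨l, w, hw⟩, hu⟩
    refine lac_fr hM l ?_
    rw [nsmul_zero, hq v l (a w) (by rw [ha, hw, map_nsmul, ← hu, LinearEquiv.coe_coe])]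
    exact (hk _).2 ⟨0, w, by simp⟩

theorem lac_comp (hM : Fr M) (hq : ∀ (x : sat6 (LinearMap.range j)) (k : ℕ) (p : P),
    (6 ^ k : ℕ) • x.1 = j p → (6 ^ k : ℕ) • q x = q₀ p) (ha : ∀ p, j (a p) = g (j p)) {f : M →ₗ[O] M}
    (h : ∀ p, q₀ (a p) = f (q₀ p)) (v : sat6 (LinearMap.range j)) : q ⟨g v, lac_mem ha v v.2⟩ = f (q v) := by
  obtain ⟨k, p, hp⟩ := v.2
  refine lac_fr hM k ?_
  rw [hq _ k (a p) (by rw [ha, hp, map_nsmul]), h, ← hq v k p hp.symm, map_nsmul]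

end

/-- The commutator formula for a parametrised lattice: `comm_formula` for `L = sat6 (range j)` and the extensions
`exists_ext` of `qa`, `qb` (multiplication by `6 ^ k` is injective on `Ma`, `Mb`; `sat6_map`). -/
theorem comm_P (x y : EE ι) (hc : Commute ((ce ι).m x) ((ce ι).m y)) {P : Type*} [AddCommGroup P] [Module O P]
    [Module.Finite O P] {j : P →ₗ[O] (ι → K3)} (hj : Injective j) (hfull : ∀ v, ∃ n : ℕ, n ≠ 0 ∧ ∃ p, j p = n • v)
    (a b : P →ₗ[O] P) (ha : ∀ p, j (a p) = (ce ι).m x *ᵥ j p) (hb : ∀ p, j (b p) = (ce ι).m y *ᵥ j p)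
    {Ma Mb : Type*} [AddCommGroup Ma] [Module O Ma] [Finite Ma] [AddCommGroup Mb] [Module O Mb] [Finite Mb]
    (hMa : Fr Ma) (hMb : Fr Mb) (qa : P →ₗ[O] Ma) (qb : P →ₗ[O] Mb) (hqa : Surjective qa) (hqb : Surjective qb)
    (hka : ∀ p, qa p = 0 ↔ ∃ (k : ℕ) (w : P), a w = (6 ^ k : ℕ) • p)
    (hkb : ∀ p, qb p = 0 ↔ ∃ (k : ℕ) (w : P), b w = (6 ^ k : ℕ) • p)
    {fa : Mb →ₗ[O] Mb} {fb : Ma →ₗ[O] Ma} (hfa : Bijective fa) (hfb : Bijective fb)
    (h1 : ∀ p, qb (a p) = fa (qb p)) (h2 : ∀ p, qa (b p) = fb (qa p)) :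
    x * y = Ext.κ _ (sym fb - sym fa + 3 * nq Mb * nq Ma) * (y * x) := by
  obtain ⟨Qa, hQa⟩ := exists_ext hMa hj qa
  obtain ⟨Qb, hQb⟩ := exists_ext hMb hj qb
  have ha' : ∀ p, j (a p) = rho ι x.g (j p) := ha
  have hb' : ∀ p, j (b p) = rho ι y.g (j p) := hb
  exact Ext.comm_formula x y (Units.ext hc.eq) ⟨sat6 (LinearMap.range j), _, full_range ι hfull, rfl⟩
    (lac_mem ha') (lac_mem hb') hMa hMb Qa Qb (lac_surj hQa hqa) (lac_surj hQb hqb)
    (lac_ker hMa hQa ha' hka) (lac_ker hMb hQb hb' hkb) hfa hfb (lac_comp hMb hQb ha' h1) (lac_comp hMa hQa hb' h2)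

end Crest.Agent.R27.Rec
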