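import Crest.Agent.R27.Rec.Lat
import Crest.Agent.R27.Sym

/-!
Row 27, block REC: the Gauss-lemma symbol is the residue symbol; the commutator pairing `cv`; the ideals `aa e`.
Prefix: `rea_`, `reb_`, `rec_`.
-/

set_option autoImplicit false

namespace Crest.Agent.R27.Rec

open Crest.Agent.R17 Crest.NumberTheoryR.EisensteinField Function Matrix
open scoped Classical

/-- the character of `ℤ/6` -/
noncomputable def ez (t : Z6) : ℂ := sg zt ^ t.val

/-! ### Part a -/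

theorem ez_natCast (n : ℕ) : ez n = sg zt ^ n := by
  rw [ez, ZMod.val_natCast, ← pow_eq_pow_mod n isPrimitiveRoot_sg_zt.pow_eq_one]

@[simp] theorem ez_zero : ez 0 = 1 := by
  rw [ez, ZMod.val_zero, pow_zero]

theorem ez_add (s t : Z6) : ez (s + t) = ez s * ez t := by
  rw [ez, ZMod.val_add, ← pow_eq_pow_mod _ isPrimitiveRoot_sg_zt.pow_eq_one, pow_add, ez, ez]

theorem ez_sub_mul (s t : Z6) : ez (s - t) * ez t = ez s := by
  rw [← ez_add, sub_add_cancel]

theorem ez_ne_zero (t : Z6) : ez t ≠ 0 := by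
  exact pow_ne_zero _ (isPrimitiveRoot_sg_zt.ne_zero (by norm_num))

theorem ez_inj {s t : Z6} (h : ez s = ez t) : s = t := by
  exact ZMod.val_injective 6 (isPrimitiveRoot_sg_zt.pow_inj (ZMod.val_lt s) (ZMod.val_lt t) h)

theorem ez_three (m n : ℕ) : ez (3 * m * n) = (-1) ^ (m * n) := by
  have := ez_natCast (3 * (m * n))
  rw [pow_mul, ← map_pow, zt_cube, map_neg, map_one] at this
  rw [← this]
  push_cast
  rw [mul_assoc]

section
variable {A : Type*} [CommRing A] [IsDedekindDomain A] [Module.Free ℤ A] [Module.Finite ℤ A] [Algebra O A]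

/-- multiplication by `u` on `A ⧸ I` -/
noncomputable def mq (I : Ideal A) (u : A) : (A ⧸ I) →ₗ[O] (A ⧸ I) := LinearMap.mulLeft O (Ideal.Quotient.mk I u)

omit [IsDedekindDomain A] [Module.Free ℤ A] [Module.Finite ℤ A] in
theorem mq_mk (I : Ideal A) (u x : A) : mq I u (Ideal.Quotient.mk I x) = Ideal.Quotient.mk I (u * x) := rfl

omit [IsDedekindDomain A] [Module.Free ℤ A] [Module.Finite ℤ A] [Algebra O A] in
theorem fr_ideal {I : Ideal A} (h : Cp I 6) : Fr (A ⧸ I) := by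
  intro x hx
  have h1 := cp_iff_isUnit.1 h
  rw [map_ofNat] at h1
  rw [nsmul_eq_mul, Nat.cast_ofNat] at hx
  exact h1.mul_right_eq_zero.1 hx

omit [Algebra O A] in
theorem finite_ideal {I : Ideal A} (h : Cp I 6) : Finite (A ⧸ I) := by
  refine Ideal.finiteQuotientOfFreeOfNeBot I ?_
  rintro rfl
  obtain ⟨v, hv⟩ := cp_iff.1 h
  have h1 : IsUnit (algebraMap ℤ A 6) := by
    rw [map_ofNat]
    exact IsUnit.of_mul_eq_one v (sub_eq_zero.1 (Ideal.mem_bot.1 hv))
  have h2 : IsUnit (6 : ℤ) := isUnit_of_map_unit (algebraMap ℤ A) 6 h1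
  rw [Int.isUnit_iff] at h2
  omega

omit [IsDedekindDomain A] [Module.Free ℤ A] [Module.Finite ℤ A] in
theorem mq_bij {I : Ideal A} {u : A} (h : Cp I u) : Bijective (mq I u) := by
  exact IsUnit.isUnit_iff_mulLeft_bijective.1 (cp_iff_isUnit.1 h)

omit [Module.Finite ℤ A] [Algebra O A] in
theorem nq_ideal (I : Ideal A) : nq (A ⧸ I) = (Ideal.absNorm I - 1) / 6 := by
  rw [nq, Ideal.absNorm_apply, Submodule.cardQuot_apply]

/-- `sym_field` in `A ⧸ P` (`Ideal.Quotient.field`), `sI_eq_of_mem` -/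
theorem ez_sym_prime {P : Ideal A} (hP : Prime P) (h6 : Cp P 6) {u : A} (hu : Cp P u) :
    ez (sym (mq P u)) = sI u P := by
  have hm := symb_max hP
  have := finite_ideal h6
  let _ := Ideal.Quotient.field P
  have h1 := sym_field (fr_ideal h6) (cp_iff_isUnit.1 hu).ne_zero
  rw [nq_ideal] at h1
  refine (sI_eq_of_mem hP h6 ?_).symm
  rw [← Ideal.Quotient.eq, map_pow, map_pow]
  exact h1

theorem rea2_mul {P J : Ideal A} (h6 : Cp (P * J) 6) {u : A} (hu : Cp (P * J) u) :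
    sym (mq (P * J) u) = sym (mq J u) + sym (mq P u) := by
  obtain ⟨x, hx⟩ := IsDedekindDomain.exists_sup_span_eq (I := P * J) (J := P) Ideal.mul_le_left
    h6.ne_bot
  have hxP : x ∈ P := hx ▸ Ideal.mem_sup_right (Ideal.mem_span_singleton_self x)
  have := finite_ideal h6
  rw [cp_mul_left] at hu
  have h6' := cp_mul_left.1 h6
  obtain ⟨i, hi⟩ : ∃ i : (A ⧸ J) →ₗ[O] (A ⧸ P * J),
      ∀ a, i (Ideal.Quotient.mk J a) = Ideal.Quotient.mk (P * J) (x * a) :=
    ⟨(Submodule.mapQ J (P * J) (LinearMap.mulLeft A x)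
      fun a ha => Ideal.mul_mem_mul hxP ha).restrictScalars O, fun a => rfl⟩
  obtain ⟨p, hp⟩ : ∃ p : (A ⧸ P * J) →ₗ[O] (A ⧸ P),
      ∀ a, p (Ideal.Quotient.mk (P * J) a) = Ideal.Quotient.mk P a :=
    ⟨(Ideal.Quotient.factorₐ O (Ideal.mul_le_left : P * J ≤ P)).toLinearMap, fun a => rfl⟩
  refine (sym_exact (fr_ideal h6) (fr_ideal h6'.2) (fr_ideal h6'.1) (i := i) (p := p) ?_ ?_ ?_
    (mq_bij hu.2) (mq_bij hu.1) ?_ ?_).2
  · rw [injective_iff_map_eq_zero]
    intro a ha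
    obtain ⟨a, rfl⟩ := Ideal.Quotient.mk_surjective a
    rw [hi, Ideal.Quotient.eq_zero_iff_mem] at ha
    rw [Ideal.Quotient.eq_zero_iff_mem, ← Ideal.span_singleton_le_iff_mem, ← Ideal.dvd_iff_le,
      ← mul_dvd_mul_iff_left (show P ≠ 0 from h6'.1.ne_bot), Ideal.dvd_iff_le]
    calc P * Ideal.span {a} = (P * J ⊔ Ideal.span {x}) * Ideal.span {a} := by rw [hx]
      _ ≤ P * J := by
          rw [Ideal.sup_mul, Ideal.span_singleton_mul_span_singleton]
          exact sup_le Ideal.mul_le_left ((Ideal.span_singleton_le_iff_mem _).2 ha)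
  · intro a
    obtain ⟨a, rfl⟩ := Ideal.Quotient.mk_surjective a
    exact ⟨_, hp a⟩
  · intro a
    obtain ⟨a, rfl⟩ := Ideal.Quotient.mk_surjective a
    rw [hp, Ideal.Quotient.eq_zero_iff_mem]
    constructor
    · intro ha
      rw [← hx] at ha
      obtain ⟨z, hz, w, hw, rfl⟩ := Submodule.mem_sup.1 ha
      obtain ⟨c, rfl⟩ := Ideal.mem_span_singleton.1 hw
      exact ⟨Ideal.Quotient.mk J c, by rw [hi, map_add, Ideal.Quotient.eq_zero_iff_mem.2 hz, zero_add]⟩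
    · rintro ⟨c, hc⟩
      obtain ⟨c, rfl⟩ := Ideal.Quotient.mk_surjective c
      rw [hi, Ideal.Quotient.eq] at hc
      have := P.sub_mem (P.mul_mem_right c hxP) (Ideal.mul_le_left hc)
      rwa [sub_sub_cancel] at this
  · intro a
    obtain ⟨a, rfl⟩ := Ideal.Quotient.mk_surjective a
    rw [hi, mq_mk, mq_mk, hi, mul_left_comm]
  · intro a
    obtain ⟨a, rfl⟩ := Ideal.Quotient.mk_surjective a
    rw [mq_mk, hp, hp, mq_mk]

/-- Induction on the prime factors.  For `I = P * J` choose `x` with `P * J ⊔ span {x} = P`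
(`IsDedekindDomain.exists_sup_span_eq`); `A ⧸ J → A ⧸ P * J` (multiplication by `x`) `→ A ⧸ P` is exact
(`span {x} = P * C` with `C ⊔ J = ⊤` by cancellation); `sym_exact`. -/
theorem ez_sym {I : Ideal A} (h6 : Cp I 6) {u : A} (hu : Cp I u) : ez (sym (mq I u)) = sI u I := by
  induction I using UniqueFactorizationMonoid.induction_on_prime with
  | h₁ => exact absurd rfl h6.ne_bot
  | h₂ I hI =>
    obtain rfl := Ideal.isUnit_iff.1 hI
    have : Subsingleton (A ⧸ (⊤ : Ideal A)) := Ideal.Quotient.subsingleton_iff.2 rfl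
    rw [sym_subsingleton, ez_zero, sI_top]
  | h₃ J P _ hP ih =>
    rw [rea2_mul h6 hu, ez_add, sI_mul_right, ih (cp_mul_left.1 h6).2 (cp_mul_left.1 hu).2,
      ez_sym_prime hP (cp_mul_left.1 h6).1 (cp_mul_left.1 hu).1, mul_comm]

end

/-! ### Part b: the commutator pairing -/

section
variable {ι : Type} [Fintype ι] [DecidableEq ι]

/-- the commutator of `x` and `y` in `ℤ/6` -/
noncomputable def cv (x y : EE ι) : Z6 :=
  (x * y).φ ⟨_, (act ι).F.C_mem 0⟩ - (y * x).φ ⟨_, (act ι).F.C_mem 0⟩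

/-- `Ext.eq_κ_mul` -/
theorem cv_spec {x y : EE ι} (h : Commute ((ce ι).m x) ((ce ι).m y)) : x * y = Ext.κ _ (cv x y) * (y * x) := by
  refine Ext.eq_κ_mul (x := x * y) (y := y * x) ?_ _
  exact Units.ext h.eq

theorem cv_eq {x y : EE ι} {t : Z6} (h : x * y = Ext.κ _ t * (y * x)) : cv x y = t := by
  rw [cv, h, Ext.mul_φ, Ext.κ_φ, add_sub_cancel_right]

theorem cv_self (x : EE ι) : cv x x = 0 := sub_self _

theorem cv_swap (x y : EE ι) : cv y x = -cv x y := (neg_sub _ _).symm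

theorem cv_of_commute {x y : EE ι} (h : Commute x y) : cv x y = 0 := by
  rw [cv, h.eq, sub_self]

theorem commute_of_cv {x y : EE ι} (h : Commute ((ce ι).m x) ((ce ι).m y)) (h0 : cv x y = 0) : Commute x y := by
  have := cv_spec h
  rwa [h0, Ext.κ_zero, one_mul] at this

theorem cv_mul_left {x x' y : EE ι} (h : Commute ((ce ι).m x) ((ce ι).m y))
    (h' : Commute ((ce ι).m x') ((ce ι).m y)) : cv (x * x') y = cv x y + cv x' y := by
  refine cv_eq ?_
  rw [mul_assoc, cv_spec h', ← mul_assoc, ← (Ext.κ_comm _ x).eq, mul_assoc, ← mul_assoc x, cv_spec h,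
    add_comm, Ext.κ_add]
  simp only [mul_assoc]

theorem cv_mul_right {x y y' : EE ι} (h : Commute ((ce ι).m x) ((ce ι).m y))
    (h' : Commute ((ce ι).m x) ((ce ι).m y')) : cv x (y * y') = cv x y + cv x y' := by
  refine cv_eq ?_
  rw [← mul_assoc, cv_spec h, mul_assoc, mul_assoc, cv_spec h', ← mul_assoc y, ← (Ext.κ_comm _ y).eq,
    Ext.κ_add]
  simp only [mul_assoc]

theorem reb_κ {x x' : EE ι} (hx : (ce ι).m x = (ce ι).m x') : ∃ s, x = Ext.κ _ s * x' :=
  ⟨_, Ext.eq_κ_mul (Units.ext hx) ⟨_, (act ι).F.C_mem 0⟩⟩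

theorem reb_mul (s t : Z6) (x y : EE ι) :
    Ext.κ _ s * x * (Ext.κ _ t * y) = Ext.κ _ (s + t) * (x * y) := by
  rw [mul_assoc, ← mul_assoc x, ← (Ext.κ_comm t x).eq, Ext.κ_add]
  simp only [mul_assoc]

/-- `Ext.exists_κ`: elements with the same matrix differ by a central `κ t` -/
theorem cv_congr {x x' y y' : EE ι} (hx : (ce ι).m x = (ce ι).m x') (hy : (ce ι).m y = (ce ι).m y') :
    cv x y = cv x' y' := by
  obtain ⟨s, rfl⟩ := reb_κ hx
  obtain ⟨t, rfl⟩ := reb_κ hy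
  rw [cv, cv, reb_mul, reb_mul, Ext.mul_φ (Ext.κ _ _), Ext.mul_φ (Ext.κ _ _), Ext.κ_φ, Ext.κ_φ]
  ring

/-- the pairing on diagonal matrices -/
noncomputable def cd (i j : ι) (u a : K3) : Z6 := cv ((ce ι).lift (dg i u)) ((ce ι).lift (dg j a))

theorem reb_dg_mul (i : ι) (u u' : K3) : dg i u * dg i u' = dg i (u * u') := by
  rw [dg, dg, dg, diagonal_mul_diagonal, Pi.mulSingle_mul]
  rfl

theorem reb_dg_comm (i j : ι) (u a : K3) : Commute (dg i u) (dg j a) := by
  rw [dg, dg, Commute, SemiconjBy, diagonal_mul_diagonal, diagonal_mul_diagonal]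
  simp only [mul_comm]

theorem m_lift_dg (i : ι) {u : K3} (hu : u ≠ 0) : (ce ι).m ((ce ι).lift (dg i u)) = dg i u := by
  refine CE.m_lift (M' := dg i u⁻¹) ?_
  rw [reb_dg_mul, mul_inv_cancel₀ hu, dg, Pi.mulSingle_one]
  exact diagonal_one

theorem cd_self (i : ι) (u : K3) : cd i i u u = 0 := cv_self _

theorem cd_mul_left (i j : ι) {u u' a : K3} (hu : u ≠ 0) (hu' : u' ≠ 0) (ha : a ≠ 0) :
    cd i j (u * u') a = cd i j u a + cd i j u' a := by
  rw [cd, cd, cd, ← cv_mul_left]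
  · refine cv_congr ?_ rfl
    rw [CE.m_mul, m_lift_dg i hu, m_lift_dg i hu', m_lift_dg i (mul_ne_zero hu hu'), reb_dg_mul]
  · rw [m_lift_dg i hu, m_lift_dg j ha]
    exact reb_dg_comm ..
  · rw [m_lift_dg i hu', m_lift_dg j ha]
    exact reb_dg_comm ..

theorem cd_mul_right (i j : ι) {u a a' : K3} (hu : u ≠ 0) (ha : a ≠ 0) (ha' : a' ≠ 0) :
    cd i j u (a * a') = cd i j u a + cd i j u a' := by
  rw [cd, cd, cd, ← cv_mul_right]
  · refine cv_congr rfl ?_
    rw [CE.m_mul, m_lift_dg j ha, m_lift_dg j ha', m_lift_dg j (mul_ne_zero ha ha'), reb_dg_mul]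
  · rw [m_lift_dg i hu, m_lift_dg j ha]
    exact reb_dg_comm ..
  · rw [m_lift_dg i hu, m_lift_dg j ha']
    exact reb_dg_comm ..

theorem commute_of_cd {i j : ι} {u a : K3} (hu : u ≠ 0) (ha : a ≠ 0) (h : cd i j u a = 0) {x y : EE ι}
    (hx : (ce ι).m x = dg i u) (hy : (ce ι).m y = dg j a) : Commute x y := by
  refine commute_of_cv ?_ ?_
  · rw [hx, hy]
    exact reb_dg_comm ..
  · rw [← h, cd]
    exact cv_congr (hx.trans (m_lift_dg i hu).symm) (hy.trans (m_lift_dg j ha).symm)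

end

/-! ### Part c: the ideals `6 ^ e O_(6)` -/

/-- `6 ^ e` times the localisation of `O` at `6` -/
def aa (e : ℕ) : NonUnitalSubring K3 where
  carrier := {t | ∃ s r : O, IsCoprime s 6 ∧ algebraMap O K3 s * t = 6 ^ e * algebraMap O K3 r}
  zero_mem' := ⟨1, 0, isCoprime_one_left, by simp⟩
  add_mem' := by
    rintro t t' ⟨s, r, hs, h⟩ ⟨s', r', hs', h'⟩
    refine ⟨s * s', s' * r + s * r', hs.mul_left hs', ?_⟩
    simp only [map_mul, map_add]
    linear_combination algebraMap O K3 s' * h + algebraMap O K3 s * h'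
  neg_mem' := by
    rintro t ⟨s, r, hs, h⟩
    exact ⟨s, -r, hs, by rw [map_neg]; linear_combination -h⟩
  mul_mem' := by
    rintro t t' ⟨s, r, hs, h⟩ ⟨s', r', hs', h'⟩
    refine ⟨s * s', 6 ^ e * r * r', hs.mul_left hs', ?_⟩
    simp only [map_mul, map_pow, map_ofNat]
    linear_combination algebraMap O K3 s' * t' * h + 6 ^ e * algebraMap O K3 r * h'

theorem mem_aa {e : ℕ} {t : K3} :
    t ∈ aa e ↔ ∃ s r : O, IsCoprime s 6 ∧ algebraMap O K3 s * t = 6 ^ e * algebraMap O K3 r := Iff.rfl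

theorem aa_anti {e e' : ℕ} (h : e ≤ e') : aa e' ≤ aa e := by
  rintro t ⟨s, r, hs, ht⟩
  obtain ⟨d, rfl⟩ := Nat.exists_eq_add_of_le h
  refine ⟨s, 6 ^ d * r, hs, ?_⟩
  simp only [map_mul, map_pow, map_ofNat]
  rw [ht]; ring

theorem aa_mul {e e' : ℕ} {t t' : K3} (h : t ∈ aa e) (h' : t' ∈ aa e') : t * t' ∈ aa (e + e') := by
  obtain ⟨s, r, hs, h⟩ := h
  obtain ⟨s', r', hs', h'⟩ := h'
  refine ⟨s * s', r * r', hs.mul_left hs', ?_⟩
  simp only [map_mul]
  linear_combination algebraMap O K3 s' * t' * h + 6 ^ e * algebraMap O K3 r * h'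

theorem aa_pow_mul {d e : ℕ} {t : K3} : 6 ^ d * t ∈ aa (d + e) ↔ t ∈ aa e := by
  have h6 : (6 : K3) ^ d ≠ 0 := pow_ne_zero _ (by norm_num)
  constructor
  · rintro ⟨s, r, hs, h⟩
    refine ⟨s, r, hs, mul_left_cancel₀ h6 ?_⟩
    linear_combination h
  · rintro ⟨s, r, hs, h⟩
    refine ⟨s, r, hs, ?_⟩
    linear_combination 6 ^ d * h

theorem aa_alg (r : O) : algebraMap O K3 r ∈ aa 0 := by
  exact ⟨1, r, isCoprime_one_left, by simp⟩

theorem aa_inv_nat {n : ℕ} (hn : n % 6 = 1) : ((n : K3))⁻¹ ∈ aa 0 := by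
  have h0 : (n : K3) ≠ 0 := Nat.cast_ne_zero.2 (by omega)
  refine ⟨n, 1, ⟨1, -((n / 6 : ℕ) : O), ?_⟩, by simp [h0]⟩
  have e : (n : O) = 6 * ((n / 6 : ℕ) : O) + 1 := by
    conv_lhs => rw [← Nat.div_add_mod n 6, hn]
    push_cast; ring
  linear_combination e

theorem rec_cop {e : ℕ} (he : 1 ≤ e) {s : O} (hs : IsCoprime s 6) (r : O) :
    IsCoprime (s + 6 ^ e * r) 6 := by
  obtain ⟨d, rfl⟩ := Nat.exists_eq_add_of_le he
  have := hs.add_mul_left_left (6 ^ d * r)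
  convert this using 1
  ring

theorem rec_ne {s : O} (hs : IsCoprime s 6) : algebraMap O K3 s ≠ 0 := by
  intro h
  have h0 : s = 0 := (map_eq_zero_iff _ (IsFractionRing.injective O K3)).1 h
  subst h0
  have hu : IsUnit (6 : O) := isCoprime_zero_left.1 hs
  have h6 : IsUnit (6 : ℤ) := IsUnit.of_map (algebraMap ℤ O) 6 (by simpa using hu)
  rcases Int.isUnit_iff.1 h6 with h | h <;> omega

/-- `s a = s + 6 ^ e r` is coprime to `6` -/
theorem aa_Qi {e : ℕ} (he : 1 ≤ e) : Qi (aa e) := by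
  rintro a ⟨s, r, hs, h⟩
  have hc := rec_cop he hs r
  have h1 : algebraMap O K3 (s + 6 ^ e * r) = algebraMap O K3 s * a := by
    simp only [map_add, map_mul, map_pow, map_ofNat]
    linear_combination -h
  have ha : a ≠ 0 := by
    rintro rfl
    exact rec_ne hc (by rw [h1, mul_zero])
  refine ⟨ha, s + 6 ^ e * r, -r, hc, ?_⟩
  rw [h1, map_neg]
  have h2 : a * a⁻¹ = 1 := mul_inv_cancel₀ ha
  linear_combination algebraMap O K3 s * h2 - h

theorem aa_prod (e : ℕ) : ∀ u ∈ aa (e + e), ∃ t ∈ aa e, ∃ r ∈ aa e, u = t * r := by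
  intro u hu
  have h6 : (6 : K3) ^ e ≠ 0 := pow_ne_zero _ (by norm_num)
  refine ⟨6 ^ e, ⟨1, 1, isCoprime_one_left, by simp⟩, (6 ^ e)⁻¹ * u, ?_, by field_simp⟩
  rw [← aa_pow_mul (d := e), mul_inv_cancel_left₀ h6]
  exact hu

/-- multiply `s`, `s + 6 ^ e r` by an inverse of `s` modulo `6 ^ e` -/
theorem aa_frac {e : ℕ} (he : 1 ≤ e) {a : K3} (ha : a - 1 ∈ aa e) : ∃ a₁ a₂ : O, (6 : O) ^ e ∣ a₁ - 1 ∧
    (6 : O) ^ e ∣ a₂ - 1 ∧ a * algebraMap O K3 a₂ = algebraMap O K3 a₁ := by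
  obtain ⟨s, r, hs, h⟩ := ha
  obtain ⟨x, y, hxy⟩ := hs.pow_right (n := e)
  refine ⟨x * (s + 6 ^ e * r), x * s, ⟨x * r - y, by linear_combination hxy⟩,
    ⟨-y, by linear_combination hxy⟩, ?_⟩
  simp only [map_add, map_mul, map_pow, map_ofNat]
  linear_combination algebraMap O K3 x * h

/-- every element is in `aa 0` after multiplication by a power of `6` (`jO_full`-like: `n t ∈ O`; split `n`) -/
theorem exists_aa (t : K3) : ∃ d : ℕ, 6 ^ d * t ∈ aa 0 := by
  obtain ⟨n, hn, p, hp⟩ := jO_full Unit fun _ => t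
  have hp' : algebraMap O K3 (p ()) = n * t := by
    have := congrFun hp ()
    simpa [jO] using this
  obtain ⟨a, m, hm2, rfl⟩ := Nat.exists_eq_pow_mul_and_not_dvd hn 2 (by norm_num)
  have hm0 : m ≠ 0 := by rintro rfl; simp at hn
  obtain ⟨b, k, hk3, rfl⟩ := Nat.exists_eq_pow_mul_and_not_dvd hm0 3 (by norm_num)
  have hk2 : ¬ 2 ∣ k := fun h => hm2 (h.mul_left _)
  have hc : Nat.Coprime k 6 := by
    have h2 : Nat.Coprime k 2 := ((Nat.Prime.coprime_iff_not_dvd Nat.prime_two).2 hk2).symm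
    have h3 : Nat.Coprime k 3 := ((Nat.Prime.coprime_iff_not_dvd Nat.prime_three).2 hk3).symm
    exact Nat.Coprime.mul_right h2 h3
  have hc' : IsCoprime (k : O) 6 := by
    have := Nat.Coprime.cast (R := O) hc
    simpa using this
  refine ⟨a + b, k, 3 ^ a * 2 ^ b * p (), hc', ?_⟩
  simp only [map_mul, map_pow, map_ofNat, map_natCast, hp']
  have e : (6 : K3) ^ (a + b) = 2 ^ (a + b) * 3 ^ (a + b) := by rw [← mul_pow]; norm_num
  rw [e]
  push_cast
  ring

end Crest.Agent.R27.Rec
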