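import Crest.Agent.R17.A.All

/-!
Row 27, block REC (owner helper68): sextic reciprocity over a number field containing `ω`, without class field theory.

`Sym`: the Gauss-lemma symbol `sym h ∈ ℤ/6` of an automorphism `h` of a finite `ℤ[ω]`-module without `6`-torsion.
`ζ = zt` (a primitive sixth root of unity) acts freely on the non-zero elements; an orientation is a function `o` with
`o (ζ x) = o x + 1`; `dfs Y o o' = ∑_{Y/μ₆} (o' - o)`.  Prefix for helper lemmas: `sya_`, `syb_`, `syc_`, `syd_`.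
-/

set_option autoImplicit false

namespace Crest.Agent.R27.Rec

open Crest.Agent.R17 Function
open scoped Classical

abbrev Z6 : Type := ZMod 6

/-- no `6`-torsion -/
def Fr (M : Type*) [AddCommGroup M] : Prop := ∀ x : M, (6 : ℕ) • x = 0 → x = 0

/-- `∑_{x ∈ Y, o x = 0} o' x` -/
noncomputable def dfs {M : Type*} (Y : Set M) (o o' : M → Z6) : Z6 :=
  ∑ᶠ x, if x ∈ Y ∧ o x = 0 then o' x else 0

/-- the number of `μ₆`-orbits on the non-zero elements -/
noncomputable def nq (M : Type*) : ℕ := (Nat.card M - 1) / 6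

section
variable {M : Type*} [AddCommGroup M] [Module O M]

/-- stable under `ζ` -/
def Stb (Y : Set M) : Prop := ∀ x ∈ Y, zt • x ∈ Y

/-- an orientation on `Y` -/
def Ori (Y : Set M) (o : M → Z6) : Prop := ∀ x ∈ Y, o (zt • x) = o x + 1

end

/-! ### Part a: sums without module structure -/

section
variable {M M' : Type*} {Y Y' : Set M} {o o' o₁ o₁' : M → Z6}

theorem dfs_eq_sum (hY : Y.Finite) (o o' : M → Z6) :
    dfs Y o o' = ∑ x ∈ hY.toFinset, if o x = 0 then o' x else 0 := by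
  rw [dfs, finsum_eq_sum_of_support_subset (s := hY.toFinset)]
  · refine Finset.sum_congr rfl fun x hx => ?_
    simp only [hY.mem_toFinset.1 hx, true_and]
  · intro x hx
    by_contra h
    exact hx (if_neg fun k => h (hY.mem_toFinset.2 k.1))

theorem dfs_congr (h : ∀ x ∈ Y, o x = o₁ x) (h' : ∀ x ∈ Y, o' x = o₁' x) : dfs Y o o' = dfs Y o₁ o₁' := by
  refine finsum_congr fun x => ?_
  by_cases hx : x ∈ Y
  · rw [h x hx, h' x hx]
  · simp only [hx, false_and, if_false]

theorem dfs_self (Y : Set M) (o : M → Z6) : dfs Y o o = 0 := by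
  refine finsum_eq_zero_of_forall_eq_zero fun x => ?_
  split_ifs with h
  · exact h.2
  · rfl

theorem dfs_diff (hY : Y.Finite) (h : Y' ⊆ Y) (o o' : M → Z6) :
    dfs Y o o' = dfs Y' o o' + dfs (Y \ Y') o o' := by
  rw [dfs_eq_sum hY, dfs_eq_sum (hY.subset h), dfs_eq_sum hY.sdiff, add_comm,
    ← Finset.sum_sdiff (Set.Finite.toFinset_subset_toFinset.2 h : (hY.subset h).toFinset ⊆ _)]
  congr 2
  ext x
  simp

/-- `Finset.sum_fiberwise_of_maps_to`; every fibre has `≡ 1 (mod 6)` elements -/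
theorem dfs_fiber (hY : Y.Finite) (q : M → M') (h : ∀ x ∈ Y, (((Y ∩ {x' | q x' = q x}).ncard : ℕ) : Z6) = 1)
    (o o' : M' → Z6) : dfs Y (fun x => o (q x)) (fun x => o' (q x)) = dfs (q '' Y) o o' := by
  rw [dfs_eq_sum hY, dfs_eq_sum (hY.image q), Set.Finite.toFinset_image q hY,
    Finset.sum_comp (fun y => if o y = 0 then o' y else 0) q]
  refine Finset.sum_congr rfl fun y hy => ?_
  obtain ⟨x, hx, rfl⟩ := Finset.mem_image.1 hy
  have e : Y ∩ {x' | q x' = q x} = ↑(hY.toFinset.filter fun x' => q x' = q x) := by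
    ext x'
    simp
  have := h x (hY.mem_toFinset.1 hx)
  rw [e, Set.ncard_coe_finset] at this
  rw [nsmul_eq_mul, this, one_mul]

theorem dfs_inj (hY : Y.Finite) {q : M → M'} (h : Set.InjOn q Y) (o o' : M' → Z6) :
    dfs Y (fun x => o (q x)) (fun x => o' (q x)) = dfs (q '' Y) o o' := by
  refine dfs_fiber hY q (fun x hx => ?_) o o'
  have e : Y ∩ {x' | q x' = q x} = {x} :=
    Set.ext fun x' => ⟨fun k => h k.1 hx k.2, fun k => by rw [k]; exact ⟨hx, rfl⟩⟩
  rw [e, Set.ncard_singleton, Nat.cast_one]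

end

/-! ### Part b: orientations -/

section
variable {M : Type*} [AddCommGroup M] [Module O M] {Y : Set M} {o o' o'' : M → Z6}

/-- `zt ^ j - 1 ∣ 6` for `0 < j < 6` (`zt - 1 = om`, `zt ^ 2 = om`, `zt ^ 3 = -1`) -/
theorem Fr.free (h : Fr M) {x : M} {j : ℕ} (h0 : 0 < j) (h6 : j < 6) (hx : zt ^ j • x = x) : x = 0 := by
  have e : zt ^ 2 = zt - 1 := by rw [zt_sq, zt, add_sub_cancel_left]
  obtain ⟨c, hc⟩ : ∃ c : O, c * (zt ^ j - 1) = 6 := by
    interval_cases j
    exacts [⟨-6 * zt, by grind⟩, ⟨2 * (-1 - zt), by grind⟩, ⟨-3, by grind⟩, ⟨2 * (zt - 2), by grind⟩,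
      ⟨6 * (zt - 1), by grind⟩]
  refine h x ?_
  rw [← Nat.cast_smul_eq_nsmul O, Nat.cast_ofNat, ← hc, mul_smul, sub_smul, hx, one_smul, sub_self, smul_zero]

theorem Stb.pow (hY : Stb Y) {x : M} (hx : x ∈ Y) (k : ℕ) : zt ^ k • x ∈ Y := by
  induction k with
  | zero => rwa [pow_zero, one_smul]
  | succ k ih => rw [pow_succ', mul_smul]; exact hY _ ih

theorem Ori.pow (hY : Stb Y) (ho : Ori Y o) {x : M} (hx : x ∈ Y) (k : ℕ) : o (zt ^ k • x) = o x + k := by
  induction k with
  | zero => rw [pow_zero, one_smul, Nat.cast_zero, add_zero]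
  | succ k ih => rw [pow_succ', mul_smul, ho _ (hY.pow hx k), ih, Nat.cast_succ, add_assoc]

theorem stb_ne : Stb {x : M | x ≠ 0} := by
  exact fun x hx h => hx (isUnit_zt.smul_eq_zero.1 h)

/-- choose a representative `r` in each class of the relation `∃ k, x' = zt ^ k • x` (`Quotient.out`), and for each `x`
an exponent `k` with `x = zt ^ k • r`; `k mod 6` is unique for `x ≠ 0` (`Fr.free`, `zt ^ 6 = 1`) -/
theorem exists_ori (h : Fr M) : ∃ o : M → Z6, Ori {x | x ≠ 0} o := by
  have h6 : ∀ (k : ℕ) (x : M), zt ^ (5 * k) • zt ^ k • x = x := fun k x => by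
    rw [← mul_smul, ← pow_add, show 5 * k + k = 6 * k by ring, pow_mul, zt_pow_six, one_pow, one_smul]
  let s : Setoid M := ⟨fun x y => ∃ k : ℕ, y = zt ^ k • x, fun x => ⟨0, by simp⟩,
    fun ⟨k, hk⟩ => ⟨5 * k, by rw [hk, h6]⟩, fun ⟨k, hk⟩ ⟨l, hl⟩ => ⟨l + k, by rw [hl, hk, pow_add, mul_smul]⟩⟩
  choose k hk using fun x : M => Quotient.mk_out (s := s) x
  refine ⟨fun x => k x, fun x hx => ?_⟩
  have e : Quotient.mk s x = Quotient.mk s (zt • x) := Quotient.sound ⟨1, by rw [pow_one]⟩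
  have h1 := hk (zt • x)
  have h2 := hk x
  rw [← e] at h1
  generalize (Quotient.mk s x).out = r at h1 h2
  have h3 : zt ^ ((5 * k (zt • x) + (k x + 1)) % 6) • r = r := by
    rw [← pow_eq_pow_mod _ zt_pow_six, pow_add, mul_smul, pow_succ' _ (k x), mul_smul, ← h2]
    exact (congrArg _ h1).trans (h6 _ _)
  have h4 : (5 * k (zt • x) + (k x + 1)) % 6 = 0 := by
    by_contra h4
    exact hx (by rw [h2, h.free (Nat.pos_of_ne_zero h4) (Nat.mod_lt _ (by norm_num)) h3, smul_zero])
  rw [← Nat.cast_succ, ZMod.natCast_eq_natCast_iff']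
  omega

/-- the bijection `x ↦ zt ^ (j + o x - o' x).val • x`-like between `{o = i}` and `{o' = j}`
(`Finset.sum_nbij'`): sums of invariant functions over the orbits do not depend on the representatives -/
theorem sum_ori (Y : Finset M) (hY : Stb (Y : Set M)) (ho : Ori (Y : Set M) o) (ho' : Ori (Y : Set M) o')
    {β : Type*} [AddCommMonoid β] (w : M → β) (hw : ∀ x ∈ Y, w (zt • x) = w x) (i j : Z6) :
    ∑ x ∈ Y, (if o x = i then w x else 0) = ∑ x ∈ Y, if o' x = j then w x else 0 := by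
  have h1 : ∀ x ∈ Y, ∀ k : ℕ, w (zt ^ k • x) = w x := fun x hx k => by
    induction k with
    | zero => rw [pow_zero, one_smul]
    | succ k ih => rw [pow_succ', mul_smul, hw _ (hY.pow hx k), ih]
  have h2 : ∀ (a : Z6) (x : M), zt ^ (-a).val • zt ^ a.val • x = x := fun a x => by
    rw [← mul_smul, ← pow_add, pow_eq_pow_mod _ zt_pow_six,
      show ((-a).val + a.val) % 6 = 0 by revert a; decide, pow_zero, one_smul]
  rw [← Finset.sum_filter, ← Finset.sum_filter]
  refine Finset.sum_nbij' (fun x => zt ^ (j - o' x).val • x) (fun x => zt ^ (i - o x).val • x)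
    (fun x hx => ?_) (fun x hx => ?_) (fun x hx => ?_) (fun x hx => ?_) fun x hx => ?_
  all_goals obtain ⟨h3, h4⟩ := Finset.mem_filter.1 hx
  · exact Finset.mem_filter.2 ⟨hY.pow h3 _, by rw [ho'.pow hY h3]; simp⟩
  · exact Finset.mem_filter.2 ⟨hY.pow h3 _, by rw [ho.pow hY h3]; simp⟩
  · rw [ho.pow hY h3, h4, ZMod.natCast_zmod_val, sub_add_cancel_left, h2]
  · rw [ho'.pow hY h3, h4, ZMod.natCast_zmod_val, sub_add_cancel_left, h2]
  · exact (h1 x h3 _).symm

/-- `sum_ori` with `w = o'' - o'` -/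
theorem dfs_add (hf : Y.Finite) (hY : Stb Y) (ho : Ori Y o) (ho' : Ori Y o') (ho'' : Ori Y o'') :
    dfs Y o o' + dfs Y o' o'' = dfs Y o o'' := by
  have hs : ((hf.toFinset : Finset M) : Set M) = Y := hf.coe_toFinset
  have h := sum_ori hf.toFinset (by rwa [hs]) (o := o') (o' := o) (by rwa [hs]) (by rwa [hs])
    (fun x => o'' x - o' x) (fun x hx => by
      have hx' : x ∈ Y := hf.mem_toFinset.1 hx
      simp only [ho' x hx', ho'' x hx']; ring) 0 0
  rw [dfs_eq_sum hf, dfs_eq_sum hf, dfs_eq_sum hf]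
  have e : ∑ x ∈ hf.toFinset, (if o' x = 0 then o'' x else 0) =
      ∑ x ∈ hf.toFinset, if o' x = 0 then o'' x - o' x else 0 :=
    Finset.sum_congr rfl fun x _ => by
      split_ifs with hx
      · rw [hx, sub_zero]
      · rfl
  rw [e, h, ← Finset.sum_add_distrib]
  refine Finset.sum_congr rfl fun x _ => ?_
  split_ifs
  · ring
  · simp

/-- `sum_ori` with `w = 1`, `o' = o`: the six level sets have the same size -/
theorem ncard_level (hf : Y.Finite) (hY : Stb Y) (ho : Ori Y o) (j : Z6) :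
    Y.ncard = 6 * (Y ∩ {x | o x = j}).ncard := by
  have hs : ((hf.toFinset : Finset M) : Set M) = Y := hf.coe_toFinset
  have h : ∀ i : Z6, ∑ x ∈ hf.toFinset, (if o x = i then 1 else 0 : ℕ) =
      ∑ x ∈ hf.toFinset, (if o x = j then 1 else 0 : ℕ) := fun i =>
    sum_ori hf.toFinset (by rwa [hs]) (o := o) (o' := o) (by rwa [hs]) (by rwa [hs])
      (fun _ => (1 : ℕ)) (fun _ _ => rfl) i j
  have e1 : (Y ∩ {x | o x = j}).ncard = ∑ x ∈ hf.toFinset, (if o x = j then 1 else 0 : ℕ) := by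
    rw [← Finset.card_filter, ← Set.ncard_coe_finset]
    congr 1
    ext x
    simp
  have e2 : Y.ncard = ∑ i : Z6, ∑ x ∈ hf.toFinset, (if o x = i then 1 else 0 : ℕ) := by
    rw [Finset.sum_comm, Set.ncard_eq_toFinset_card Y hf, Finset.card_eq_sum_ones]
    refine Finset.sum_congr rfl fun x _ => ?_
    simp
  rw [e2, e1, Finset.sum_congr rfl fun i _ => h i, Finset.sum_const, Finset.card_univ, ZMod.card,
    smul_eq_mul]

theorem syb_ncard_ne (M : Type*) [Zero M] [Finite M] : {x : M | x ≠ 0}.ncard + 1 = Nat.card M := by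
  have e : {x : M | x ≠ 0} = ({0} : Set M)ᶜ := by ext x; simp
  have h := Set.ncard_add_ncard_compl ({0} : Set M)
  rw [Set.ncard_singleton] at h
  rw [e]
  omega

theorem ncard_level_nq [Finite M] (ho : Ori {x : M | x ≠ 0} o) (j : Z6) :
    ({x : M | x ≠ 0} ∩ {x | o x = j}).ncard = nq M := by
  have h1 := ncard_level (Set.toFinite _) stb_ne ho j
  have h2 := syb_ncard_ne M
  unfold nq
  omega

theorem card_eq_nq [Finite M] (h : Fr M) : Nat.card M = 6 * nq M + 1 := by
  obtain ⟨o, ho⟩ := exists_ori h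
  have h1 := ncard_level (Set.toFinite _) stb_ne ho 0
  rw [ncard_level_nq ho, ] at h1
  rw [← syb_ncard_ne M, h1]

/-- a finite submodule has `≡ 1 (mod 6)` elements (`card_eq_nq` for the subtype) -/
theorem ncard_submodule (h : Fr M) (N : Submodule O M) (hN : (N : Set M).Finite) :
    (((N : Set M).ncard : ℕ) : Z6) = 1 := by
  haveI : Finite N := hN.to_subtype
  have hN' : Fr N := fun x hx => Subtype.ext (h x (by
    have := congrArg Subtype.val hx
    simpa using this))
  have e : (N : Set M).ncard = Nat.card N := (Nat.card_coe_set_eq _).symm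
  rw [e, card_eq_nq hN']
  push_cast
  have : (6 : Z6) = 0 := rfl
  rw [this, zero_mul, zero_add]

end

/-! ### Part c: the symbol -/

/-- a chosen orientation -/
noncomputable def ori (M : Type*) [AddCommGroup M] [Module O M] : M → Z6 :=
  if h : Fr M then (exists_ori h).choose else 0

theorem ori_spec {M : Type*} [AddCommGroup M] [Module O M] (h : Fr M) : Ori {x | x ≠ 0} (ori M) := by
  rw [ori, dif_pos h]
  exact (exists_ori h).choose_spec

/-- the Gauss-lemma symbol -/
noncomputable def sym {M : Type*} [AddCommGroup M] [Module O M] (f : M →ₗ[O] M) : Z6 :=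
  dfs {x | x ≠ 0} (ori M) fun x => ori M (f x)

section
variable {M M' M'' : Type*} [AddCommGroup M] [Module O M] [AddCommGroup M'] [Module O M']
  [AddCommGroup M''] [Module O M'']

theorem syb_ori_comp {f : M →ₗ[O] M} (hf : Injective f) {o : M → Z6} (ho : Ori {x | x ≠ 0} o) :
    Ori {x | x ≠ 0} fun x => o (f x) := fun x hx => by
  have hx' : f x ≠ 0 := fun e => hx (hf (e.trans (map_zero f).symm))
  simp only [map_smul]
  exact ho _ hx'

theorem syb_dfs_bij [Finite M] {f : M →ₗ[O] M} (hf : Bijective f) (o o' : M → Z6) :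
    dfs {x | x ≠ 0} (fun x => o (f x)) (fun x => o' (f x)) = dfs {x | x ≠ 0} o o' := by
  rw [dfs_inj (Set.toFinite _) hf.1.injOn]
  congr 1
  ext y
  constructor
  · rintro ⟨x, hx, rfl⟩ e
    exact hx (hf.1 (e.trans (map_zero f).symm))
  · intro hy
    obtain ⟨x, rfl⟩ := hf.2 y
    exact ⟨x, fun e => hy (by rw [e, map_zero]), rfl⟩

/-- `dfs o (o f) = dfs o o' + dfs o' (o' f) + dfs (o' f) (o f)` and `dfs (o' f) (o f) = dfs o' o` (`dfs_inj`) -/
theorem sym_eq [Finite M] (h : Fr M) {f : M →ₗ[O] M} (hf : Bijective f) {o : M → Z6}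
    (ho : Ori {x | x ≠ 0} o) : sym f = dfs {x | x ≠ 0} o fun x => o (f x) := by
  have hr := ori_spec h
  have hF : {x : M | x ≠ 0}.Finite := Set.toFinite _
  have h1 := dfs_add hF stb_ne ho hr (syb_ori_comp hf.1 ho)
  have h2 := dfs_add hF stb_ne hr (syb_ori_comp hf.1 hr) (syb_ori_comp hf.1 ho)
  have h3 := syb_dfs_bij hf (ori M) o
  have h4 := dfs_add hF stb_ne ho hr ho
  rw [dfs_self] at h4
  rw [← h1, ← h2, h3, sym]
  linear_combination (-1 : Z6) * h4

theorem sym_of_eq_id {f : M →ₗ[O] M} (hf : ∀ x, f x = x) : sym f = 0 := by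
  simp only [sym, hf]
  exact dfs_self _ _

theorem sym_subsingleton [Subsingleton M] (f : M →ₗ[O] M) : sym f = 0 :=
  sym_of_eq_id fun _ => Subsingleton.elim _ _

theorem nq_subsingleton (M : Type*) [Subsingleton M] : nq M = 0 := by
  have : Nat.card M ≤ 1 := Finite.card_le_one_iff_subsingleton.2 ‹_›
  unfold nq
  omega

theorem sym_comp [Finite M] (h : Fr M) {f g : M →ₗ[O] M} (hf : Bijective f) (hg : Bijective g) :
    sym (f ∘ₗ g) = sym f + sym g := by
  have hr := ori_spec h
  have hF : {x : M | x ≠ 0}.Finite := Set.toFinite _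
  have h1 := dfs_add hF stb_ne hr (syb_ori_comp hg.1 hr) (syb_ori_comp hg.1 (syb_ori_comp hf.1 hr))
  have h2 := syb_dfs_bij hg (ori M) fun x => ori M (f x)
  simp only [sym, LinearMap.comp_apply]
  rw [← h1, h2, add_comm]

/-- Additivity in short exact sequences.  Orientation of `M`: `ori M'' (p x)` if `p x ≠ 0`, and `ori M' x'` for
`x = i x'`; `sym_eq`, `dfs_diff` with `Y' = i '' {≠ 0}`, `dfs_inj`, `dfs_fiber` (the fibres of `p` are translates of
`ker p`, `ncard_submodule`). -/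
theorem sym_exact [Finite M] (h : Fr M) (h' : Fr M') (h'' : Fr M'') {i : M' →ₗ[O] M} {p : M →ₗ[O] M''}
    (hi : Injective i) (hp : Surjective p) (hex : ∀ x, p x = 0 ↔ ∃ x', i x' = x)
    {f : M →ₗ[O] M} {f' : M' →ₗ[O] M'} {f'' : M'' →ₗ[O] M''} (hf' : Bijective f') (hf'' : Bijective f'')
    (h1 : ∀ x', f (i x') = i (f' x')) (h2 : ∀ x, p (f x) = f'' (p x)) :
    Bijective f ∧ sym f = sym f' + sym f'' := by
  haveI : Finite M' := Finite.of_injective i hi
  have hinj : Injective f := by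
    refine (injective_iff_map_eq_zero f).2 fun x hx => ?_
    have h3 : p x = 0 := (map_eq_zero_iff f'' hf''.1).1 (by rw [← h2, hx, map_zero])
    obtain ⟨x', rfl⟩ := (hex x).1 h3
    rw [h1, map_eq_zero_iff i hi, map_eq_zero_iff f' hf'.1] at hx
    rw [hx, map_zero]
  have hf : Bijective f := Finite.injective_iff_bijective.1 hinj
  refine ⟨hf, ?_⟩
  have hpi : ∀ x', p (i x') = 0 := fun x' => (hex _).2 ⟨x', rfl⟩
  obtain ⟨o, ho1, ho2⟩ : ∃ o : M → Z6, (∀ x', o (i x') = ori M' x') ∧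
      ∀ x, p x ≠ 0 → o x = ori M'' (p x) := by
    refine ⟨fun x => if p x = 0 then ori M' (invFun i x) else ori M'' (p x), fun x' => ?_,
      fun x hx => if_neg hx⟩
    simp only [hpi x', if_true, leftInverse_invFun hi x']
  have ho : Ori {x : M | x ≠ 0} o := by
    intro x hx
    by_cases hx0 : p x = 0
    · obtain ⟨x', rfl⟩ := (hex x).1 hx0
      have hx' : x' ≠ 0 := fun h0 => hx (by rw [h0, map_zero])
      rw [← map_smul, ho1, ho1]
      exact ori_spec h' x' hx'
    · have h3 : p (zt • x) ≠ 0 := by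
        rw [map_smul]
        exact stb_ne (p x) hx0
      rw [ho2 _ h3, ho2 _ hx0, map_smul]
      exact ori_spec h'' (p x) hx0
  have hsub : i '' {x' : M' | x' ≠ 0} ⊆ {x : M | x ≠ 0} := by
    rintro _ ⟨x', hx', rfl⟩
    exact fun h0 => hx' ((map_eq_zero_iff i hi).1 h0)
  have hdiff : {x : M | x ≠ 0} \ i '' {x' : M' | x' ≠ 0} = {x | p x ≠ 0} := by
    ext x
    constructor
    · rintro ⟨hx, hx2⟩ hx0
      obtain ⟨x', rfl⟩ := (hex x).1 hx0
      exact hx2 ⟨x', fun h0 => hx (by rw [h0, map_zero]), rfl⟩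
    · intro hx
      refine ⟨fun h0 => hx (by rw [h0, map_zero]), ?_⟩
      rintro ⟨x', -, rfl⟩
      exact hx (hpi x')
  have himg : p '' {x : M | p x ≠ 0} = {y : M'' | y ≠ 0} := by
    ext y
    constructor
    · rintro ⟨x, hx, rfl⟩
      exact hx
    · intro hy
      obtain ⟨x, rfl⟩ := hp y
      exact ⟨x, hy, rfl⟩
  have hfib : ∀ x ∈ {x : M | p x ≠ 0},
      ((({x : M | p x ≠ 0} ∩ {x' | p x' = p x}).ncard : ℕ) : Z6) = 1 := by
    intro x hx
    have h3 : {x : M | p x ≠ 0} ∩ {x' | p x' = p x} =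
        (fun k => x + k) '' (LinearMap.ker p : Set M) := by
      ext y
      constructor
      · rintro ⟨-, hy⟩
        refine ⟨y - x, ?_, add_sub_cancel x y⟩
        have hy' : p y = p x := hy
        rw [SetLike.mem_coe, LinearMap.mem_ker, map_sub, hy', sub_self]
      · rintro ⟨k, hk, rfl⟩
        have hk' : p k = 0 := hk
        have h4 : p (x + k) = p x := by rw [map_add, hk', add_zero]
        exact ⟨fun h0 => hx (h4 ▸ h0), h4⟩
    rw [h3, Set.ncard_image_of_injective _ (add_right_injective x)]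
    exact ncard_submodule h _ (Set.toFinite _)
  rw [sym_eq h hf ho, dfs_diff (Set.toFinite _) hsub, hdiff]
  congr 1
  · rw [← dfs_inj (Set.toFinite _) hi.injOn o fun x => o (f x)]
    exact dfs_congr (fun x _ => ho1 x) fun x _ => by rw [h1, ho1]
  · rw [sym, ← himg, ← dfs_fiber (Set.toFinite _) p hfib]
    refine dfs_congr (fun x hx => ho2 x hx) fun x hx => ?_
    have h3 : p (f x) ≠ 0 := by
      rw [h2]
      exact fun h0 => hx ((map_eq_zero_iff f'' hf''.1).1 h0)
    rw [ho2 _ h3, h2]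

/-! ### Part d -/

theorem sya_card [Finite M] {o : M → Z6} (ho : Ori {x | x ≠ 0} o) (j : Z6) :
    ((Set.toFinite {x : M | x ≠ 0}).toFinset.filter fun x => o x = j).card = nq M := by
  rw [← ncard_level_nq ho j, ← Set.ncard_coe_finset]
  congr 1
  ext x
  simp

/-- `∑_{x ≠ 0, o x = 0} ∑_{y ≠ 0} o' y = nq M · nq M' · (0 + 1 + ⋯ + 5)` (`ncard_level_nq`) -/
theorem dfs_prod [Finite M] [Finite M'] {o : M → Z6} {o' : M' → Z6} (ho : Ori {x | x ≠ 0} o)
    (ho' : Ori {x | x ≠ 0} o') :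
    dfs {p : M × M' | p.1 ≠ 0 ∧ p.2 ≠ 0} (fun p => o p.1) (fun p => o' p.2) = 3 * nq M * nq M' := by
  have e : (Set.toFinite {p : M × M' | p.1 ≠ 0 ∧ p.2 ≠ 0}).toFinset =
      (Set.toFinite {x : M | x ≠ 0}).toFinset ×ˢ (Set.toFinite {x : M' | x ≠ 0}).toFinset := by
    ext p
    simp
  have h1 : ∑ y ∈ (Set.toFinite {x : M' | x ≠ 0}).toFinset, o' y = 3 * nq M' := by
    have h3 : ∑ j : Z6, j = 3 := by decide
    rw [← Finset.sum_fiberwise _ o', ← h3, Finset.sum_mul]
    refine Finset.sum_congr rfl fun j _ => ?_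
    rw [Finset.sum_congr rfl fun y hy => (Finset.mem_filter.1 hy).2, Finset.sum_const, sya_card ho',
      nsmul_eq_mul, mul_comm]
  rw [dfs_eq_sum (Set.toFinite _), e, Finset.sum_product]
  simp only [Finset.sum_ite_irrel, Finset.sum_const_zero, h1]
  rw [← Finset.sum_filter, Finset.sum_const, sya_card ho, nsmul_eq_mul]
  ring

end

theorem syd_val_add {k : Type*} [Monoid k] {ζ : k} (h6 : ζ ^ 6 = 1) (i j : Z6) :
    ζ ^ (i + j).val = ζ ^ i.val * ζ ^ j.val := by
  rw [← pow_add, ZMod.val_add, ← pow_eq_pow_mod _ h6]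

theorem syd_val_sum {k ι : Type*} [CommMonoid k] {ζ : k} (h6 : ζ ^ 6 = 1) (s : Finset ι) (e : ι → Z6) :
    ζ ^ (∑ x ∈ s, e x).val = ∏ x ∈ s, ζ ^ (e x).val := by
  induction s using Finset.induction_on with
  | empty => simp
  | insert a s ha ih => rw [Finset.sum_insert ha, Finset.prod_insert ha, syd_val_add h6, ih]

/-- Gauss's lemma.  With `S = {x ≠ 0, o x = 0}` (`nq k` elements) write `a x = ζ ^ (o (a x)).val · σ x`, `σ x ∈ S`;
`σ` is injective on `S` (if `σ x = σ x'` then `x' = ζ ^ e x`, so `e ≡ 0` by `Ori.pow`), hence a permutation of `S`;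
multiply over `S` and cancel `∏ x`. -/
theorem sym_field {k : Type*} [Field k] [Finite k] [Algebra O k] (h : Fr k) {a : k} (ha : a ≠ 0) :
    a ^ nq k = algebraMap O k zt ^ (sym (LinearMap.mulLeft O a)).val := by
  set ζ : k := algebraMap O k zt with hζ
  have h6 : ζ ^ 6 = 1 := by rw [hζ, ← map_pow, zt_pow_six, map_one]
  have ho := ori_spec h
  set o := ori k with hodef
  have hfin : ({x : k | x ≠ 0}).Finite := Set.toFinite _
  set Y := hfin.toFinset with hY
  have hYm : ∀ x, x ∈ Y ↔ x ≠ 0 := fun x => by simp [hY]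
  have hYc : (Y : Set k) = {x | x ≠ 0} := by simp [hY]
  have hsm : ∀ x : k, zt • x = ζ * x := fun x => Algebra.smul_def _ _
  -- the invariant function
  let u : k → k := fun x => x * ζ ^ (-o x).val
  have hu : ∀ x, x ≠ 0 → u (zt • x) = u x := fun x hx => by
    have e1 : -o x = -o (zt • x) + 1 := by rw [ho x hx]; ring
    have e2 : (1 : Z6).val = 1 := rfl
    simp only [u]
    rw [e1, syd_val_add h6, e2, hsm, pow_one]
    ring
  have hux : ∀ x, ζ ^ (o x).val * u x = x := fun x => by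
    simp only [u]
    rw [mul_left_comm, ← syd_val_add h6, add_neg_cancel, ZMod.val_zero, pow_zero, mul_one]
  have ho' : Ori {x : k | x ≠ 0} fun x => o (a * x) := fun x hx => by
    have := ho (a * x) (mul_ne_zero ha hx)
    simp only
    rw [← this, hsm, hsm, mul_left_comm]
  have key := sum_ori (β := Additive k) Y (hYc ▸ stb_ne) (hYc ▸ ho) (hYc ▸ ho')
    (fun x => Additive.ofMul (u (a * x))) (fun x hx => by
      rw [← hu (a * x) (mul_ne_zero ha ((hYm x).1 hx)), hsm, hsm, mul_left_comm]) 0 0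
  rw [← Finset.sum_filter, ← Finset.sum_filter, ← ofMul_prod, ← ofMul_prod] at key
  have key2 : ∏ x ∈ Y with o x = 0, u (a * x) = ∏ x ∈ Y with o (a * x) = 0, u (a * x) :=
    Additive.ofMul.injective key
  have key3 : ∏ x ∈ Y with o (a * x) = 0, u (a * x) = ∏ x ∈ Y with o x = 0, x := by
    refine Finset.prod_nbij' (fun x => a * x) (fun y => a⁻¹ * y) ?_ ?_ ?_ ?_ ?_
    · intro x hx
      simp only [Finset.mem_filter, hYm] at hx ⊢
      exact ⟨mul_ne_zero ha hx.1, hx.2⟩
    · intro y hy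
      simp only [Finset.mem_filter, hYm] at hy ⊢
      exact ⟨mul_ne_zero (inv_ne_zero ha) hy.1, by rw [mul_inv_cancel_left₀ ha]; exact hy.2⟩
    · intro x _
      exact inv_mul_cancel_left₀ ha x
    · intro y _
      exact mul_inv_cancel_left₀ ha y
    · intro x hx
      have := hux (a * x)
      rw [(Finset.mem_filter.1 hx).2, ZMod.val_zero, pow_zero, one_mul] at this
      exact this
  have hcard : (Y.filter fun x => o x = 0).card = nq k := by
    rw [← ncard_level_nq ho 0, ← Set.ncard_coe_finset]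
    congr 1
    ext x
    simp [hYm]
  have hsym : sym (LinearMap.mulLeft O a) = ∑ x ∈ Y with o x = 0, o (a * x) := by
    rw [sym, dfs_eq_sum hfin, Finset.sum_filter]
    rfl
  have hP : ∏ x ∈ Y with o x = 0, x ≠ 0 :=
    Finset.prod_ne_zero_iff.2 fun x hx => (hYm x).1 (Finset.mem_filter.1 hx).1
  rw [hsym, syd_val_sum h6, ← hcard]
  refine mul_right_cancel₀ hP ?_
  rw [← Finset.prod_const, ← Finset.prod_mul_distrib]
  conv_rhs => rw [← key3, ← key2, ← Finset.prod_mul_distrib]
  exact Finset.prod_congr rfl fun x _ => (hux _).symm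

end Crest.Agent.R27.Rec
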